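import Vale.Agent.P240.H138.O25Defs
import Vale.Agent.P240.R2.H401.E2
import Vale.Agent.P240.R2.H584.Top
import Vale.Agent.P240.R2.H986.ES

/-!
Top cycles for the extension by a field automorphism of order `2`, from solutions with sum zero.
-/

set_option autoImplicit false
set_option linter.all false

namespace Vale.Agent.P240.R2.N402.Om

open Matrix Vale.Agent.P240.R2.AS Vale.Agent.P240.R2.H38 Vale.Agent.P240.K
open Vale.Agent.P240.R2.H938 (TD TC mem_TD)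
open Vale.Agent.P240.R2.H296.O (SOm)
open Vale.Agent.P240.R2.H401.E
open Vale.Agent.P240.R2.H986 (ev)
open Vale.Agent.P240.H138.O25 (RF SSol)
open scoped Classical

universe u v w

noncomputable section

section gen
variable {K : Type u} [Field K] [Fintype K] [StarRing K] {n : ℕ}

lemma mem_Ftw {s : GU K n} {σ : K ≃+* K} {w : List (Ln K n)} :
    w ∈ Ftw s σ ↔ w ∈ Fr K n ∧ ∀ P ∈ w, s.1 * P.1.map σ * star s.1 = P.1 := Finset.mem_filter

lemma Ftw_sub (s : GU K n) (σ : K ≃+* K) : Ftw s σ ⊆ Fr K n := Finset.filter_subset _ _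

lemma Fr_prm {w w' : List (Ln K n)} (hw : w ∈ Fr K n) (h : w.Perm w') : w' ∈ Fr K n := by
  obtain ⟨h1, h2⟩ := (mem_Fr K).1 hw
  exact (mem_Fr K).2 ⟨h.length_eq.symm.trans h1, orth_perm h h2⟩

lemma Ftw_perm (s : GU K n) (σ : K ≃+* K) : ∀ w ∈ Ftw s σ, ∀ w', w.Perm w' → w' ∈ Ftw s σ := by
  intro w hw w' h
  rw [mem_Ftw] at hw ⊢
  exact ⟨Fr_prm hw.1 h, fun P hP => hw.2 P (h.mem_iff.2 hP)⟩

lemma SOL_mono {X : Type u} [Fintype X] {F F' : Finset (List X)} (h : F ⊆ F') :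
    AS.SOL F ≤ AS.SOL F' := fun z hz => ⟨fun w hw => hz.1 w fun h' => hw (h h'), hz.2⟩

variable {S : Subgroup (GU K n)} {ζ c : K} {G : Type v} [Group G]

lemma acts_mul (hS : SGood 2 ζ c S) {ε : S →* G} {x : G} {σ : K ≃+* K} (hx : ActsS ε x 1 σ) (s : S) :
    ActsS ε (ε s * x) s.1 σ := by
  refine ⟨hx.1, fun a b hab => ?_⟩
  have h1 := hx.2 a (frS hS σ hx.1 a) (by
    rw [mx_frS]
    have e1 : ((1 : GU K n) : Matrix (Fin n) (Fin n) K) = 1 := rfl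
    rw [e1, star_one, one_mul, mul_one])
  have h2 : b = s * frS hS σ hx.1 a * s⁻¹ := by
    apply mx_inj
    rw [hab, mx_mul, mx_mul, mx_frS]
    rfl
  have h3 : ε s * x * ε a * (ε s * x)⁻¹ = ε s * (x * ε a * x⁻¹) * (ε s)⁻¹ := by group
  rw [h3, h1, h2, map_mul, map_mul, map_inv]

lemma sq_one (hS : SGood 2 ζ c S) {ε : S →* G} {x : G} (hx2 : x ^ 2 = 1) {σ : K ≃+* K}
    (hx : ActsS ε x 1 σ) {s : S} (hs : RF σ s.1) : (ε s * x) ^ 2 = 1 := by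
  have h1 := hx.2 s (frS hS σ hx.1 s) (by
    rw [mx_frS]
    have e1 : ((1 : GU K n) : Matrix (Fin n) (Fin n) K) = 1 := rfl
    rw [e1, star_one, one_mul, mul_one])
  have h2 : s * frS hS σ hx.1 s = 1 := by
    apply mx_inj
    rw [mx_mul, mx_frS]
    exact hs
  have h3 : (ε s * x) ^ 2 = ε s * (x * ε s * x⁻¹) * x ^ 2 := by
    rw [pow_two, pow_two]; group
  rw [h3, h1, ← map_mul, h2, map_one, hx2, one_mul]

variable [Finite G]

/-- **Top cycles from solutions with sum zero.** -/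
theorem top_sum (𝕜 : Type w) [Field 𝕜] (hS : SGood 2 ζ c S) {ε : S →* G}
    (hker : ∀ g : S, ε g = 1 ↔ ∃ a : K, mx g = a • (1 : Matrix (Fin n) (Fin n) K))
    {x : G} (hx2 : x ^ 2 = 1) (hxN : x ∉ ε.range) {σ : K ≃+* K} (hx : ActsS ε x 1 σ) (hσ : σ ζ = ζ)
    (W : Finset S) (z : S → List (Ln K n) → ℚ) (hW : ∀ s ∈ W, RF σ s.1)
    (hz : ∀ s ∈ W, z s ∈ AS.SOL (Ftw s.1 σ)) (hsum : ∑ s ∈ W, z s = 0) (h1 : 1 ∈ W)
    {g : List (Ln K n)} (hg : ev (z 1) g [] [] ≠ 0)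
    (hg' : ∀ s ∈ W, s ≠ 1 → (∃ a : K, mx s = a • (1 : Matrix (Fin n) (Fin n) K)) →
      ev (z s) g [] [] = 0) :
    ∃ s ∈ W, ∃ w ∈ Fr K n, (ε s * x) ^ 2 = 1 ∧
      (∀ a ∈ De (eS S ζ c ε) w, (ε s * x) * a = a * (ε s * x)) ∧
      ∃ (α : Ch 𝕜 (Subgroup G)) (l : List (Subgroup G)),
        TopCycle 𝕜 2 (ε.range ⊔ Subgroup.zpowers x)
          (De (eS S ζ c ε) w ⊔ Subgroup.zpowers (ε s * x)) α l ∧ l.length = n := by
  have hc := comb_eS hS hker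
  set Y : Finset G := W.image fun s => ε s * x with hY
  set Fy : G → Finset (List (Ln K n)) := fun y =>
    (W.filter fun s => ε s * x = y).biUnion fun s => Ftw s.1 σ with hFy
  have hmem : ∀ {y : G} {w : List (Ln K n)}, w ∈ Fy y ↔ ∃ s ∈ W, ε s * x = y ∧ w ∈ Ftw s.1 σ := by
    intro y w
    rw [hFy]
    simp only [Finset.mem_biUnion, Finset.mem_filter]
    constructor
    · rintro ⟨s, ⟨h2, h3⟩, h4⟩
      exact ⟨s, h2, h3, h4⟩
    · rintro ⟨s, h2, h3, h4⟩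
      exact ⟨s, ⟨h2, h3⟩, h4⟩
  have hd : H945.SemiData 2 (Fr K n) (eS S ζ c ε) ε.range (ε.range ⊔ Subgroup.zpowers x) Y Fy := by
    have hYs : ∀ y ∈ Y, ∃ s ∈ W, y = ε s * x := by
      intro y hy
      obtain ⟨s, hs, rfl⟩ := Finset.mem_image.1 hy
      exact ⟨s, hs, rfl⟩
    refine ⟨fun u v h => ⟨_, rfl⟩, le_sup_left, fun y hy => ?_, fun y hy => ?_, fun y hy => ?_,
      fun y hy y' hy' => ?_, fun y hy w hw => ?_, fun y hy w hw w' hp => ?_, fun y hy u v h => ?_⟩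
    · obtain ⟨s, hs, rfl⟩ := hYs y hy
      exact sq_one hS hx2 hx (hW s hs)
    · obtain ⟨s, hs, rfl⟩ := hYs y hy
      exact Subgroup.mul_mem _ (Subgroup.mem_sup_left ⟨s, rfl⟩)
        (Subgroup.mem_sup_right (Subgroup.mem_zpowers x))
    · obtain ⟨s, hs, rfl⟩ := hYs y hy
      intro h
      have h6 : ε s ∈ ε.range := ⟨s, rfl⟩
      exact hxN ((Subgroup.mul_mem_cancel_left _ h6).1 h)
    · obtain ⟨s, hs, rfl⟩ := hYs y hy
      obtain ⟨s', hs', rfl⟩ := hYs y' hy'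
      have h2 : (ε s * x)⁻¹ * (ε s' * x) = x⁻¹ * ε (s⁻¹ * s') * x := by
        rw [map_mul, map_inv]; group
      have h3 : x⁻¹ = x := by rw [inv_eq_iff_mul_eq_one, ← pow_two, hx2]
      have h4 := hx.2 (s⁻¹ * s') (frS hS σ hx.1 (s⁻¹ * s')) (by
        rw [mx_frS]
        have e1 : ((1 : GU K n) : Matrix (Fin n) (Fin n) K) = 1 := rfl
        rw [e1, star_one, one_mul, mul_one])
      have h5 : x⁻¹ * ε (s⁻¹ * s') * x = x * ε (s⁻¹ * s') * x⁻¹ := by rw [h3]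
      rw [h2, h5, h4]
      exact ⟨_, rfl⟩
    · obtain ⟨s, hs, -, h2⟩ := hmem.1 hw
      exact Ftw_sub _ _ h2
    · obtain ⟨s, hs, h2, h3⟩ := hmem.1 hw
      exact hmem.2 ⟨s, hs, h2, Ftw_perm _ _ _ h3 _ hp⟩
    · obtain ⟨s, hs, rfl, h3⟩ := hmem.1 h
      have h4 := mem_Ftw.1 h3
      exact (H986.E.comm_litd hS hker (acts_mul hS hx s) hσ
        (List.pairwise_append.1 ((mem_Fr K).1 h4.1).2).1 fun P hP =>
          h4.2 P (List.mem_append_left _ hP)).symm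
  set z' : G → List (Ln K n) → ℚ := fun y => ∑ s ∈ W.filter (fun s => ε s * x = y), z s with hz'
  have hne : AS.bm (Ln K n) (z' x) ≠ 0 := by
    intro h0
    apply hg
    have h2 : ev (z' x) g [] [] = 0 := congrFun h0 g
    have h3 : AS.bm (Ln K n) (z' x) g =
        ∑ s ∈ W.filter (fun s => ε s * x = x), AS.bm (Ln K n) (z s) g := by
      rw [hz', map_sum, Finset.sum_apply]
    have h4 : ∑ s ∈ W.filter (fun s => ε s * x = x), AS.bm (Ln K n) (z s) g =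
        AS.bm (Ln K n) (z 1) g := by
      refine Finset.sum_eq_single_of_mem 1 (by simp [h1]) fun s hs hs1 => ?_
      obtain ⟨h5, h6⟩ := Finset.mem_filter.1 hs
      refine hg' s h5 hs1 ((hker s).1 ?_)
      exact mul_eq_right.1 h6
    show AS.bm (Ln K n) (z 1) g = 0
    rw [← h4, ← h3]
    exact h2
  obtain ⟨y, hy, w, hw, α, l, h4, h5⟩ := H584.top_of_sum (by have := hS.hn; omega) hc hd z'
    (fun y hy => by
      refine Submodule.sum_mem _ fun s hs => ?_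
      obtain ⟨h5, h6⟩ := Finset.mem_filter.1 hs
      exact SOL_mono (fun w hw => hmem.2 ⟨s, h5, h6, hw⟩) (hz s h5))
    (by
      rw [← hsum]
      exact Finset.sum_fiberwise_of_maps_to (fun s hs => Finset.mem_image_of_mem _ hs) z)
    (y₀ := x) (Finset.mem_image.2 ⟨1, h1, by rw [map_one, one_mul]⟩) hne 𝕜
  obtain ⟨s, hs, h2, h3⟩ := hmem.1 hw
  subst h2
  refine ⟨s, hs, w, Ftw_sub _ _ h3, sq_one hS hx2 hx (hW s hs), fun a ha => ?_, α, l, ?_, h5⟩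
  · have h7 : De (eS S ζ c ε) w ≤ Subgroup.centralizer ({ε s * x} : Set G) := by
      rw [De, Subgroup.closure_le]
      rintro _ ⟨u, v, h, rfl⟩
      rw [SetLike.mem_coe, Subgroup.mem_centralizer_singleton_iff]
      exact hd.fix _ hy u v (h ▸ hw)
    exact (Subgroup.mem_centralizer_singleton_iff.1 (h7 ha)).symm
  · rw [sup_comm (Subgroup.zpowers (ε s * x))] at h4
    exact h4

/-- the solutions in the form of `SSol` -/
theorem top_SSol (𝕜 : Type w) [Field 𝕜] (hS : SGood 2 ζ c (SOm K n)) {ε : SOm K n →* G}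
    (hker : ∀ g : SOm K n, ε g = 1 ↔ ∃ a : K, mx g = a • (1 : Matrix (Fin n) (Fin n) K))
    {x : G} (hx2 : x ^ 2 = 1) (hxN : x ∉ ε.range) {σ : K ≃+* K} (hx : ActsS ε x 1 σ) (hσ : σ ζ = ζ)
    (h : SSol σ n) :
    ∃ (s : SOm K n), ∃ w ∈ Fr K n, (ε s * x) ^ 2 = 1 ∧
      (∀ a ∈ De (eS (SOm K n) ζ c ε) w, (ε s * x) * a = a * (ε s * x)) ∧
      ∃ (α : Ch 𝕜 (Subgroup G)) (l : List (Subgroup G)),
        TopCycle 𝕜 2 (ε.range ⊔ Subgroup.zpowers x)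
          (De (eS (SOm K n) ζ c ε) w ⊔ Subgroup.zpowers (ε s * x)) α l ∧ l.length = n := by
  obtain ⟨W, z, hW, hz, hsum, h1, g, hg, hg'⟩ := h
  have hinj : Function.Injective (Subtype.val : SOm K n → GU K n) := Subtype.val_injective
  set W' : Finset (SOm K n) := W.preimage Subtype.val hinj.injOn with hW'
  have hm : ∀ {s : SOm K n}, s ∈ W' ↔ s.1 ∈ W := fun {s} => by rw [hW', Finset.mem_preimage]
  obtain ⟨s, -, h⟩ := top_sum 𝕜 hS hker hx2 hxN hx hσ W' (fun s => z s.1)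
    (fun s hs => (hW _ (hm.1 hs)).2) (fun s hs => hz _ (hm.1 hs)) (by
      rw [← hsum, hW']
      refine Finset.sum_preimage _ _ hinj.injOn z fun s hs hs' => ?_
      exact absurd ⟨⟨s, (hW s hs).1⟩, rfl⟩ hs')
    (hm.2 h1) hg (fun s hs hs1 ha => hg' s.1 (hm.1 hs) (fun h => hs1 (Subtype.ext h)) ha)
  exact ⟨s, h⟩

omit [Finite G] in
lemma t_pos {σ : K ≃+* K} (h : SSol σ n) : 0 < AS.t (Ftw (1 : GU K n) σ) := by
  obtain ⟨W, z, hW, hz, hsum, h1, g, hg, hg'⟩ := h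
  have h2 : (AS.SOL (Ftw (1 : GU K n) σ)).map (AS.bm (Ln K n)) ≠ ⊥ := by
    intro h0
    have h3 : AS.bm (Ln K n) (z 1) ∈ (AS.SOL (Ftw (1 : GU K n) σ)).map (AS.bm (Ln K n)) :=
      ⟨_, hz 1 h1, rfl⟩
    rw [h0, Submodule.mem_bot] at h3
    exact hg (congrFun h3 g)
  rw [AS.t]
  have hfd : Module.Finite ℚ (AS.SOL (Ftw (1 : GU K n) σ)) := by
    let F := Ftw (1 : GU K n) σ
    let ρ : (List (Ln K n) → ℚ) →ₗ[ℚ] (F → ℚ) := LinearMap.funLeft ℚ ℚ (Subtype.val : F → List (Ln K n))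
    have hinj : Function.Injective (ρ.domRestrict (AS.SOL F)) := by
      rw [← LinearMap.ker_eq_bot, LinearMap.ker_eq_bot']
      intro z hz
      apply Subtype.ext
      ext x
      by_cases hx : x ∈ F
      · exact congrFun hz ⟨x, hx⟩
      · exact z.2.1 x hx
    exact Module.Finite.of_injective _ hinj
  have hfd2 : Module.Finite ℚ ((AS.SOL (Ftw (1 : GU K n) σ)).map (AS.bm (Ln K n))) :=
    Module.Finite.map _ _
  rw [Module.finrank_pos_iff]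
  exact (Submodule.nontrivial_iff_ne_bot).2 h2

end gen

section
variable {K : Type u} [Field K] [Fintype K] [StarRing K] {m : ℕ} {G : Type v} [Group G] [Finite G]

/-- `top2` from `SSol` -/
theorem top2 (𝕜 : Type w) [Field 𝕜] (hE : ENum K m) {L : Subgroup G} {ε : SOm K (m + 1) →* G}
    (hε : EHom L ε) (hcard : ∀ u : GU K (m + 1), Nat.card (Ae ε u) = 2 ^ (m - 1)) {x : G}
    {σ : K ≃+* K} (hSol : SSol σ m)
    (hx : ActsS (ε.comp (io hE)) x 1 σ) {H : Subgroup G}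
    (hH : Lm hE ε ⊓ Subgroup.centralizer ({x} : Set G) ≤ H) :
    ∃ u, Ae ε u ≤ Lm hE ε ∧ (∀ c ∈ Ae ε u, x * c = c * x) ∧ TC 𝕜 2 H (Ae ε u) := by
  have hS := sgood hE
  have hker := io_ker hE hε.ker
  obtain ⟨w, hw, h1, α, φ, h3⟩ := H986.E.t2_litd 𝕜 hS rfl hker hx (by rw [map_neg, map_one])
    (F := Ftw 1 σ) (Ftw_sub _ _) (Ftw_perm _ _) (fun w hw P hP => (mem_Ftw.1 hw).2 P hP)
    (t_pos hSol)
  obtain ⟨u, hu⟩ := De_eq hE hε hcard hw
  refine ⟨u, ?_, ?_, ?_⟩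
  · rw [← hu]
    exact De_le _ rfl w
  · rw [← hu]
    exact h1
  · rw [← hu]
    exact tc_mono ⟨α, φ, h3⟩ hH

/-- `top3` from `SSol` -/
theorem top3 (𝕜 : Type w) [Field 𝕜] (hE : ENum K m)
    {L : Subgroup G} {ε : SOm K (m + 1) →* G}
    (hε : EHom L ε) (hcard : ∀ u : GU K (m + 1), Nat.card (Ae ε u) = 2 ^ (m - 1)) {x : G}
    {σ : K ≃+* K} (hSol : SSol σ m)
    (hx : ActsS (ε.comp (io hE)) x 1 σ) (hx2 : x ^ 2 = 1) (hxL : x ∉ L) {H : Subgroup G}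
    (hH : Lm hE ε ⊔ Subgroup.zpowers x ≤ H) :
    ∃ u x', Ae ε u ≤ Lm hE ε ∧ x' * x⁻¹ ∈ Lm hE ε ∧ x' ^ 2 = 1 ∧
      (∀ c ∈ Ae ε u, x' * c = c * x') ∧ TC 𝕜 2 H (Ae ε u ⊔ Subgroup.zpowers x') := by
  have hS := sgood hE
  have hker := io_ker hE hε.ker
  obtain ⟨s, w, hw, h0, h1, α, φ, h3, -⟩ := top_SSol 𝕜 hS hker hx2
    (fun hm => hxL (Lm_le hE hε hm)) hx (by rw [map_neg, map_one]) hSol
  obtain ⟨u, hu⟩ := De_eq hE hε hcard hw
  rw [hu] at h1 h3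
  refine ⟨u, (ε.comp (io hE)) s * x, ?_, ?_, h0, h1, tc_mono ⟨α, φ, h3⟩ hH⟩
  · rw [← hu]
    exact De_le _ rfl w
  · rw [mul_inv_cancel_right]
    exact ⟨s, rfl⟩

end

end

end Vale.Agent.P240.R2.N402.Om
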