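import Vale.Agent.P240.R2.H406.S0
import Mathlib.GroupTheory.PGroup

/-!
Simultaneous diagonalization of commuting involutive isometries of a three dimensional space over
`ZMod 5` of discriminant `1`.
-/

set_option autoImplicit false
set_option linter.all false

namespace Vale.Agent.P240.R2.N402.Fr

open Matrix Subgroup
open Vale.Agent.P240.R2.H145.EO (B ac OD rf rf_mem)
open Vale.Agent.P240.R2.H406

noncomputable section

/-- the form `x_0^2 + ... + x_5^2` -/
abbrev b1 : Fin 6 → ZMod 5 := fun _ => 1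

/-- the standard basis -/
abbrev be (i : Fin 6) : Fin 6 → ZMod 5 := Pi.single i 1

/-- three coordinates -/
abbrev V3 := ZMod 5 × ZMod 5 × ZMod 5

/-- embedding -/
def em (v : V3) : Fin 6 → ZMod 5 := ![0, 0, 0, v.1, v.2.1, v.2.2]

/-- projection -/
def pr (x : Fin 6 → ZMod 5) : V3 := (x 3, x 4, x 5)

/-- the norm -/
def nv (v : V3) : ZMod 5 := v.1 * v.1 + v.2.1 * v.2.1 + v.2.2 * v.2.2

/-- one of `v`, `-v` -/
def cd (v : V3) : Bool := v.1 = 1 || v.1 = 2 || (v.1 = 0 && (v.2.1 = 1 || v.2.1 = 2 ||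
  (v.2.1 = 0 && (v.2.2 = 1 || v.2.2 = 2))))

/-- the representative of `± v` -/
def rp (v : V3) : V3 := if cd v then v else -v

lemma rp_neg' : ∀ a b c : ZMod 5, rp (-a, -b, -c) = rp (a, b, c) := by decide

lemma rp_neg (v : V3) : rp (-v) = rp v := rp_neg' v.1 v.2.1 v.2.2

lemma rp_cd' : ∀ a b c : ZMod 5, nv (a, b, c) = 1 → cd (rp (a, b, c)) = true := by decide

lemma rp_cd (v : V3) (h : nv v = 1) : cd (rp v) = true := rp_cd' v.1 v.2.1 v.2.2 h

lemma rp_or (v : V3) : rp v = v ∨ rp v = -v := by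
  unfold rp
  split
  · exact Or.inl rfl
  · exact Or.inr rfl

lemma nv_neg (v : V3) : nv (-v) = nv v := by
  simp only [nv, Prod.fst_neg, Prod.snd_neg]; ring

lemma nv_rp (v : V3) : nv (rp v) = nv v := by
  rcases rp_or v with h | h
  · rw [h]
  · rw [h, nv_neg]

lemma B1 (x y : Fin 6 → ZMod 5) : B b1 x y =
    x 0 * y 0 + x 1 * y 1 + x 2 * y 2 + x 3 * y 3 + x 4 * y 4 + x 5 * y 5 := by
  unfold B
  simp only [Fin.sum_univ_succ, Fin.sum_univ_zero, one_mul]
  simp only [Fin.succ_zero_eq_one, Fin.succ_one_eq_two]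
  ring_nf
  rfl

lemma Be (i : Fin 6) (y : Fin 6 → ZMod 5) : B b1 (be i) y = y i := by
  rw [B_e, one_mul]

/-- the vectors in `⟨e_3, e_4, e_5⟩` -/
def IW (x : Fin 6 → ZMod 5) : Prop := x 0 = 0 ∧ x 1 = 0 ∧ x 2 = 0

lemma em_pr {x : Fin 6 → ZMod 5} (h : IW x) : em (pr x) = x := by
  obtain ⟨h0, h1, h2⟩ := h
  funext i
  fin_cases i
  · exact h0.symm
  · exact h1.symm
  · exact h2.symm
  · rfl
  · rfl
  · rfl

lemma iw_em (v : V3) : IW (em v) := ⟨rfl, rfl, rfl⟩

lemma pr_em (v : V3) : pr (em v) = v := rfl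

lemma em_neg (v : V3) : em (-v) = -em v := by
  funext i
  fin_cases i
  · exact neg_zero.symm
  · exact neg_zero.symm
  · exact neg_zero.symm
  · rfl
  · rfl
  · rfl

lemma pr_neg (x : Fin 6 → ZMod 5) : pr (-x) = -pr x := rfl

lemma B_em (v : V3) : B b1 (em v) (em v) = nv v := by
  rw [B1]
  show 0 * 0 + 0 * 0 + 0 * 0 + v.1 * v.1 + v.2.1 * v.2.1 + v.2.2 * v.2.2 = _
  unfold nv
  ring

lemma act_neg (g : ↥(OD b1)) (x : Fin 6 → ZMod 5) : act g (-x) = -act g x :=
  Vale.Agent.P240.R2.H145.EO.ac_neg _ _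

/-- the isometries fixing `e_0`, `e_1`, `e_2` -/
def Fx (g : ↥(OD b1)) : Prop := ∀ i : Fin 6, i.val < 3 → act g (be i) = be i

lemma Fx.mul {g h : ↥(OD b1)} (hg : Fx g) (hh : Fx h) : Fx (g * h) := fun i hi => by
  rw [act_mul, hh i hi, hg i hi]

lemma Fx.inv {g : ↥(OD b1)} (hg : Fx g) : Fx g⁻¹ := fun i hi => by
  have := act_inv g (be i)
  rwa [hg i hi] at this

lemma Fx.co {g : ↥(OD b1)} (hg : Fx g) (x : Fin 6 → ZMod 5) {i : Fin 6} (hi : i.val < 3) :
    (act g x) i = x i := by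
  rw [← Be i (act g x)]
  conv_lhs => rw [← hg i hi]
  rw [act_B, Be]

lemma Fx.iw {g : ↥(OD b1)} (hg : Fx g) {x : Fin 6 → ZMod 5} (hx : IW x) : IW (act g x) :=
  ⟨(hg.co x (i := 0) (by decide)).trans hx.1, (hg.co x (i := 1) (by decide)).trans hx.2.1,
    (hg.co x (i := 2) (by decide)).trans hx.2.2⟩

/-- the lines of norm one -/
abbrev Li := {v : V3 // nv v = 1 ∧ cd v = true}

lemma card_Li : Fintype.card Li = 15 := by decide

/-- the image of a line -/
@[irreducible] def lf (g : ↥(OD b1)) (v : V3) : V3 := rp (pr (act g (em v)))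

lemma lf_nv {g : ↥(OD b1)} (hg : Fx g) {v : V3} (hv : nv v = 1) :
    nv (lf g v) = 1 ∧ cd (lf g v) = true := by
  have h1 : nv (pr (act g (em v))) = 1 := by
    rw [← B_em, em_pr (hg.iw (iw_em _)), act_B, B_em, hv]
  rw [lf]
  exact ⟨by rw [nv_rp, h1], rp_cd _ h1⟩

lemma lf_one {v : V3} (hv : cd v = true) : lf 1 v = v := by
  rw [lf, act_one, pr_em, rp, if_pos hv]

lemma lf_mul {g k : ↥(OD b1)} (hk : Fx k) (v : V3) : lf (g * k) v = lf g (lf k v) := by
  have h1 := em_pr (hk.iw (iw_em v))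
  rw [lf, lf, lf]
  rcases rp_or (pr (act k (em v))) with h2 | h2
  · rw [h2, h1, act_mul]
  · rw [h2, em_neg, h1, act_neg, pr_neg, rp_neg, act_mul]

/-- the action on lines -/
@[reducible] def la (S : Subgroup ↥(OD b1)) (h : ∀ g ∈ S, Fx g) : MulAction S Li where
  smul g v := ⟨lf g.1 v.1, lf_nv (h g.1 g.2) v.2.1⟩
  one_smul v := Subtype.ext (lf_one v.2.2)
  mul_smul g k v := by
    apply Subtype.ext
    show lf (g.1 * k.1) v.1 = lf g.1 (lf k.1 v.1)
    exact lf_mul (h k.1 k.2) v.1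

/-- a fixed line of norm one -/
lemma exists_line (S : Subgroup ↥(OD b1)) (h2 : ∀ g ∈ S, g * g = 1) (h : ∀ g ∈ S, Fx g) :
    ∃ v : V3, nv v = 1 ∧ ∀ g ∈ S, act g (em v) = em v ∨ act g (em v) = -em v := by
  letI := la S h
  have hp : IsPGroup 2 S := fun g => ⟨1, by
    rw [pow_one, pow_two]
    exact Subtype.ext (h2 g.1 g.2)⟩
  haveI : Fact (Nat.Prime 2) := ⟨Nat.prime_two⟩
  have h3 := hp.card_modEq_card_fixedPoints Li
  rw [Nat.card_eq_fintype_card, card_Li] at h3
  have h4 : (MulAction.fixedPoints S Li).Nonempty := by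
    rw [Set.nonempty_iff_ne_empty]
    intro h0
    rw [h0] at h3
    simp [Nat.ModEq] at h3
  obtain ⟨v, hv⟩ := h4
  refine ⟨v.1, v.2.1, fun g hg => ?_⟩
  have h5' : lf g v.1 = v.1 := congrArg Subtype.val (hv ⟨g, hg⟩)
  have h5 : rp (pr (act g (em v.1))) = v.1 := by rw [lf] at h5'; exact h5'
  have h6 := em_pr ((h g hg).iw (iw_em v.1))
  rcases rp_or (pr (act g (em v.1))) with h7 | h7
  · left
    rw [h7] at h5
    rw [← h6, h5]
  · right
    rw [h7] at h5
    rw [← h6, neg_eq_iff_eq_neg.1 h5, em_neg]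

/-- an isometry that moves `e_3` to the line -/
lemma exists_u (v : V3) (hv : nv v = 1) : ∃ u : ↥(OD b1), Fx u ∧
    (act u (be 3) = em v ∨ act u (be 3) = -em v) := by
  have hB : B b1 (em v) (em v) = 1 := by rw [B_em, hv]
  have hee : B b1 (be 3) (be 3) = 1 := by rw [Be]; rfl
  have hve : B b1 (be 3) (em v) = v.1 := by rw [Be]; rfl
  have hev : B b1 (em v) (be 3) = v.1 := by rw [H145.EO.B_comm, hve]
  have h2 : (2 : ZMod 5) ≠ 0 := by decide
  have key : ∀ w : Fin 6 → ZMod 5, IW w → B b1 w w ≠ 0 → Fx (rfl' b1 w) := by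
    intro w hw hww i hi
    have h3 : B b1 w (be i) = 0 := by
      rw [H145.EO.B_comm, Be]
      obtain ⟨h0, h1, h2⟩ := hw
      have h4 : i = 0 ∨ i = 1 ∨ i = 2 := by
        rcases i with ⟨i, hi'⟩
        simp only [Fin.ext_iff]
        have : i < 3 := hi
        show i = 0 ∨ i = 1 ∨ i = 2
        omega
      rcases h4 with rfl | rfl | rfl
      · exact h0
      · exact h1
      · exact h2
    rw [act_rfl' hww, h3, mul_zero, zero_div, zero_smul, sub_zero]
  by_cases hc : v.1 = 1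
  · -- the vector `e_3 + v`
    have hww : B b1 (be 3 + em v) (be 3 + em v) = 4 := by
      rw [H145.EO.B_add_left, H145.EO.B_add_right, H145.EO.B_add_right, hee, hve, hev, hB, hc]
      decide
    have hwe : B b1 (be 3 + em v) (be 3) = 2 := by
      rw [H145.EO.B_add_left, hee, hev, hc]
      decide
    refine ⟨rfl' b1 (be 3 + em v), key _ ?_ (by rw [hww]; decide), Or.inr ?_⟩
    · refine ⟨?_, ?_, ?_⟩ <;> simp [em]
    · rw [act_rfl' (by rw [hww]; decide), hww, hwe]
      have h5 : (2 * 2 / 4 : ZMod 5) = 1 := by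
        have h6 : (2 * 2 : ZMod 5) = 4 := by decide
        rw [h6]
        exact div_self (by decide)
      rw [h5, one_smul]
      abel
  · have hww : B b1 (be 3 - em v) (be 3 - em v) = 2 * (1 - v.1) := by
      rw [H145.EO.B_sub_left, H145.EO.B_sub_right, H145.EO.B_sub_right, hee, hve, hev, hB]
      ring
    have hwe : B b1 (be 3 - em v) (be 3) = 1 - v.1 := by
      rw [H145.EO.B_sub_left, hee, hev]
    have hne : (1 - v.1 : ZMod 5) ≠ 0 := sub_ne_zero.2 (Ne.symm hc)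
    have hne' : B b1 (be 3 - em v) (be 3 - em v) ≠ 0 := by
      rw [hww]; exact mul_ne_zero h2 hne
    refine ⟨rfl' b1 (be 3 - em v), key _ ?_ hne', Or.inl ?_⟩
    · refine ⟨?_, ?_, ?_⟩ <;> simp [em]
    · rw [act_rfl' hne', hww, hwe, div_self (mul_ne_zero h2 hne), one_smul]
      abel

lemma circ : ∀ x y : ZMod 5, x * x + y * y = 1 →
    (x = 1 ∧ y = 0) ∨ (x = -1 ∧ y = 0) ∨ (x = 0 ∧ y = 1) ∨ (x = 0 ∧ y = -1) := by decide

lemma sq_one' : ∀ x : ZMod 5, x * x = 1 → x = 1 ∨ x = -1 := by decide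

lemma vec_eq {x : Fin 6 → ZMod 5} {y : Fin 6 → ZMod 5} (h0 : x 0 = y 0) (h1 : x 1 = y 1)
    (h2 : x 2 = y 2) (h3 : x 3 = y 3) (h4 : x 4 = y 4) (h5 : x 5 = y 5) : x = y := by
  funext i
  fin_cases i <;> assumption

/-- the elements that fix the line of `e_3` -/
lemma plane {g : ↥(OD b1)} (hg : Fx g) (h3 : act g (be 3) = be 3 ∨ act g (be 3) = -be 3) :
    act g (be 4) = be 4 ∨ act g (be 4) = -be 4 ∨ act g (be 4) = be 5 ∨ act g (be 4) = -be 5 := by
  have h0 : (act g (be 4)) 0 = 0 := hg.co _ (i := 0) (by decide)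
  have h1 : (act g (be 4)) 1 = 0 := hg.co _ (i := 1) (by decide)
  have h2 : (act g (be 4)) 2 = 0 := hg.co _ (i := 2) (by decide)
  have h4 : (act g (be 4)) 3 = 0 := by
    rw [← Be 3 (act g (be 4))]
    have e1 : B b1 (act g (be 3)) (act g (be 4)) = 0 := by
      rw [act_B, Be]
      rfl
    rcases h3 with h | h
    · rw [h] at e1
      exact e1
    · rw [h, H145.EO.B_neg_left] at e1
      exact neg_eq_zero.1 e1
  have h5 : B b1 (act g (be 4)) (act g (be 4)) = 1 := by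
    rw [act_B, Be]
    rfl
  rw [B1, h0, h1, h2, h4] at h5
  rcases circ ((act g (be 4)) 4) ((act g (be 4)) 5) (by rw [← h5]; ring) with h | h | h | h
  · exact Or.inl (vec_eq h0 h1 h2 h4 h.1 h.2)
  · refine Or.inr (Or.inl (vec_eq ?_ ?_ ?_ ?_ ?_ ?_))
    · rw [h0]; exact neg_zero.symm
    · rw [h1]; exact neg_zero.symm
    · rw [h2]; exact neg_zero.symm
    · rw [h4]; exact neg_zero.symm
    · rw [h.1]; rfl
    · rw [h.2]; exact neg_zero.symm
  · exact Or.inr (Or.inr (Or.inl (vec_eq h0 h1 h2 h4 h.1 h.2)))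
  · refine Or.inr (Or.inr (Or.inr (vec_eq ?_ ?_ ?_ ?_ ?_ ?_)))
    · rw [h0]; exact neg_zero.symm
    · rw [h1]; exact neg_zero.symm
    · rw [h2]; exact neg_zero.symm
    · rw [h4]; exact neg_zero.symm
    · rw [h.1]; exact neg_zero.symm
    · rw [h.2]; rfl

/-- `e_5` is determined up to sign by the others -/
lemma last {g : ↥(OD b1)} (hg : Fx g) (h3 : act g (be 3) = be 3 ∨ act g (be 3) = -be 3)
    (h4 : act g (be 4) = be 4 ∨ act g (be 4) = -be 4) :
    act g (be 5) = be 5 ∨ act g (be 5) = -be 5 := by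
  have h0 : (act g (be 5)) 0 = 0 := hg.co _ (i := 0) (by decide)
  have h1 : (act g (be 5)) 1 = 0 := hg.co _ (i := 1) (by decide)
  have h2 : (act g (be 5)) 2 = 0 := hg.co _ (i := 2) (by decide)
  have key : ∀ i : Fin 6, B b1 (be i) (be 5) = 0 → (act g (be i) = be i ∨ act g (be i) = -be i) →
      (act g (be 5)) i = 0 := by
    intro i e1 h
    rw [← Be i (act g (be 5))]
    rw [← act_B g] at e1
    rcases h with h | h
    · rw [h] at e1
      exact e1
    · rw [h, H145.EO.B_neg_left] at e1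
      exact neg_eq_zero.1 e1
  have h5 : (act g (be 5)) 3 = 0 := key 3 (by rw [Be]; rfl) h3
  have h6 : (act g (be 5)) 4 = 0 := key 4 (by rw [Be]; rfl) h4
  have h7 : B b1 (act g (be 5)) (act g (be 5)) = 1 := by
    rw [act_B, Be]
    rfl
  rw [B1, h0, h1, h2, h5, h6] at h7
  rcases sq_one' ((act g (be 5)) 5) (by rw [← h7]; ring) with h | h
  · exact Or.inl (vec_eq h0 h1 h2 h5 h6 h)
  · refine Or.inr (vec_eq ?_ ?_ ?_ ?_ ?_ ?_)
    · rw [h0]; exact neg_zero.symm
    · rw [h1]; exact neg_zero.symm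
    · rw [h2]; exact neg_zero.symm
    · rw [h5]; exact neg_zero.symm
    · rw [h6]; exact neg_zero.symm
    · rw [h]; rfl

/-- **Two types of frames.** -/
theorem frame6 (S : Subgroup ↥(OD b1)) (h2 : ∀ g ∈ S, g * g = 1)
    (hc : ∀ g ∈ S, ∀ h ∈ S, g * h = h * g)
    (hf : ∀ g ∈ S, ∀ i : Fin 6, i.val < 3 → act g (be i) = be i) :
    ∃ u : ↥(OD b1), (∀ i : Fin 6, i.val < 3 → act u (be i) = be i) ∧
      ((∀ g ∈ S, ∀ i : Fin 6, act (u⁻¹ * g * u) (be i) = be i ∨ act (u⁻¹ * g * u) (be i) = -be i) ∨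
        (∀ g ∈ S, ∀ y ∈ ({be 3, be 4 + be 5, be 4 - be 5} : Set (Fin 6 → ZMod 5)),
          act (u⁻¹ * g * u) y = y ∨ act (u⁻¹ * g * u) y = -y)) := by
  obtain ⟨v, hv, hvS⟩ := exists_line S h2 hf
  obtain ⟨u, hu, hu3⟩ := exists_u v hv
  have hF : ∀ g ∈ S, Fx (u⁻¹ * g * u) := fun g hg => (hu.inv.mul (hf g hg)).mul hu
  have h3 : ∀ g ∈ S, act (u⁻¹ * g * u) (be 3) = be 3 ∨ act (u⁻¹ * g * u) (be 3) = -be 3 := by
    intro g hg
    rw [act_mul, act_mul]
    rcases hu3 with h | h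
    · have h5 : act u⁻¹ (em v) = be 3 := by rw [← h, act_inv]
      rw [h]
      rcases hvS g hg with h4 | h4
      · left; rw [h4, h5]
      · right; rw [h4, act_neg, h5]
    · have h5 : act u⁻¹ (em v) = -be 3 := by
        rw [← neg_neg (em v), act_neg, ← h, act_inv]
      rw [h, act_neg, act_neg]
      rcases hvS g hg with h4 | h4
      · left; rw [h4, h5, neg_neg]
      · right; rw [h4, act_neg, h5, neg_neg]
  refine ⟨u, hu, ?_⟩
  by_cases hall : ∀ g ∈ S, act (u⁻¹ * g * u) (be 4) = be 4 ∨ act (u⁻¹ * g * u) (be 4) = -be 4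
  · left
    intro g hg i
    by_cases hi : i.val < 3
    · exact Or.inl (hF g hg i hi)
    · have h6 : i = 3 ∨ i = 4 ∨ i = 5 := by
        rcases i with ⟨i, hi'⟩
        simp only [Fin.ext_iff]
        have : ¬ i < 3 := hi
        show i = 3 ∨ i = 4 ∨ i = 5
        omega
      rcases h6 with rfl | rfl | rfl
      · exact h3 g hg
      · exact hall g hg
      · exact last (hF g hg) (h3 g hg) (hall g hg)
  · right
    push Not at hall
    obtain ⟨g₀, hg₀, hn1, hn2⟩ := hall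
    have hsq : ∀ g ∈ S, ∀ x, act (u⁻¹ * g * u) (act (u⁻¹ * g * u) x) = x := by
      intro g hg x
      rw [← act_mul]
      have e1 : u⁻¹ * g * u * (u⁻¹ * g * u) = 1 := by
        calc u⁻¹ * g * u * (u⁻¹ * g * u) = u⁻¹ * (g * g) * u := by group
          _ = 1 := by rw [h2 g hg]; group
      rw [e1, act_one]
    have hco : ∀ g ∈ S, ∀ x, act (u⁻¹ * g * u) (act (u⁻¹ * g₀ * u) x) =
        act (u⁻¹ * g₀ * u) (act (u⁻¹ * g * u) x) := by
      intro g hg x
      rw [← act_mul, ← act_mul]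
      have e1 : u⁻¹ * g * u * (u⁻¹ * g₀ * u) = u⁻¹ * g₀ * u * (u⁻¹ * g * u) := by
        calc u⁻¹ * g * u * (u⁻¹ * g₀ * u) = u⁻¹ * (g * g₀) * u := by group
          _ = u⁻¹ * (g₀ * g) * u := by rw [hc g hg g₀ hg₀]
          _ = _ := by group
      rw [e1]
    -- `g₀` interchanges `e_4` and `± e_5`
    have hsw : ∀ g ∈ S, (act (u⁻¹ * g * u) (be 4) = be 5 → act (u⁻¹ * g * u) (be 5) = be 4) ∧
        (act (u⁻¹ * g * u) (be 4) = -be 5 → act (u⁻¹ * g * u) (be 5) = -be 4) := by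
      intro g hg
      have e2 := hsq g hg (be 4)
      refine ⟨fun h => ?_, fun h => ?_⟩
      · rw [h] at e2
        exact e2
      · rw [h, act_neg] at e2
        rw [← neg_neg (act (u⁻¹ * g * u) (be 5)), e2]
    -- `e_4 ± e_5` are eigenvectors
    have hev : ∀ g ∈ S, (act (u⁻¹ * g * u) (be 4) = be 4 → act (u⁻¹ * g * u) (be 5) = be 5) ∧
        (act (u⁻¹ * g * u) (be 4) = -be 4 → act (u⁻¹ * g * u) (be 5) = -be 5) := by
      intro g hg
      have e3 := hco g hg (be 4)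
      rcases plane (hF g₀ hg₀) (h3 g₀ hg₀) with h | h | h | h
      · exact absurd h hn1
      · exact absurd h hn2
      · rw [h] at e3
        refine ⟨fun h' => ?_, fun h' => ?_⟩
        · rw [h', h] at e3
          exact e3
        · rw [h', act_neg, h] at e3
          exact e3
      · rw [h, act_neg] at e3
        refine ⟨fun h' => ?_, fun h' => ?_⟩
        · rw [h', h] at e3
          exact neg_injective e3
        · rw [h', act_neg, h] at e3
          exact neg_injective e3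
    intro g hg y hy
    have h6 := plane (hF g hg) (h3 g hg)
    rcases hy with rfl | rfl | hy
    · exact h3 g hg
    · rw [act_add]
      rcases h6 with h | h | h | h
      · left; rw [h, (hev g hg).1 h]
      · right; rw [h, (hev g hg).2 h]; abel
      · left; rw [h, (hsw g hg).1 h]; abel
      · right; rw [h, (hsw g hg).2 h]; abel
    · rw [Set.mem_singleton_iff.1 hy, sub_eq_add_neg, act_add, act_neg]
      rcases h6 with h | h | h | h
      · left; rw [h, (hev g hg).1 h]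
      · right; rw [h, (hev g hg).2 h]; abel
      · right; rw [h, (hsw g hg).1 h]; abel
      · left; rw [h, (hsw g hg).2 h]; abel

end

end Vale.Agent.P240.R2.N402.Fr
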