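import Vale.Agent.P240.R2.H458.PD
import Vale.Agent.P240.R2.N402.Fr6a

/-!
Simultaneous diagonalization on `⟨e_3, e_4, e_5⟩`: the statement `StmtFrame6`.
-/

set_option autoImplicit false
set_option linter.all false

namespace Vale.Agent.P240.R2.N402

theorem stmtFrame6 : Vale.Agent.P240.R2.H458.StmtFrame6 := fun S h2 hc hf =>
  Fr.frame6 S h2 hc hf

end Vale.Agent.P240.R2.N402
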