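import Vale.Agent.P240.Bdl.B1
import Vale.Agent.P240.H195.EuDefs

/-!
The Euler characteristic condition for `s = vu`.
-/

set_option autoImplicit false

namespace Vale.Agent.P240.R2.N402

open Subgroup Vale.Agent.P240.K Vale.Agent.P240.H195

universe u

/-- an `r`-group `Q` centralizing `v`, `u ∈ Q`, and no subgroups normalized by `v` and `Q` -/
theorem eu_ne' {p r : ℕ} [hr : Fact r.Prime] {L : Type u} [Group L] [Finite L] {Q : Subgroup L}
    (hQ : IsPGroup r Q) {v u : L} (hcomm : ∀ y ∈ Q, y * v = v * y) (hu : u ∈ Q) {l : ℕ}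
    (hvl : v ^ l = 1) (hlr : Nat.Coprime l r)
    (hfree : ∀ E : Subgroup L, ElemAb p E → v ∈ normalizer (E : Set L) →
      Q ≤ normalizer (E : Set L) → False) : eulerFix p (⊤ : Subgroup L) (v * u) ≠ 0 := by
  have hst : ∀ y ∈ Q, ∀ E ∈ {E : Subgroup L | E ∈ Ain p (⊤ : Subgroup L) ∧
      v ∈ normalizer (E : Set L)}, cj y E ∈ {E : Subgroup L | E ∈ Ain p (⊤ : Subgroup L) ∧
      v ∈ normalizer (E : Set L)} := by
    rintro y hy E ⟨h1, h2⟩
    refine ⟨cj_mem_Ain (mem_top y) h1, ?_⟩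
    rw [← cj_eq_iff] at h2 ⊢
    rw [← cj_mul, ← hcomm y hy, cj_mul, h2]
  have h1 := eu_mod (r := r) (S := {E | E ∈ Ain p (⊤ : Subgroup L) ∧ v ∈ normalizer (E : Set L)})
    Q hQ hst
  have hzQ : zpowers u ≤ Q := by rwa [zpowers_le]
  have h2 := eu_mod (r := r) (S := {E | E ∈ Ain p (⊤ : Subgroup L) ∧ v ∈ normalizer (E : Set L)})
    (zpowers u) (hQ.to_le hzQ) (fun y hy => hst y (hzQ hy))
  have h0 : {E | E ∈ {E | E ∈ Ain p (⊤ : Subgroup L) ∧ v ∈ normalizer (E : Set L)} ∧
      Q ≤ normalizer (E : Set L)} = ∅ := by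
    ext E
    simp only [Set.mem_ofPred_eq, Set.mem_empty_iff_false, iff_false]
    rintro ⟨⟨⟨h1, -⟩, h2⟩, h3⟩
    exact hfree E h1 h2 h3
  have h00 : {E | E ∈ {E | E ∈ Ain p (⊤ : Subgroup L) ∧ v ∈ normalizer (E : Set L)} ∧
      zpowers u ≤ normalizer (E : Set L)} =
      {E | E ∈ Ain p (⊤ : Subgroup L) ∧ v * u ∈ normalizer (E : Set L)} := by
    ext E
    simp only [Set.mem_ofPred_eq]
    constructor
    · rintro ⟨⟨h3, h4⟩, h5⟩
      exact ⟨h3, mul_mem h4 (h5 (mem_zpowers u))⟩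
    · rintro ⟨h3, h4⟩
      obtain ⟨k, hk⟩ := hQ ⟨u, hu⟩
      have hk' : u ^ r ^ k = 1 := by simpa using congrArg Subtype.val hk
      have hvu : v * u = u * v := (hcomm u hu).symm
      have hcop : Nat.Coprime l (r ^ k) := Nat.Coprime.pow_right k hlr
      have key : ∀ (a b : L) (m n : ℕ), a * b = b * a → a ^ m = 1 → b ^ n = 1 → Nat.Coprime m n →
          a * b ∈ normalizer (E : Set L) → a ∈ normalizer (E : Set L) := by
        intro a b m n hab ha hb hmn h
        have h1 : (a * b) ^ n = a ^ n := by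
          rw [(show Commute a b from hab).mul_pow, hb, mul_one]
        have h2 : a ^ n ∈ normalizer (E : Set L) := by
          rw [← h1]
          exact pow_mem h n
        have h3 := Nat.gcd_eq_gcd_ab n m
        rw [hmn.symm.gcd_eq_one] at h3
        have h4 : a = (a ^ n) ^ (n.gcdA m) := by
          have h5 : a ^ (1 : ℤ) = a ^ ((n : ℤ) * n.gcdA m + (m : ℤ) * n.gcdB m) := by
            rw [← h3]
            simp
          rw [zpow_one, zpow_add, zpow_mul, zpow_mul, zpow_natCast, zpow_natCast, ha, one_zpow,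
            mul_one] at h5
          exact h5
        rw [h4]
        exact zpow_mem h2 _
      refine ⟨⟨h3, key v u l _ hvu hvl hk' hcop h4⟩, ?_⟩
      rw [zpowers_le]
      exact key u v _ l hvu.symm hk' hvl hcop.symm (by rwa [← hvu])
  rw [h0, l5_eu_empty] at h1
  rw [h00] at h2
  rw [eulerFix_eq, Vale.Agent.P240.K.lam]
  intro h4
  rw [h4] at h2
  have h3 : (r : ℤ) ∣ 1 := by
    have h5 := dvd_sub h2 h1
    simpa using h5
  have h5 := Int.eq_one_of_dvd_one (by positivity) h3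
  have h9 := hr.out.one_lt
  omega

end Vale.Agent.P240.R2.N402
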