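import Mathlib.FieldTheory.Finite.Basic

/-!
The number of solutions of `c σ(s) = s`.
-/

set_option autoImplicit false

namespace Vale.Agent.P240.R2.N402

theorem card_eig {F : Type*} [Field F] [Finite F] (h2 : (2 : F) ≠ 0) (σ : F ≃+* F)
    (hσ2 : ∀ s, σ (σ s) = s) (hσ : ∃ s, σ s ≠ s) {c : F} (hτ : ∀ s, c * σ (c * σ s) = s) :
    Nat.card {s // c * σ s = s} ^ 2 = Nat.card F := by
  obtain ⟨s₀, hs₀⟩ := hσ
  obtain ⟨δ, hδ⟩ : ∃ δ, δ = s₀ - σ s₀ := ⟨_, rfl⟩
  have hδ0 : δ ≠ 0 := by
    rw [hδ]
    exact sub_ne_zero.2 (Ne.symm hs₀)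
  have hσδ : σ δ = -δ := by
    rw [hδ, map_sub, hσ2]
    ring
  have hcc : c * σ c = 1 := by
    have := hτ 1
    rwa [map_one, mul_one] at this
  let A := {s : F // c * σ s = s}
  let f : A × A → F := fun y => y.1.1 + δ * y.2.1
  have hf : Function.Bijective f := by
    constructor
    · rintro ⟨⟨a, ha⟩, ⟨b, hb⟩⟩ ⟨⟨a', ha'⟩, ⟨b', hb'⟩⟩ h1
      have h3 : a + δ * b = a' + δ * b' := h1
      have h4 : a - δ * b = a' - δ * b' := by
        have h5 := congrArg (fun y => c * σ y) h3
        simp only [map_add, map_mul, hσδ] at h5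
        linear_combination h5 - ha + δ * hb + ha' - δ * hb'
      have h5 : 2 * (a - a') = 0 := by linear_combination h3 + h4
      have h6 : a = a' := by
        rcases mul_eq_zero.1 h5 with h6 | h6
        · exact (h2 h6).elim
        · exact sub_eq_zero.1 h6
      subst h6
      have h7 : b = b' := by
        have h8 : δ * (b - b') = 0 := by linear_combination h3
        rcases mul_eq_zero.1 h8 with h9 | h9
        · exact (hδ0 h9).elim
        · exact sub_eq_zero.1 h9
      subst h7
      rfl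
    · intro s
      have hσ22 : σ 2 = 2 := map_ofNat σ 2
      refine ⟨(⟨(s + c * σ s) / 2, ?_⟩, ⟨(s - c * σ s) / (2 * δ), ?_⟩), ?_⟩
      · rw [map_div₀, map_add, map_mul, hσ2, hσ22]
        field_simp
        linear_combination s * hcc
      · rw [map_div₀, map_sub, map_mul, map_mul, hσ2, hσ22, hσδ]
        field_simp
        linear_combination s * hcc
      · change (s + c * σ s) / 2 + δ * ((s - c * σ s) / (2 * δ)) = s
        field_simp
        ring
  rw [← Nat.card_congr (Equiv.ofBijective f hf), Nat.card_prod, pow_two]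

end Vale.Agent.P240.R2.N402
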