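import Vale.Agent.P240.R2.N402.Act
import Vale.Agent.P240.R2.N402.Eig
import Vale.Agent.P240.R2.H112.Br

/-!
`²E₆(q)`, `q` odd: outer automorphisms of order two do not fix `vu`.
-/

set_option autoImplicit false

namespace Vale.Agent.P240.R2.N402

open Subgroup Vale.Agent.P240.K Vale.Agent.P240.H195 CartanMatrix
open Vale.Agent.P240.R2.H165.XC Vale.Agent.P240.R2.H945 Vale.Agent.P240.R2.H945.W
open Vale.Agent.P240.R2.H945.W.TS
open Vale.Agent.P240.R2.H164.TW (opp_nl sigma_one inner_pow AlT_mul)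
open Vale.Agent.P240.R2.H986.X (RC nn nl wl SS wl_nil wl_cons wl_append wl_neg nl_nil nl_cons nl_append)

universe u

lemma inn_normal {L : Type u} [Group L] : ((MulAut.conj (G := L)).range).Normal := ⟨by
  rintro _ ⟨x, rfl⟩ f
  refine ⟨f x, ?_⟩
  ext y
  simp [MulAut.mul_apply]⟩

/-- `f conj(y) = conj(f y) f` -/
lemma aut_conj {L : Type u} [Group L] (f : MulAut L) (y : L) :
    f * MulAut.conj y = MulAut.conj (f y) * f := by
  ext z
  simp [MulAut.mul_apply]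

section
variable {ι : Type} {F : Type} [Field F] {L : Type u} [Group L] {C : RC ι} {e : Fin 4 → ι}
  {K₀ : Subfield F} {K : ι → Subfield F} {x : ι → F → L} {co : ι → Fin 4 → ℤ} {r : ℕ}
  [Finite ι] [Finite F] [Finite L] [Fact r.Prime] [CharP F r]

namespace Sit
variable (h : Sit r C e K₀ K x co)
include h

/-- outer automorphisms of order two -/
theorem exists_al {f : MulAut L} (hf : f ^ 2 = 1) (hfo : f ∉ (MulAut.conj (G := L)).range) :
    ∃ (g : L) (ε : MulAut L) (σ : F ≃+* F) (c : ι → F), f = MulAut.conj g * ε ∧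
      AlT C K x ε σ c ∧ am ε (BB C K x) = BB C K x ∧ (∀ s, σ (σ s) = s) ∧ ∃ s, σ s ≠ s := by
  have hr : r.Prime := Fact.out
  have hI : ((MulAut.conj (G := L)).range).Normal := inn_normal
  obtain ⟨l, hl, hl'⟩ := C.long
  obtain ⟨g, hgB, hgC⟩ := Vale.Agent.P240.R2.H112.Br.norm_all h.sb hr (TS.nl_mem hl)
    (opp_nl h.ts hl') f
  obtain ⟨ε, hε⟩ : ∃ ε, ε = (MulAut.conj g)⁻¹ * f := ⟨_, rfl⟩
  rw [← hε] at hgB hgC
  obtain ⟨σ, c, hA⟩ := W.stmtT4 ι F L r C K x h.ts h.hZ h.hd.lc4 h.hd.pc4 l hl hl' ε hgB hgC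
  have hfe : f = MulAut.conj g * ε := by rw [hε, mul_inv_cancel_left]
  -- `ε ^ 2` is inner
  have h2 : ε * ε ∈ (MulAut.conj (G := L)).range := by
    have e1 : ε * ε = (MulAut.conj g)⁻¹ * (f * (MulAut.conj g)⁻¹ * f⁻¹) * f ^ 2 := by
      rw [hε, pow_two]; group
    rw [e1, hf, mul_one]
    exact mul_mem (inv_mem ⟨g, rfl⟩) (hI.conj_mem _ (inv_mem ⟨g, rfl⟩) f)
  have hσ2 : (σ * σ : RingAut F) = 1 := by
    have hA2 := AlT_mul (σ := (σ : RingAut F)) (σ' := (σ : RingAut F)) hA hA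
    refine sigma_one hr h.ts h.sb hl hl' ⟨e 2, h.simp 2, h.hd.K4_2⟩ h2 ?_ ?_ hA2
    · rw [am_mul, hgB, hgB]
    · rw [am_mul, hgC, hgC]
  refine ⟨g, ε, σ, c, hfe, hA, hgB, fun s => ?_, ?_⟩
  · have := congrArg (fun τ : RingAut F => τ s) hσ2
    simpa using this
  · by_contra hcon
    push Not at hcon
    have hσ1 : σ = (1 : RingAut F) := by
      ext s
      exact hcon s
    rw [hσ1] at hA
    have h3 := inner_pow h.ts h.hd.dc3 hA
    apply hfo
    rw [hfe]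
    refine mul_mem ⟨g, rfl⟩ ?_
    have e1 : ε = ε ^ 3 * (ε * ε)⁻¹ := by group
    rw [e1]
    exact mul_mem h3 (inv_mem h2)

omit [Finite ι] [Finite L] [Fact r.Prime] [CharP F r] in
/-- automorphisms `ε` as above stabilize the parabolic subgroups -/
lemma al_par {ε : MulAut L} {σ : F ≃+* F} {c : ι → F} (hA : AlT C K x ε σ c)
    (hB : am ε (BB C K x) = BB C K x) {P : Subgroup L} {J : Set (Fin 4)}
    (hP : P = PJ C e K x J) [Finite L] : am ε P = P := by
  refine am_eq_of_le ?_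
  rw [hP]
  change (PJ C e K x J).map ε.toMonoidHom ≤ _
  rw [Subgroup.map_le_iff_le_comap, PJ, closure_le]
  rintro y (hy | ⟨k, hk, rfl⟩)
  · refine B_le_PJ ?_
    have h1 := apply_mem_am (f := ε) hy
    rwa [hB] at h1
  · have h1 := h.al_nu hA k
    change ε (nu C e x k) ∈ PJ C e K x J
    have e1 : ε (nu C e x k) = nu C e x k * ((nu C e x k)⁻¹ * ε (nu C e x k)) := by group
    rw [e1]
    exact mul_mem (nu_PJ hk) (B_le_PJ (TT_le_BB h1))

omit h [Finite ι] [Finite F] [Finite L] [Fact r.Prime] [CharP F r] in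
lemma par_PJ (k : Fin 4) : Par (BB C K x) (nu C e x k) = PJ C e K x {k} := by
  apply le_antisymm
  · exact sup_le B_le_PJ (by rw [zpowers_le]; exact nu_PJ rfl)
  · rw [PJ, closure_le]
    rintro y (hy | ⟨j, rfl, rfl⟩)
    · exact le_Par hy
    · exact self_mem_Par

/-- **no outer automorphism of order two fixes `vu`** -/
theorem no_outer {l : ℕ} (hl : Nm (Nat.card K₀) l) {v u : L} (hvl : v ^ l = 1)
    (hv : NF (BB C K x) (nu C e x 2) (nu C e x 3) v) (hu : u ∈ rd (UU C K x) (H23 C e K x))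
    (hvu : v * u = u * v)
    (huk : ∀ k, k = 0 ∨ k = 1 → u ∉ rd (UU C K x) (H23 C e K x ⊔ zpowers (nu C e x k)))
    {f : MulAut L} (hf : f ^ 2 = 1) (hfo : f ∉ (MulAut.conj (G := L)).range)
    (hfs : f (v * u) = v * u) : False := by
  have hr : r.Prime := Fact.out
  have : Fact l.Prime := ⟨hl.prime⟩
  obtain ⟨g, ε, σ, c, hfe, hA, hB, hσ2, hσ⟩ := h.exists_al hf hfo
  have hP := h.al_par hA hB (par_PJ 3)
  have hM := h.al_par hA hB (par_PJ 2)
  have hH := h.al_par hA hB (P := H23 C e K x) H23_eq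
  -- `g ∈ H`
  have hgH : g ∈ H23 C e K x := by
    refine h.mem_H hl hvl hv hu hvu huk ?_
    have h1 : v * u ∈ H23 C e K x := mul_mem hv.1 (B_le_HH (UU_le (rd_le hu)))
    have h2 : f (v * u) ∈ am f (H23 C e K x) := apply_mem_am h1
    rw [hfs, hfe, am_mul, hH, am_conj, mem_cj] at h2
    exact h2
  -- `f v = v`
  have hfv : f v = v := by
    obtain ⟨k, hk⟩ := h.sb.exists_pow (rd_le hu)
    have hlr : l ≠ r := by
      rintro rfl
      exact hl.nq (dvd_card_sub K₀)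
    have hcop : Nat.Coprime l (r ^ k) :=
      Nat.Coprime.pow_right k ((Nat.coprime_primes hl.prime hr).2 hlr)
    have h1 : v * u ∈ f.toMonoidHom.eqLocus (MonoidHom.id L) := hfs
    exact (mem_of_commute hvu hvl hk hcop h1).1
  have hcomm : (MulAut.conj v)⁻¹ * f * MulAut.conj v = f := by
    rw [mul_assoc, aut_conj, hfv, inv_mul_cancel_left]
  have hTPf : TP (BB C K x) (nu C e x 2) (nu C e x 3) f := by
    refine ⟨g, hgH, ?_, ?_, ?_⟩
    · rw [hfe, am_mul, hB, am_conj]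
    · rw [hfe, am_mul, hP, am_conj]
    · rw [hfe, am_mul, hM, am_conj]
  have hfOm : ∀ Q ∈ Om (BB C K x) (nu C e x 2) (nu C e x 3),
      am f Q ∈ Om (BB C K x) (nu C e x 2) (nu C e x 3) := by
    rintro _ ⟨y, hy, rfl⟩
    have h1 : ε y ∈ H23 C e K x := by
      have := apply_mem_am (f := ε) hy
      rwa [hH] at this
    refine ⟨g * ε y, mul_mem hgH h1, ?_⟩
    rw [hfe, am_mul, am_cj, hP, am_conj, ← cj_mul]
  have hff : f * f = 1 := by rw [← pow_two, hf]
  have hz : ∀ d ∈ zpowers f, d = 1 ∨ d = f := by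
    intro d hd
    obtain ⟨m, rfl⟩ := mem_zpowers_iff.1 hd
    rcases Int.even_or_odd' m with ⟨m', rfl | rfl⟩
    · left
      rw [_root_.zpow_mul]
      have : f ^ (2 : ℤ) = 1 := by exact_mod_cast hf
      rw [this, one_zpow]
    · right
      rw [_root_.zpow_add, _root_.zpow_mul, zpow_one]
      have : f ^ (2 : ℤ) = 1 := by exact_mod_cast hf
      rw [this, one_zpow, one_mul]
  have hDp : IsPGroup 2 (zpowers f) := by
    rintro ⟨d, hd⟩
    refine ⟨1, Subtype.ext ?_⟩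
    change d ^ 2 ^ 1 = 1
    rcases hz d hd with rfl | rfl
    · simp
    · rw [pow_one, hf]
  have : Fact (Nat.Prime 2) := ⟨Nat.prime_two⟩
  have hodd : ¬ 2 ∣ Nat.card (Om (BB C K x) (nu C e x 2) (nu C e x 3)) := by
    rw [card_Om h.sb hr h.pl (h.crd (k := 2) (Or.inl rfl)) (h.crd (k := 3) (Or.inr rfl))]
    have h1 : 2 ∣ Nat.card F + Nat.card F * Nat.card F := by
      have h2 : Nat.card F + Nat.card F * Nat.card F = Nat.card F * (Nat.card F + 1) := by ring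
      rw [h2]
      exact (Nat.even_mul_succ_self _).two_dvd
    omega
  obtain ⟨x₀, hx₀, hfix⟩ := exists_fix (p := 2) hDp (fun d hd Q hQ => by
    rcases hz d hd with rfl | rfl
    · rwa [am_one]
    · exact hfOm Q hQ) hodd
  obtain ⟨y, hy, hfy⟩ := lemN h.sb hr h.pl (D := {f}) hv (fun d hd => by rw [hd]; exact hTPf)
    (fun d hd => by rw [hd]; exact hcomm) hx₀ (fun d hd => hfix d (by rw [hd]; exact mem_zpowers f))
  obtain ⟨hy1, hy2⟩ := hfy f rfl
  -- the conjugate `f'`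
  obtain ⟨f', hf'⟩ : ∃ f', f' = (MulAut.conj y)⁻¹ * f * MulAut.conj y := ⟨_, rfl⟩
  obtain ⟨z, hzdef⟩ : ∃ z, z = y⁻¹ * g * ε y := ⟨_, rfl⟩
  have hf'z : f' = MulAut.conj z * ε := by
    rw [hf', hfe, mul_assoc, mul_assoc, aut_conj, ← mul_assoc, ← mul_assoc, ← map_inv, ← map_mul,
      ← map_mul, ← hzdef]
  have hf'f' : f' * f' = 1 := by
    have e1 : f' * f' = (MulAut.conj y)⁻¹ * (f * f) * MulAut.conj y := by rw [hf']; group
    rw [e1, hff, mul_one, inv_mul_cancel]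
  have hf'Q : ∀ Q : Subgroup L, am f (cj y Q) = cj y Q → am f' Q = Q := by
    intro Q hQ
    rw [hf', am_mul, am_mul, am_conj, hQ, ← map_inv, am_conj, ← cj_mul, inv_mul_cancel, cj_one]
  have hf'B := hf'Q _ hy1
  have hf'w : am f' (cj (w23 C e x) (BB C K x)) = cj (w23 C e x) (BB C K x) := by
    refine hf'Q _ ?_
    rw [← cj_mul]
    exact hy2
  -- `z = ρ t`
  have hzB : z ∈ BB C K x := by
    rw [hf'z, am_mul, hB, am_conj] at hf'B
    have := (h.sb.cj_B_eq_iff hr (g := 1) (g' := z)).1 (by rw [hf'B, cj_one])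
    simpa using this
  have hzw : (w23 C e x)⁻¹ * z * w23 C e x ∈ BB C K x := by
    rw [hf'z, am_mul, am_cj, hB, am_conj, ← cj_mul] at hf'w
    have h1 := (h.sb.cj_B_eq_iff hr).1 hf'w
    -- `ε(w) ∈ w T`
    have hεw : (w23 C e x)⁻¹ * ε (w23 C e x) ∈ BB C K x := by
      obtain ⟨τ₂, hτ₂⟩ : ∃ τ, τ = (nu C e x 2)⁻¹ * ε (nu C e x 2) := ⟨_, rfl⟩
      obtain ⟨τ₃, hτ₃⟩ : ∃ τ, τ = (nu C e x 3)⁻¹ * ε (nu C e x 3) := ⟨_, rfl⟩
      have k2 := h.al_nu hA 2
      have k3 := h.al_nu hA 3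
      rw [← hτ₂] at k2
      rw [← hτ₃] at k3
      have e1 : (w23 C e x)⁻¹ * ε (w23 C e x) =
          (nu C e x 2)⁻¹ * ((nu C e x 3)⁻¹ * τ₂ * nu C e x 3) * nu C e x 2 *
          ((nu C e x 2)⁻¹ * τ₃ * nu C e x 2) * τ₂ := by
        rw [map_mul, map_mul, hτ₂, hτ₃]
        group
      rw [e1]
      exact TT_le_BB (mul_mem (mul_mem (T_conj_n' h.ts (T_conj_n' h.ts k2))
        (T_conj_n' h.ts k3)) k2)
    have e1 : (w23 C e x)⁻¹ * z * w23 C e x =
        ((z * ε (w23 C e x))⁻¹ * w23 C e x)⁻¹ * ((w23 C e x)⁻¹ * ε (w23 C e x))⁻¹ := by group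
    rw [e1]
    exact mul_mem (inv_mem h1) (inv_mem hεw)
  obtain ⟨ρ, hρ, t, ht, hzρ⟩ := h.BwB hzB hzw
  obtain ⟨c₁, c₂, c₃, hc₁, hc₂, hc₃, -, -, a0, a1, a2⟩ := h.act hA hP hρ ht
  rw [← hzρ, ← hf'z] at a0 a1 a2
  have hX := h.crd (k := 2) (Or.inl rfl)
  have hY := h.crd (k := 3) (Or.inr rfl)
  have hinj := Ph_inj h.sb hr h.pl hX hY
  -- involutions
  have i1 : ∀ s, c₁ * σ (c₁ * σ s) = s := by
    intro s
    have h1 : am (f' * f') (cj (x (e 2) s * nu C e x 2) (P3 C e K x)) =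
        cj (x (e 2) (c₁ * σ (c₁ * σ s)) * nu C e x 2) (P3 C e K x) := by
      rw [am_mul, a1, a1]
    rw [hf'f', am_one] at h1
    have h2 : Ph (BB C K x) (nu C e x 2) (nu C e x 3) (x (e 2)) (x (e 3)) (.inr (.inl s)) =
      Ph (BB C K x) (nu C e x 2) (nu C e x 3) (x (e 2)) (x (e 3))
        (.inr (.inl (c₁ * σ (c₁ * σ s)))) := h1
    have h3 := hinj h2
    simp only [Sum.inr.injEq, Sum.inl.injEq] at h3
    exact h3.symm
  have i23 : ∀ s s', c₃ * σ (c₃ * σ s) = s ∧ c₂ * σ (c₂ * σ s') = s' := by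
    intro s s'
    have h1 : am (f' * f') (cj (x (e 3) s * nu C e x 3 * (x (e 2) s' * nu C e x 2))
        (P3 C e K x)) = cj (x (e 3) (c₃ * σ (c₃ * σ s)) * nu C e x 3 *
          (x (e 2) (c₂ * σ (c₂ * σ s')) * nu C e x 2)) (P3 C e K x) := by
      rw [am_mul, a2, a2]
    rw [hf'f', am_one] at h1
    have h2 : Ph (BB C K x) (nu C e x 2) (nu C e x 3) (x (e 2)) (x (e 3)) (.inr (.inr (s, s'))) =
      Ph (BB C K x) (nu C e x 2) (nu C e x 3) (x (e 2)) (x (e 3))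
        (.inr (.inr (c₃ * σ (c₃ * σ s), c₂ * σ (c₂ * σ s')))) := h1
    have h3 := hinj h2
    simp only [Sum.inr.injEq, Prod.mk.injEq] at h3
    exact ⟨h3.1.symm, h3.2.symm⟩
  have h2F : (2 : F) ≠ 0 := by
    intro h0
    have h1 : r ∣ 2 := (CharP.cast_eq_zero_iff F r 2).1 (by exact_mod_cast h0)
    exact h.odd ((Nat.prime_dvd_prime_iff_eq Fact.out Nat.prime_two).1 h1)
  have hcard : ∀ c' : F, (∀ s, c' * σ (c' * σ s) = s) →
      Nat.card {s // c' * σ s = s} = Nat.card K₀ := by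
    intro c' hc'
    have h1 := card_eig h2F σ hσ2 hσ hc'
    rw [h.card_F] at h1
    exact Nat.pow_left_injective two_ne_zero h1
  have hfx := card_Fx h.sb hr h.pl hX hY (D := {f'}) (fun d hd => by rw [hd]; exact a0)
    (τ₁ := fun _ s => c₁ * σ s) (τ₂ := fun _ s => c₂ * σ s) (τ₃ := fun _ s => c₃ * σ s)
    (fun d hd s => by rw [hd]; exact a1 s) (fun d hd s s' => by rw [hd]; exact a2 s s')
  have hsub : ∀ c' : F, Nat.card {s // ∀ d ∈ ({f'} : Set (MulAut L)), c' * σ s = s} =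
      Nat.card {s // c' * σ s = s} := by
    intro c'
    refine Nat.card_congr (Equiv.subtypeEquivRight fun s => ?_)
    exact ⟨fun h1 => h1 f' rfl, fun h1 _ _ => h1⟩
  rw [hsub, hsub, hsub, hcard c₁ i1, hcard c₂ (fun s => (i23 s s).2),
    hcard c₃ (fun s => (i23 s s).1)] at hfx
  apply hl.sm
  rw [← hfx]
  have hv' := hv.conj hy
  refine dvd_Fx h.sb hr hv' (v := y⁻¹ * v * y) ?_ ?_
  · have h4 := conj_pow (i := l) (a := y⁻¹) (b := v)
    rw [inv_inv] at h4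
    rw [h4, hvl, mul_one, inv_mul_cancel]
  · intro d hd
    rw [hd]
    change _ = f'
    rw [mul_assoc, aut_conj]
    have h5 : f' (y⁻¹ * v * y) = y⁻¹ * v * y := by
      rw [hf']
      have e1 : (MulAut.conj y) (y⁻¹ * v * y) = v := by
        rw [MulAut.conj_apply]; group
      have e2 : (MulAut.conj y)⁻¹ v = y⁻¹ * v * y := by
        rw [← map_inv, MulAut.conj_apply, inv_inv]
      rw [MulAut.mul_apply, MulAut.mul_apply, e1, hfv, e2]
    rw [h5, inv_mul_cancel_left]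

end Sit

end

end Vale.Agent.P240.R2.N402
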