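import Vale.Agent.P240.R2.N402.PII
import Vale.Agent.P240.R2.N402.Out
import Vale.Agent.P240.R2.N402.EuN

/-!
**The groups `²E₆(q)`, `q` odd, at `p = 2`.**
-/

set_option autoImplicit false

namespace Vale.Agent.P240.R2.N402

open Subgroup Vale.Agent.P240.K Vale.Agent.P240.H195 CartanMatrix
open Vale.Agent.P240.R2.H165.XC Vale.Agent.P240.R2.H945 Vale.Agent.P240.R2.H945.W
open Vale.Agent.P240.R2.H945.W.TS
open Vale.Agent.P240.R2.H986.X (RC nn nl wl SS wl_nil wl_cons wl_append wl_neg nl_nil nl_cons nl_append)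

universe u

section
variable {ι : Type} {F : Type} [Field F] {L : Type u} [Group L] {C : RC ι} {e : Fin 4 → ι}
  {K₀ : Subfield F} {K : ι → Subfield F} {x : ι → F → L} {co : ι → Fin 4 → ℤ} {r : ℕ}
  [Finite ι] [Finite F] [Finite L] [Fact r.Prime] [CharP F r]

/-- the main theorem for the data -/
theorem Sit.euFree (h : Sit r C e K₀ K x co) : EuFree 2 L := by
  have hr : r.Prime := Fact.out
  obtain ⟨l, hl⟩ := exists_nm h.three_le
  obtain ⟨v, hvS, hvl, hv⟩ := h.exists_v hl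
  obtain ⟨u, hu, hvu, huk⟩ := h.exists_u stmtLongRad hl hvS hvl
  refine ⟨v * u, ?_, fun f hf hfo hfs => h.no_outer hl hvl hv hu hvu huk hf hfo hfs⟩
  -- the highest roots
  obtain ⟨θ, hθe⟩ : ∃ θ, θ = wl C (([0, 1, 2, 3, 1, 2, 1] : List (Fin 4)).map e) (e 0) := ⟨_, rfl⟩
  have hθ : cv co θ = (2, 3, 4, 2) := by
    rw [hθe, h.hc.cv_wl, h.hc.cv_simp]
    decide
  obtain ⟨θ', hθe'⟩ : ∃ θ', θ' = C.s (e 0) θ := ⟨_, rfl⟩
  have hθ' : cv co θ' = (1, 3, 4, 2) := by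
    rw [hθe', h.hc.cv_s, hθ]
    decide
  -- the `r`-group
  obtain ⟨Q, hQ⟩ : ∃ Q : Subgroup L, Q = rd (UU C K x) (H23 C e K x) ⊓ centralizer {v} := ⟨_, rfl⟩
  have hQr : IsPGroup r Q := by
    refine h.sb.pgroup.to_le (le_trans ?_ (rd_le (H := H23 C e K x)))
    rw [hQ]
    exact inf_le_left
  have hQv : ∀ y ∈ Q, y * v = v * y := by
    intro y hy
    rw [hQ] at hy
    exact (mem_centralizer_iff.1 hy.2 v rfl).symm
  have hmemQ : ∀ y ∈ rd (UU C K x) (H23 C e K x), v * y = y * v → y ∈ Q := by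
    intro y hy hvy
    rw [hQ]
    refine ⟨hy, mem_centralizer_iff.2 ?_⟩
    rintro _ rfl
    exact hvy
  have hxQ : ∀ j : ι, (cv co j = (2, 3, 4, 2) ∨ cv co j = (1, 3, 4, 2)) → ∀ c ∈ K j, x j c ∈ Q := by
    intro j hj c hc
    refine hmemQ _ ?_ (h.S2_Th (Or.inr hj) hvS hc)
    rw [H23_eq, h.rd_eq stmtLongRad (J := {2, 3}) (l := [2, 3, 2]) (by simp) (by
      intro k hk
      rcases hk with rfl | rfl <;> decide)]
    refine x_Uw h.ts ?_ ?_ hc
    · rw [h.hc.ht_cv]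
      rcases hj with hj | hj <;> rw [hj] <;> decide
    · rw [← List.map_reverse, h.hc.ht_cv, h.hc.cv_wl]
      rcases hj with hj | hj <;> rw [hj] <;> decide
  have hlr : l ≠ r := by
    rintro rfl
    exact hl.nq (dvd_card_sub K₀)
  refine eu_ne' (r := r) (Q := Q) hQr hQv (hmemQ u hu hvu) hvl
    ((Nat.coprime_primes hl.prime hr).2 hlr) ?_
  intro E hE hvE hQE
  refine hE.1 (h.no_E hl hvl hv hθ hθ' (fun g hg => by rw [← pow_two]; exact hE.2.2 g hg) ?_ ?_ ?_)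
  · intro g hg
    have h1 := (mem_normalizer_iff.1 (inv_mem hvE) g).1 hg
    rwa [inv_inv] at h1
  · intro c hc g hg
    exact (mem_normalizer_iff.1 (hQE (hxQ θ (Or.inl hθ) c hc)) g).1 hg
  · intro c hc g hg
    exact (mem_normalizer_iff.1 (hQE (hxQ θ' (Or.inr hθ') c hc)) g).1 hg

end

/-- **The groups `²E₆(q)`, `q` odd, at `p = 2`.** -/
theorem euFree_2E6 {F : Type} [Field F] {L : Type u} [Group L] [Finite F] [Finite L]
    (h : Is2E6 F L) (hs : IsSimpleGroup L) (hab : ∃ x y : L, x * y ≠ y * x) (h2 : (2 : F) ≠ 0) :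
    EuFree 2 L := by
  obtain ⟨r, hrc⟩ := CharP.exists F
  have hr : Fact r.Prime := ⟨(CharP.char_is_prime_or_zero F r).resolve_right
    (CharP.char_ne_zero_of_finite F r)⟩
  have hr2 : r ≠ 2 := by
    rintro rfl
    exact h2 (by exact_mod_cast CharP.cast_eq_zero F 2)
  obtain ⟨ι, hι, C, e, K₀, K, x, co, hd, hc⟩ := IsTw.data' h F4_conn hab
  exact Sit.euFree (r := r) ⟨hd, hc, centre_of_nonabelian hs hab, hr2⟩

end Vale.Agent.P240.R2.N402
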