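import Mathlib.Algebra.Field.Defs
import Mathlib.Algebra.Group.Subgroup.Basic

/-!
Relations of rank two for elements `m_i(t)` and `p_i(t)` of a group (definitions), simply laced case.
-/

set_option autoImplicit false

namespace Vale.Agent.P240.R2.N402

section
variable {J : Type*} {F : Type*} [Field F] {G : Type*} [Group G]

/-- `n_i(t) = m_i(t) p_i(-t⁻¹) m_i(t)` -/
def nt (m p : J → F → G) (i : J) (t : F) : G := m i t * p i (-t⁻¹) * m i t

/-- the relations of rank two; `A` is a Cartan matrix with entries `2, 0, -1` -/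
structure CT (A : J → J → ℤ) (m p : J → F → G) : Prop where
  add : ∀ i t u, m i (t + u) = m i t * m i u
  add' : ∀ i t u, p i (t + u) = p i t * p i u
  r1 : ∀ i t u, t ≠ 0 → nt m p i t * m i u * (nt m p i t)⁻¹ = p i (-(t⁻¹ * t⁻¹ * u))
  r1' : ∀ i t u, t ≠ 0 → nt m p i t * p i u * (nt m p i t)⁻¹ = m i (-(t * t * u))
  r2 : ∀ i k, i ≠ k → A i k = 0 → ∀ t u, m i t * m k u = m k u * m i t
  r2' : ∀ i k, i ≠ k → A i k = 0 → ∀ t u, p i t * p k u = p k u * p i t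
  r3 : ∀ i k, i ≠ k → ∀ t u, m i t * p k u = p k u * m i t
  r4 : ∀ i k, A i k = -1 → ∀ t u, t ≠ 0 →
    nt m p i t * m k u * (nt m p i t)⁻¹ = nt m p k 1 * m i (-(t * u)) * (nt m p k 1)⁻¹
  r4' : ∀ i k, A i k = -1 → ∀ t u, t ≠ 0 →
    nt m p i t * p k u * (nt m p i t)⁻¹ = nt m p k 1 * p i (-(t⁻¹ * u)) * (nt m p k 1)⁻¹
  r5 : ∀ i k, A i k = -1 → ∀ u,
    nt m p i 1 * nt m p i 1 * m k u * (nt m p i 1 * nt m p i 1)⁻¹ = m k (-u)
  r5' : ∀ i k, A i k = -1 → ∀ u,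
    nt m p i 1 * nt m p i 1 * p k u * (nt m p i 1 * nt m p i 1)⁻¹ = p k (-u)
  r6 : ∀ i k, A i k = -1 → ∀ t u, t ≠ 0 →
    m i t * m k u * (m i t)⁻¹ * (m k u)⁻¹ = nt m p i t * m k u * (nt m p i t)⁻¹

end

end Vale.Agent.P240.R2.N402
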