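import Mathlib.LinearAlgebra.Matrix.Cartan
import Mathlib.Tactic.NoncommRing
import Mathlib.Tactic.Module
import Vale.Agent.P240.H138.Mem
import Vale.Agent.P240.R2.N402.TD

/-!
The relations of rank two for the elements `X_i(t)`, `X_{-i}(t)` of the group `G27`, matrices that
commute with all root matrices, and unipotent subgroups normalized by the elements `n_i(1)`.
-/

set_option autoImplicit false

namespace Vale.Agent.P240.R2.N402

open Matrix Subgroup Vale.Agent.P240.H138

/-! ### Monomial matrices -/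

/-- monomial matrices -/
def mon (s : I → I) (c : I → ℤ) : Matrix I I ℤ := fun p q => if p = s q then c q else 0

lemma mon_mul (s s' : I → I) (c c' : I → ℤ) :
    mon s c * mon s' c' = mon (fun q => s (s' q)) (fun q => c (s' q) * c' q) := by
  ext p q
  rw [mul_apply, Finset.sum_eq_single (s' q)]
  · simp only [mon, if_true]
    split_ifs <;> simp
  · intro r _ hr
    simp only [mon, if_neg hr, mul_zero]
  · intro h
    exact absurd (Finset.mem_univ _) h

lemma mon_congr {s s' : I → I} {c c' : I → ℤ} (h : ∀ q, c q = c' q ∧ (c q = 0 ∨ s q = s' q)) :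
    mon s c = mon s' c' := by
  ext p q
  obtain ⟨h1, h2⟩ := h q
  simp only [mon]
  rcases h2 with h2 | h2
  · rw [← h1, h2]
    simp
  · rw [h1, h2]

lemma mon_zero {s : I → I} {c : I → ℤ} (h : ∀ q, c q = 0) : mon s c = 0 := by
  ext p q
  simp [mon, h q]

/-! ### The simple reflections on the weights -/

/-- the entries of `N_i` -/
def nn (i : Fin 6) (p q : I) : ℤ := N6 i p q

/-- the entries of the Cartan matrix -/
def ca (i k : Fin 6) : ℤ := CartanMatrix.E₆ i k

/-- the transposition -/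
def tr3 (a b x : Fin 3) : Fin 3 := if x = a then b else if x = b then a else x

/-- the reflection of a root of the factor `f` -/
def sS (f a b : Fin 3) (p : I) : I :=
  if p.1 = f then (p.1, tr3 a b p.2.1, p.2.2)
  else if p.1 = f + 2 then (p.1, p.2.1, tr3 a b p.2.2) else p

/-- the reflection of the fourth root -/
def s4 (p : I) : I :=
  if p.2.2 = 2 then if p.2.1 = 2 then p else (p.1 + 2, 2, 1 - p.2.1)
  else if p.2.1 = 2 then (p.1 + 1, 1 - p.2.2, 2) else p

/-- the reflections -/
def sI : Fin 6 → I → I := ![sS 1 0 1, sS 0 1 2, sS 1 1 2, s4, sS 2 1 2, sS 2 0 1]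

/-- the coefficient of `N_i` in the column `q` -/
def cI (i : Fin 6) (q : I) : ℤ := nn i (sI i q) q

/-- the coefficient of the transpose of `N_i` in the column `q` -/
def dI (i : Fin 6) (q : I) : ℤ := nn i q (sI i q)

lemma nn_mon : ∀ i p q, nn i p q = if p = sI i q then cI i q else 0 := by decide +kernel

lemma nnT_mon : ∀ i p q, nn i q p = if p = sI i q then dI i q else 0 := by decide +kernel

lemma N6_mon (i : Fin 6) : N6 i = mon (sI i) (cI i) := by
  ext p q
  exact nn_mon i p q

lemma N6T_mon (i : Fin 6) : (N6 i)ᵀ = mon (sI i) (dI i) := by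
  ext p q
  exact nnT_mon i p q

lemma sI_sI : ∀ i q, sI i (sI i q) = q := by decide +kernel

/-! ### The integral identities -/

lemma ck_cd : ∀ i q, cI i q * (dI i (sI i q) * cI i q) = cI i q := by decide +kernel

lemma N6_mTm (i : Fin 6) : N6 i * (N6 i)ᵀ * N6 i = N6 i := by
  rw [N6T_mon, N6_mon, mon_mul, mon_mul]
  apply mon_congr
  intro q
  refine ⟨?_, Or.inr (sI_sI _ _)⟩
  rw [sI_sI, mul_assoc]
  exact ck_cd i q

lemma ck_fe : ∀ i k, ca i k = -1 → ∀ q, dI i (sI k q) * cI k q = 0 := by decide +kernel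

lemma N6_fe {i k : Fin 6} (h : CartanMatrix.E₆ i k = -1) : (N6 i)ᵀ * N6 k = 0 := by
  rw [N6T_mon, N6_mon, mon_mul]
  exact mon_zero (ck_fe i k h)

lemma ck_ef : ∀ i k, ca i k = -1 → ∀ q, cI i (sI k q) * dI k q = 0 := by decide +kernel

lemma N6_ef {i k : Fin 6} (h : CartanMatrix.E₆ i k = -1) : N6 i * (N6 k)ᵀ = 0 := by
  rw [N6T_mon, N6_mon, mon_mul]
  exact mon_zero (ck_ef i k h)

lemma ck_adj : ∀ i k, ca i k = -1 → ∀ q,
    cI k q = dI i (sI i (sI k q)) * (cI i (sI k q) * cI k q) +
      cI k q * (cI i (sI i q) * dI i q) := by decide +kernel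

lemma N6_adj {i k : Fin 6} (h : CartanMatrix.E₆ i k = -1) :
    N6 k = (N6 i)ᵀ * (N6 i * N6 k) + N6 k * (N6 i * (N6 i)ᵀ) := by
  rw [N6T_mon, N6_mon, N6_mon, mon_mul, mon_mul, mon_mul, mon_mul]
  ext p q
  rw [Matrix.add_apply]
  simp only [mon, sI_sI]
  have h1 := ck_adj i k h q
  split_ifs
  · exact h1
  · rfl

lemma ck_com : ∀ i k, i ≠ k → ca i k = 0 → ∀ q,
    cI i (sI k q) * cI k q = cI k (sI i q) * cI i q ∧
      (cI i (sI k q) * cI k q = 0 ∨ sI i (sI k q) = sI k (sI i q)) := by decide +kernel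

lemma N6_com {i k : Fin 6} (hik : i ≠ k) (h : CartanMatrix.E₆ i k = 0) :
    N6 i * N6 k = N6 k * N6 i := by
  rw [N6_mon, N6_mon, mon_mul, mon_mul]
  exact mon_congr (ck_com i k hik h)

lemma ck_com' : ∀ i k, i ≠ k → ca i k = 0 → ∀ q,
    cI i (sI k q) * dI k q = dI k (sI i q) * cI i q ∧
      (cI i (sI k q) * dI k q = 0 ∨ sI i (sI k q) = sI k (sI i q)) := by decide +kernel

lemma N6_com' {i k : Fin 6} (hik : i ≠ k) (h : CartanMatrix.E₆ i k = 0) :
    N6 i * (N6 k)ᵀ = (N6 k)ᵀ * N6 i := by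
  rw [N6T_mon, N6_mon, mon_mul, mon_mul]
  exact mon_congr (ck_com' i k hik h)

lemma ca_symm : ∀ i k, ca i k = ca k i := by decide +kernel

lemma ca_cases : ∀ i k, i ≠ k → ca i k = 0 ∨ ca i k = -1 := by decide +kernel

/-! ### The relations over a field -/

section
variable {F : Type*} [Field F]

/-- `N_iᵀ` -/
def NT' (i : Fin 6) : Matrix I I F := (NF F i)ᵀ

lemma NT'_eq (i : Fin 6) : (NT' i : Matrix I I F) = mz F (N6 i)ᵀ := rfl

lemma efe (i : Fin 6) : NF F i * NT' i * NF F i = NF F i := by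
  rw [NT'_eq, NF_eq, ← map_mul, ← map_mul, N6_mTm]

lemma fef (i : Fin 6) : NT' i * NF F i * NT' i = (NT' i : Matrix I I F) := by
  have h := congrArg transpose (efe (F := F) i)
  rw [transpose_mul, transpose_mul, NT', transpose_transpose, ← mul_assoc] at h
  exact h

lemma NT'_sq (i : Fin 6) : NT' i * NT' i = (0 : Matrix I I F) := NFT_sq i

lemma fe0 {i k : Fin 6} (h : CartanMatrix.E₆ i k = -1) : NT' i * NF F k = 0 := by
  rw [NT'_eq, NF_eq, ← map_mul, N6_fe h, map_zero]

lemma ef0 {i k : Fin 6} (h : CartanMatrix.E₆ i k = -1) : NF F i * NT' k = 0 := by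
  rw [NT'_eq, NF_eq, ← map_mul, N6_ef h, map_zero]

lemma adj_e {i k : Fin 6} (h : CartanMatrix.E₆ i k = -1) :
    NF F k = NT' i * (NF F i * NF F k) + NF F k * (NF F i * NT' i) := by
  rw [NT'_eq, NF_eq, NF_eq, ← map_mul, ← map_mul, ← map_mul, ← map_mul, ← map_add, ← N6_adj h]

lemma adj_f {i k : Fin 6} (h : CartanMatrix.E₆ i k = -1) :
    (NT' k : Matrix I I F) = NF F i * (NT' i * NT' k) + NT' k * (NT' i * NF F i) := by
  have h1 := congrArg transpose (adj_e (F := F) h)
  rw [transpose_add, transpose_mul, transpose_mul, transpose_mul, transpose_mul, NT',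
    transpose_transpose] at h1
  refine h1.trans ?_
  rw [add_comm, mul_assoc, mul_assoc]
  rfl

lemma com_e {i k : Fin 6} (hik : i ≠ k) (h : CartanMatrix.E₆ i k = 0) :
    NF F i * NF F k = NF F k * NF F i := by
  rw [NF_eq, NF_eq, ← map_mul, N6_com hik h, map_mul]

lemma com_f {i k : Fin 6} (hik : i ≠ k) (h : CartanMatrix.E₆ i k = 0) :
    NT' i * NT' k = (NT' k * NT' i : Matrix I I F) := by
  have h1 := congrArg transpose (com_e (F := F) hik h)
  rw [transpose_mul, transpose_mul] at h1
  exact h1.symm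

lemma com_ef {i k : Fin 6} (hik : i ≠ k) : NF F i * NT' k = NT' k * NF F i := by
  rcases ca_cases i k hik with h | h
  · rw [NT'_eq, NF_eq, ← map_mul, N6_com' hik h, map_mul]
  · rw [ef0 h, fe0 (show CartanMatrix.E₆ k i = -1 from (ca_symm k i).trans h)]

/-- the matrix `1 - E E' - E' E` -/
def Dm (E E' : Matrix I I F) : Matrix I I F := 1 - E * E' - E' * E

/-- the matrix `D + t E - t⁻¹ E'` -/
def gm (E E' : Matrix I I F) (t : F) : Matrix I I F := Dm E E' + t • E - t⁻¹ • E'

lemma gm_symm (E E' : Matrix I I F) (t : F) : gm E E' t = gm E' E (-t⁻¹) := by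
  rw [gm, gm, Dm, Dm, inv_neg, inv_inv]
  module

lemma gm_eq {E E' : Matrix I I F} (h : E * E = 0) (h2 : E * E' * E = E) {t : F} (ht : t ≠ 0) :
    (1 + t • E) * (1 + (-t⁻¹) • E') * (1 + t • E) = gm E E' t := by
  have h1 : (1 + t • E) * (1 + (-t⁻¹) • E') * (1 + t • E) =
      1 + (2 * t) • E + (-t⁻¹) • E' + (t * -t⁻¹) • (E * E') + (t * -t⁻¹) • (E' * E) +
        (t * t) • (E * E) + (t * -t⁻¹ * t) • (E * E' * E) := by
    simp only [add_mul, mul_add, one_mul, mul_one, smul_mul_assoc, mul_smul_comm]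
    module
  rw [h1, h, h2, mul_neg, mul_inv_cancel₀ ht, gm, Dm]
  module

section conj
variable {E E' K : Matrix I I F} (hE : E * E = 0) (he : E * E' * E = E) (h1 : E' * K = 0)
  (h2 : K * E' = 0) (h3 : K = E' * (E * K) + K * (E * E'))
include hE he h1 h2 h3

lemma EKE : E * K * E = 0 := by
  have h : E * K * E = E * K * E + E * K * E := by
    calc E * K * E = E * (E' * (E * K) + K * (E * E')) * E := by rw [← h3]
      _ = (E * E' * E) * K * E + E * K * (E * E' * E) := by noncomm_ring
      _ = _ := by rw [he]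
  exact left_eq_add.mp h

lemma DK : Dm E E' * K = K * (E * E') := by
  have h : Dm E E' * K = K - E * (E' * K) - E' * (E * K) := by
    rw [Dm]
    noncomm_ring
  rw [h, h1, mul_zero, sub_zero, sub_eq_iff_eq_add, add_comm]
  exact h3

lemma CD : (E * K - K * E) * Dm E E' = E * K := by
  have h : (E * K - K * E) * Dm E E' = E * K - K * E - (E * K * E) * E' - E * (K * E') * E +
      K * (E * E) * E' + K * (E * E' * E) := by
    rw [Dm]
    noncomm_ring
  rw [h, EKE hE he h1 h2 h3, h2, hE, he]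
  noncomm_ring

lemma CE : (E * K - K * E) * E = 0 := by
  have h : (E * K - K * E) * E = E * K * E - K * (E * E) := by noncomm_ring
  rw [h, EKE hE he h1 h2 h3, hE, mul_zero, sub_zero]

lemma CE' : (E * K - K * E) * E' = -(K * (E * E')) := by
  have h : (E * K - K * E) * E' = E * (K * E') - K * (E * E') := by noncomm_ring
  rw [h, h2, mul_zero, zero_sub]

lemma gK {t : F} (ht : t ≠ 0) : gm E E' t * K = t • ((E * K - K * E) * gm E E' t) := by
  have b1 : gm E E' t * K = Dm E E' * K + t • (E * K) - t⁻¹ • (E' * K) := by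
    rw [gm, sub_mul, add_mul, smul_mul_assoc, smul_mul_assoc]
  have b2 : (E * K - K * E) * gm E E' t = (E * K - K * E) * Dm E E' + t • ((E * K - K * E) * E) -
      t⁻¹ • ((E * K - K * E) * E') := by
    rw [gm, mul_sub, mul_add, mul_smul_comm, mul_smul_comm]
  rw [b1, b2, DK hE he h1 h2 h3, CD hE he h1 h2 h3, CE hE he h1 h2 h3, CE' hE he h1 h2 h3, h1,
    smul_zero, smul_zero, smul_neg, sub_zero, add_zero, sub_neg_eq_add, smul_add, smul_smul,
    mul_inv_cancel₀ ht, one_smul, add_comm]

lemma gC {t : F} (ht : t ≠ 0) : gm E E' t * (E * K - K * E) = (-t⁻¹) • (K * gm E E' t) := by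
  have a1 : Dm E E' * (E * K - K * E) = -(K * E) := by
    have h : Dm E E' * (E * K - K * E) = E * K - (E * E' * E) * K - E' * (E * E) * K -
        Dm E E' * K * E := by
      rw [Dm]
      noncomm_ring
    rw [h, DK hE he h1 h2 h3, he, hE]
    have h' : K * (E * E') * E = K * (E * E' * E) := by noncomm_ring
    rw [h', he]
    noncomm_ring
  have a2 : E * (E * K - K * E) = 0 := by
    have h : E * (E * K - K * E) = E * E * K - E * K * E := by noncomm_ring
    rw [h, hE, EKE hE he h1 h2 h3, zero_mul, sub_zero]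
  have a3 : E' * (E * K - K * E) = K * Dm E E' := by
    have h : E' * (E * K - K * E) = E' * (E * K) - E' * K * E := by noncomm_ring
    have h' : K * Dm E E' = K - K * (E * E') - K * E' * E := by
      rw [Dm]
      noncomm_ring
    rw [h, h', h1, h2, zero_mul, sub_zero, sub_zero, eq_sub_iff_add_eq]
    exact h3.symm
  have b1 : gm E E' t * (E * K - K * E) = Dm E E' * (E * K - K * E) + t • (E * (E * K - K * E)) -
      t⁻¹ • (E' * (E * K - K * E)) := by
    rw [gm, sub_mul, add_mul, smul_mul_assoc, smul_mul_assoc]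
  have b2 : K * gm E E' t = K * Dm E E' + t • (K * E) - t⁻¹ • (K * E') := by
    rw [gm, mul_sub, mul_add, mul_smul_comm, mul_smul_comm]
  rw [b1, b2, a1, a2, a3, h2, smul_zero, smul_zero, add_zero, sub_zero, neg_smul, smul_add,
    smul_smul, inv_mul_cancel₀ ht, one_smul]
  abel

end conj

/-! ### The relations in the group -/

lemma un_ext {N N' : Matrix I I F} (h : N * N = 0) (h' : N' * N' = 0) {t u : F}
    (hN : t • N = u • N') : un N h t = un N' h' u := by
  apply Units.ext
  change 1 + t • N = 1 + u • N'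
  rw [hN]

lemma un_add {N : Matrix I I F} (h : N * N = 0) (t u : F) : un N h (t + u) = un N h t * un N h u := by
  apply Units.ext
  rw [Units.val_mul]
  change 1 + (t + u) • N = (1 + t • N) * (1 + u • N)
  rw [mul_add, add_mul, add_mul, smul_mul_smul_comm, h, smul_zero, one_mul, one_mul, mul_one,
    add_smul, add_zero, add_assoc]

lemma un_comm {N N' : Matrix I I F} (h : N * N = 0) (h' : N' * N' = 0) (hc : N * N' = N' * N)
    (t u : F) : un N h t * un N' h' u = un N' h' u * un N h t := by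
  apply Units.ext
  rw [Units.val_mul, Units.val_mul]
  change (1 + t • N) * (1 + u • N') = (1 + u • N') * (1 + t • N)
  have h1 : (t • N) * (u • N') = (u • N') * (t • N) := by
    rw [smul_mul_smul_comm, smul_mul_smul_comm, hc, mul_comm t u]
  exact ((Commute.one_left _).add_left ((Commute.one_right _).add_right h1)).eq

lemma conj_sc {N N' : Matrix I I F} (h : N * N = 0) (h' : N' * N' = 0) {g : GL I F} {c : F}
    (hg : g.1 * N = c • (N' * g.1)) (t : F) : g * un N h t * g⁻¹ = un N' h' (t * c) := by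
  rw [mul_inv_eq_iff_eq_mul]
  apply Units.ext
  rw [Units.val_mul, Units.val_mul]
  change g.1 * (1 + t • N) = (1 + (t * c) • N') * g.1
  rw [mul_add, add_mul, mul_one, one_mul, mul_smul_comm, smul_mul_assoc, hg, smul_smul]

lemma nt_val (i : Fin 6) {t : F} (ht : t ≠ 0) : (nt xp xm i t).1 = gm (NF F i) (NT' i) t := by
  rw [nt, Units.val_mul, Units.val_mul, xp_val, xm_val]
  exact gm_eq (NF_sq i) (efe i) ht

lemma nt_val' (i : Fin 6) {t : F} (ht : t ≠ 0) :
    (nt xp xm i t).1 = gm (NT' i) (NF F i) (-t⁻¹) := by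
  rw [nt_val i ht, gm_symm]

/-- `E K - K E` -/
def br (E K : Matrix I I F) : Matrix I I F := E * K - K * E

lemma br_neg (E K : Matrix I I F) : br K E = -br E K := by
  rw [br, br, neg_sub]

lemma br_sq {E K : Matrix I I F} (hE : E * E = 0) (hK : K * K = 0) (h : E * K * E = 0)
    (h' : K * E * K = 0) : br E K * br E K = 0 := by
  have h1 : br E K * br E K = E * K * E * K - E * (K * K) * E - K * (E * E) * K + K * E * K * E := by
    rw [br]
    noncomm_ring
  rw [h1, hE, hK, h, h']
  simp

lemma gE {E E' : Matrix I I F} (hE : E * E = 0) (he : E * E' * E = E) (hE' : E' * E' = 0)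
    (he' : E' * E * E' = E') {t : F} (ht : t ≠ 0) :
    gm E E' t * E = (-(t⁻¹ * t⁻¹)) • (E' * gm E E' t) := by
  have h1 : gm E E' t * E = E - E * E' * E - E' * (E * E) + t • (E * E) - t⁻¹ • (E' * E) := by
    rw [gm, Dm, sub_mul, add_mul, smul_mul_assoc, smul_mul_assoc]
    noncomm_ring
  have h2 : E' * gm E E' t = E' - E' * E * E' - E' * E' * E + t • (E' * E) - t⁻¹ • (E' * E') := by
    rw [gm, Dm, mul_sub, mul_add, mul_smul_comm, mul_smul_comm]
    noncomm_ring
  rw [h1, h2, hE, hE', he, he', mul_zero, zero_mul, smul_zero, smul_zero, sub_self, sub_zero,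
    sub_self, sub_zero, sub_zero, zero_add, zero_add, zero_sub, smul_smul, neg_mul, mul_assoc,
    inv_mul_cancel₀ ht, mul_one, neg_smul]

/-- the data for two adjacent roots -/
structure AD (E E' K K' : Matrix I I F) : Prop where
  hE : E * E = 0
  hE' : E' * E' = 0
  hK : K * K = 0
  hK' : K' * K' = 0
  he : E * E' * E = E
  he' : E' * E * E' = E'
  h1 : E' * K = 0
  h2 : K * E' = 0
  h1' : E * K' = 0
  h2' : K' * E = 0
  h3 : K = E' * (E * K) + K * (E * E')
  h3' : K' = E * (E' * K') + K' * (E' * E)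

lemma AD.symm {E E' K K' : Matrix I I F} (h : AD E E' K K') : AD E' E K' K :=
  ⟨h.hE', h.hE, h.hK', h.hK, h.he', h.he, h.h1', h.h2', h.h1, h.h2, h.h3', h.h3⟩

lemma ad {i k : Fin 6} (h : CartanMatrix.E₆ i k = -1) :
    AD (NF F i) (NT' i) (NF F k) (NT' k) := by
  have h' : CartanMatrix.E₆ k i = -1 := (ca_symm k i).trans h
  exact ⟨NF_sq i, NT'_sq i, NF_sq k, NT'_sq k, efe i, fef i, fe0 h, ef0 h', ef0 h, fe0 h', adj_e h,
    adj_f h⟩

section rel
variable {E E' K K' : Matrix I I F}

lemma AD.eke (h : AD E E' K K') : E * K * E = 0 := EKE h.hE h.he h.h1 h.h2 h.h3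

lemma AD.gK (h : AD E E' K K') {t : F} (ht : t ≠ 0) :
    gm E E' t * K = t • (br E K * gm E E' t) := N402.gK h.hE h.he h.h1 h.h2 h.h3 ht

lemma AD.gC (h : AD E E' K K') {t : F} (ht : t ≠ 0) :
    gm E E' t * br E K = (-t⁻¹) • (K * gm E E' t) := N402.gC h.hE h.he h.h1 h.h2 h.h3 ht

lemma AD.ggK (h : AD E E' K K') {t : F} (ht : t ≠ 0) :
    gm E E' t * gm E E' t * K = (-1 : F) • (K * (gm E E' t * gm E E' t)) := by
  rw [mul_assoc, h.gK ht, mul_smul_comm, ← mul_assoc, h.gC ht, smul_mul_assoc, smul_smul, mul_neg,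
    mul_inv_cancel₀ ht, mul_assoc]

end rel

theorem ct_G27 : CT (fun i k : Fin 6 => CartanMatrix.E₆ i k) (fun i t => (xp i t : GL I F))
    (fun i t => xm i t) where
  add i t u := un_add (NF_sq i) t u
  add' i t u := un_add (NFT_sq i) t u
  r1 i t u ht := by
    rw [show (fun i t => (xp i t : GL I F)) = xp from rfl,
      show (fun i t => (xm i t : GL I F)) = xm from rfl]
    have h := gE (NF_sq (F := F) i) (efe i) (NT'_sq i) (fef i) ht
    rw [← nt_val i ht] at h
    exact (conj_sc (NF_sq i) (NFT_sq i) h u).trans (congrArg (xm i) (by ring))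
  r1' i t u ht := by
    rw [show (fun i t => (xp i t : GL I F)) = xp from rfl,
      show (fun i t => (xm i t : GL I F)) = xm from rfl]
    have ht' : -t⁻¹ ≠ 0 := neg_ne_zero.mpr (inv_ne_zero ht)
    have h := gE (NT'_sq (F := F) i) (fef i) (NF_sq i) (efe i) ht'
    rw [← nt_val' i ht] at h
    exact (conj_sc (NFT_sq i) (NF_sq i) h u).trans (congrArg (xp i) (by
      rw [inv_neg, inv_inv]; ring))
  r2 i k hik h t u := un_comm (NF_sq i) (NF_sq k) (com_e hik h) t u
  r2' i k hik h t u := un_comm (NFT_sq i) (NFT_sq k) (com_f hik h) t u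
  r3 i k hik t u := un_comm (NF_sq i) (NFT_sq k) (com_ef hik) t u
  r4 i k h t u ht := by
    rw [show (fun i t => (xp i t : GL I F)) = xp from rfl,
      show (fun i t => (xm i t : GL I F)) = xm from rfl]
    have a := ad (F := F) h
    have b := ad (F := F) ((ca_symm k i).trans h)
    have hC := br_sq a.hE a.hK a.eke b.eke
    have hC' := br_sq b.hE b.hK b.eke a.eke
    have h1 := a.gK ht
    rw [← nt_val i ht] at h1
    have h2 := b.gK one_ne_zero
    rw [← nt_val k one_ne_zero] at h2
    refine (conj_sc (NF_sq k) hC h1 u).trans ((un_ext hC hC' ?_).trans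
      (conj_sc (NF_sq i) hC' h2 _).symm)
    rw [br_neg (NF F i) (NF F k)]
    module
  r4' i k h t u ht := by
    rw [show (fun i t => (xp i t : GL I F)) = xp from rfl,
      show (fun i t => (xm i t : GL I F)) = xm from rfl]
    have a := (ad (F := F) h).symm
    have b := (ad (F := F) ((ca_symm k i).trans h)).symm
    have hC := br_sq a.hE a.hK a.eke b.eke
    have hC' := br_sq b.hE b.hK b.eke a.eke
    have ht' : -t⁻¹ ≠ 0 := neg_ne_zero.mpr (inv_ne_zero ht)
    have h1' : -(1 : F)⁻¹ ≠ 0 := neg_ne_zero.mpr (inv_ne_zero one_ne_zero)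
    have h1 := a.gK ht'
    rw [← nt_val' i ht] at h1
    have h2 := b.gK h1'
    rw [← nt_val' k one_ne_zero] at h2
    refine (conj_sc (NFT_sq k) hC h1 u).trans ((un_ext hC hC' ?_).trans
      (conj_sc (NFT_sq i) hC' h2 _).symm)
    rw [br_neg (NT' i) (NT' k), inv_one]
    module
  r5 i k h u := by
    rw [show (fun i t => (xp i t : GL I F)) = xp from rfl,
      show (fun i t => (xm i t : GL I F)) = xm from rfl]
    have h1 := (ad (F := F) h).ggK one_ne_zero
    rw [← nt_val i one_ne_zero, ← Units.val_mul] at h1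
    exact (conj_sc (NF_sq k) (NF_sq k) h1 u).trans (congrArg (xp k) (by ring))
  r5' i k h u := by
    rw [show (fun i t => (xp i t : GL I F)) = xp from rfl,
      show (fun i t => (xm i t : GL I F)) = xm from rfl]
    have h1' : -(1 : F)⁻¹ ≠ 0 := neg_ne_zero.mpr (inv_ne_zero one_ne_zero)
    have h1 := (ad (F := F) h).symm.ggK h1'
    rw [← nt_val' i one_ne_zero, ← Units.val_mul] at h1
    exact (conj_sc (NFT_sq k) (NFT_sq k) h1 u).trans (congrArg (xm k) (by ring))
  r6 i k h t u ht := by
    rw [show (fun i t => (xp i t : GL I F)) = xp from rfl,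
      show (fun i t => (xm i t : GL I F)) = xm from rfl]
    have a := ad (F := F) h
    have b := ad (F := F) ((ca_symm k i).trans h)
    have hC := br_sq a.hE a.hK a.eke b.eke
    have h1 := a.gK ht
    rw [← nt_val i ht] at h1
    refine Eq.trans ?_ (conj_sc (NF_sq k) hC h1 u).symm
    rw [mul_inv_eq_iff_eq_mul, mul_inv_eq_iff_eq_mul]
    apply Units.ext
    simp only [Units.val_mul, xp_val]
    change (1 + t • NF F i) * (1 + u • NF F k) =
      (1 + (u * t) • br (NF F i) (NF F k)) * (1 + u • NF F k) * (1 + t • NF F i)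
    have h2 : (1 + (u * t) • br (NF F i) (NF F k)) * (1 + u • NF F k) * (1 + t • NF F i) =
        (1 + u • NF F k) * (1 + t • NF F i) + (u * t) • (NF F i * NF F k) -
        (u * t) • (NF F k * NF F i) + (u * t * u) • (NF F i * (NF F k * NF F k)) -
        (u * t * u) • (NF F k * NF F i * NF F k) + (u * t * t) • (NF F i * NF F k * NF F i) -
        (u * t * t) • (NF F k * (NF F i * NF F i)) +
        (u * t * u * t) • (NF F i * (NF F k * NF F k) * NF F i) -
        (u * t * u * t) • (NF F k * NF F i * NF F k * NF F i) := by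
      rw [br]
      simp only [add_mul, mul_add, one_mul, mul_one, smul_mul_assoc, mul_smul_comm, sub_mul,
        smul_sub, ← mul_assoc]
      module
    rw [h2, NF_sq, NF_sq, a.eke, b.eke]
    simp only [add_mul, mul_add, one_mul, mul_one, smul_mul_assoc, mul_smul_comm, mul_zero,
      zero_mul, smul_zero]
    module

/-! ### Matrices that commute with the root matrices -/

/-- the diagonal entries of `N_i N_iᵀ` -/
def aD (i : Fin 6) (q : I) : ℤ := cI i (sI i q) * dI i q

/-- the diagonal entries of `N_iᵀ N_i` -/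
def bD (i : Fin 6) (q : I) : ℤ := dI i (sI i q) * cI i q

lemma aD_eq (i : Fin 6) : N6 i * (N6 i)ᵀ = diagonal (aD i) := by
  rw [N6T_mon, N6_mon, mon_mul]
  ext p q
  simp only [mon, sI_sI, diagonal_apply, aD]
  split_ifs with h
  · rw [h]
  · rfl

lemma bD_eq (i : Fin 6) : (N6 i)ᵀ * N6 i = diagonal (bD i) := by
  rw [N6T_mon, N6_mon, mon_mul]
  ext p q
  simp only [mon, sI_sI, diagonal_apply, bD]
  split_ifs with h
  · rw [h]
  · rfl

lemma aD_val : ∀ i q, aD i q = 0 ∨ aD i q = 1 := by decide +kernel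

lemma bD_val : ∀ i q, bD i q = 0 ∨ bD i q = 1 := by decide +kernel

lemma sep : ∀ p q : I, p ≠ q → ∃ i, aD i p ≠ aD i q ∨ bD i p ≠ bD i q := by decide +kernel

lemma cast_ne {a b : ℤ} (ha : a = 0 ∨ a = 1) (hb : b = 0 ∨ b = 1) (h : a ≠ b) :
    (a : F) ≠ b := by
  rcases ha with rfl | rfl <;> rcases hb with rfl | rfl <;> simp_all

lemma off_diag {g : Matrix I I F} {d : I → ℤ} (h : g * mz F (diagonal d) = mz F (diagonal d) * g)
    {p q : I} (hd : (d p : F) ≠ d q) : g p q = 0 := by
  have h1 : mz F (diagonal d) = diagonal (fun q => (d q : F)) := by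
    rw [mz_apply, diagonal_map Int.cast_zero]
  rw [h1] at h
  have h2 := congrFun (congrFun h p) q
  rw [mul_diagonal, diagonal_mul] at h2
  have h3 : ((d p : F) - d q) * g p q = 0 := by
    rw [sub_mul, ← h2, mul_comm, sub_self]
  exact (mul_eq_zero.mp h3).resolve_left (sub_ne_zero.mpr hd)

/-- the heights of the weights -/
def gr (p : I) : ℕ :=
  (![![![0, 1, 2], ![11, 12, 13], ![10, 11, 12]], ![![8, 9, 10], ![7, 8, 9], ![6, 7, 8]],
    ![![16, 5, 6], ![15, 4, 5], ![14, 3, 4]]] : Fin 3 → Fin 3 → Fin 3 → ℕ) p.1 p.2.1 p.2.2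

lemma gr_down : ∀ p : I, p = (0, 0, 0) ∨ ∃ i, nn i p (sI i p) * nn i p (sI i p) = 1 ∧
    gr (sI i p) < gr p := by decide +kernel

lemma scal_of_comm {g : Matrix I I F} (h : ∀ i, g * NF F i = NF F i * g)
    (h' : ∀ i, g * (NF F i)ᵀ = (NF F i)ᵀ * g) : ∃ c : F, g = c • 1 := by
  have ha : ∀ i, g * mz F (diagonal (aD i)) = mz F (diagonal (aD i)) * g := by
    intro i
    rw [← aD_eq, map_mul, ← mul_assoc]
    have h1 := h i
    have h2 := h' i
    rw [NF_eq] at h1
    change g * mz F (N6 i)ᵀ = mz F (N6 i)ᵀ * g at h2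
    rw [h1, mul_assoc, h2, mul_assoc]
  have hb : ∀ i, g * mz F (diagonal (bD i)) = mz F (diagonal (bD i)) * g := by
    intro i
    rw [← bD_eq, map_mul, ← mul_assoc]
    have h1 := h i
    have h2 := h' i
    rw [NF_eq] at h1
    change g * mz F (N6 i)ᵀ = mz F (N6 i)ᵀ * g at h2
    rw [h2, mul_assoc, h1, mul_assoc]
  have hd : ∀ p q, p ≠ q → g p q = 0 := by
    intro p q hpq
    obtain ⟨i, hi | hi⟩ := sep p q hpq
    · exact off_diag (ha i) (cast_ne (aD_val i p) (aD_val i q) hi)
    · exact off_diag (hb i) (cast_ne (bD_val i p) (bD_val i q) hi)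
  have hg : g = diagonal (fun p => g p p) := by
    ext p q
    rw [diagonal_apply]
    split_ifs with h1
    · rw [h1]
    · exact hd p q h1
  have hs : ∀ i p q, nn i p q * nn i p q = 1 → g p p = g q q := by
    intro i p q hpq
    have h1 := congrFun (congrFun (h i) p) q
    rw [hg, diagonal_mul, mul_diagonal] at h1
    have h2 : NF F i p q = (nn i p q : F) := rfl
    rw [h2] at h1
    have h3 : (nn i p q : F) * (nn i p q : F) = 1 := by
      rw [← Int.cast_mul, hpq, Int.cast_one]
    calc g p p = g p p * (nn i p q : F) * (nn i p q : F) := by rw [mul_assoc, h3, mul_one]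
      _ = (nn i p q : F) * g q q * (nn i p q : F) := by rw [h1]
      _ = (nn i p q : F) * (nn i p q : F) * g q q := by ring
      _ = g q q := by rw [h3, one_mul]
  have hc : ∀ n p, gr p = n → g p p = g (0, 0, 0) (0, 0, 0) := by
    intro n
    induction n using Nat.strong_induction_on with
    | _ n ih =>
      intro p hp
      rcases gr_down p with rfl | ⟨i, h1, h2⟩
      · rfl
      · rw [hs i p _ h1]
        exact ih _ (hp ▸ h2) _ rfl
  refine ⟨g (0, 0, 0) (0, 0, 0), ?_⟩
  ext p q
  rw [Matrix.smul_apply, one_apply]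
  split_ifs with h1
  · rw [← h1, hc _ p rfl, smul_eq_mul, mul_one]
  · rw [hd p q h1, smul_zero]

/-! ### Normalized unipotent subgroups -/

/-- the coefficients of `n_i(1)` -/
def eI (i : Fin 6) (q : I) : ℤ := if sI i q = q then 1 else cI i q - dI i q

lemma eI_val : ∀ i q, eI i q * eI i q = 1 := by decide +kernel

lemma eI_mon : ∀ i p q, (if p = q then 1 - aD i p - bD i p else 0) + nn i p q - nn i q p =
    if p = sI i q then eI i q else 0 := by decide +kernel

lemma gm_mon (i : Fin 6) : gm (NF F i) (NT' i) 1 = mz F (mon (sI i) (eI i)) := by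
  have h1 : gm (NF F i) (NT' i) 1 = mz F (1 - N6 i * (N6 i)ᵀ - (N6 i)ᵀ * N6 i + N6 i - (N6 i)ᵀ) := by
    rw [gm, Dm, one_smul, inv_one, one_smul]
    simp only [map_add, map_sub, map_mul, map_one]
    rfl
  rw [h1]
  congr 1
  rw [aD_eq, bD_eq]
  ext p q
  have h2 := eI_mon i p q
  simp only [Matrix.sub_apply, Matrix.add_apply, one_apply, diagonal_apply, transpose_apply]
  change _ = if p = sI i q then eI i q else 0
  rw [← h2]
  change (if p = q then 1 else 0) - (if p = q then aD i p else 0) - (if p = q then bD i p else 0) +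
    nn i p q - nn i q p = _
  split_ifs <;> simp

lemma gr_nn : ∀ i p q, gr p ≤ gr q → nn i p q = 0 := by decide +kernel

lemma gr_up : ∀ q : I, gr q < 16 → ∃ i, gr (sI i q) = gr q + 1 := by decide +kernel

lemma gr_le : ∀ q : I, gr q ≤ 16 := by decide +kernel

lemma gr_clos {g : GL I F}
    (hg : g ∈ closure {g : GL I F | ∃ (i : Fin 6) (t : F), g = xp i t}) :
    ∀ p q, gr p ≤ gr q → g.1 p q = (1 : Matrix I I F) p q := by
  have key : ∀ (i : Fin 6) (t : F) p q, gr p ≤ gr q → (xp i t).1 p q = (1 : Matrix I I F) p q := by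
    intro i t p q hpq
    rw [xp_val, Matrix.add_apply, Matrix.smul_apply]
    have h1 : NF F i p q = ((nn i p q : ℤ) : F) := rfl
    rw [h1, gr_nn i p q hpq, Int.cast_zero, smul_zero, add_zero]
  induction hg using closure_induction'' with
  | mem x hx =>
    obtain ⟨i, t, rfl⟩ := hx
    exact key i t
  | inv_mem x hx =>
    obtain ⟨i, t, rfl⟩ := hx
    have h1 : (xp i t : GL I F)⁻¹ = xp i (-t) := un_inv _ _ _
    rw [h1]
    exact key i (-t)
  | one => exact fun p q _ => rfl
  | mul x y _ _ hx hy =>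
    intro p q hpq
    rw [Units.val_mul, mul_apply]
    have h1 : ∀ r, x.1 p r * y.1 r q = (1 : Matrix I I F) p r * y.1 r q := by
      intro r
      by_cases hr : gr p ≤ gr r
      · rw [hx p r hr]
      · have h2 : r ≠ q := by
          rintro rfl
          exact hr hpq
        have h3 : gr r ≤ gr q := by omega
        rw [hy r q h3, one_apply_ne h2, mul_zero, mul_zero]
    rw [Finset.sum_congr rfl (fun r _ => h1 r), ← mul_apply, one_mul]
    exact hy p q hpq

lemma mon_apply (i : Fin 6) (p q : I) :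
    mz F (mon (sI i) (eI i)) p q = if p = sI i q then (eI i q : F) else 0 := by
  rw [mz_apply, map_apply, mon]
  split_ifs
  · rfl
  · exact Int.cast_zero

lemma mon_left (i : Fin 6) (g : Matrix I I F) (p q : I) :
    (mz F (mon (sI i) (eI i)) * g) (sI i p) q = (eI i p : F) * g p q := by
  rw [mul_apply, Finset.sum_eq_single p]
  · rw [mon_apply, if_pos rfl]
  · intro r _ hr
    rw [mon_apply, if_neg, zero_mul]
    intro h
    apply hr
    rw [← sI_sI i r, ← h, sI_sI]
  · intro h
    exact absurd (Finset.mem_univ _) h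

lemma mon_right (i : Fin 6) (g : Matrix I I F) (p q : I) :
    (g * mz F (mon (sI i) (eI i))) p q = g p (sI i q) * (eI i q : F) := by
  rw [mul_apply, Finset.sum_eq_single (sI i q)]
  · rw [mon_apply, if_pos rfl]
  · intro r _ hr
    rw [mon_apply, if_neg hr, mul_zero]
  · intro h
    exact absurd (Finset.mem_univ _) h

lemma eI_sq (i : Fin 6) (q : I) : (eI i q : F) * (eI i q : F) = 1 := by
  rw [← Int.cast_mul, eI_val, Int.cast_one]

lemma triv_of_norm (Q : Subgroup (GL I F))
    (hU : Q ≤ closure {g : GL I F | ∃ (i : Fin 6) (t : F), g = xp i t})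
    (hn : ∀ i, ∀ g ∈ Q, nt xp xm i 1 * g * (nt xp xm i 1)⁻¹ ∈ Q) : Q = ⊥ := by
  have key : ∀ n, ∀ q, 16 - gr q = n → ∀ g ∈ Q, ∀ p, g.1 p q = (1 : Matrix I I F) p q := by
    intro n
    induction n with
    | zero =>
      intro q hq g hg p
      exact gr_clos (hU hg) p q (by have := gr_le p; omega)
    | succ n ih =>
      intro q hq g hg p
      obtain ⟨i, hi⟩ := gr_up q (by omega)
      have h1 := ih (sI i q) (by omega) _ (hn i g hg) (sI i p)
      have h2 : (nt xp xm i 1 * g * (nt xp xm i 1)⁻¹) * nt xp xm i 1 = nt xp xm i 1 * g := by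
        rw [inv_mul_cancel_right]
      have h4 : (nt xp xm i 1 : GL I F).1 = mz F (mon (sI i) (eI i)) := by
        rw [nt_val i one_ne_zero, gm_mon]
      have h3 : ((nt xp xm i 1 * g * (nt xp xm i 1)⁻¹) * nt xp xm i 1 : GL I F).1 (sI i p) q =
          (nt xp xm i 1 * g : GL I F).1 (sI i p) q := by rw [h2]
      rw [Units.val_mul, Units.val_mul (nt xp xm i 1) g, h4, mon_right, mon_left, h1] at h3
      have h5 : g.1 p q = (eI i p : F) * ((1 : Matrix I I F) (sI i p) (sI i q) * (eI i q : F)) := by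
        rw [h3, ← mul_assoc, eI_sq, one_mul]
      rw [h5]
      by_cases hpq : p = q
      · rw [hpq, one_apply_eq, one_apply_eq, one_mul, eI_sq]
      · rw [one_apply_ne hpq, one_apply_ne, zero_mul, mul_zero]
        intro h
        apply hpq
        rw [← sI_sI i p, h, sI_sI]
  rw [eq_bot_iff]
  intro g hg
  rw [mem_bot]
  apply Units.ext
  ext p q
  exact key _ q rfl g hg p

end

end Vale.Agent.P240.R2.N402
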