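import Vale.Agent.P240.R2.N402.TE
import Vale.Agent.P240.R2.H281.X1

/-!
Root systems with a symmetric Cartan matrix.
-/

set_option autoImplicit false

namespace Vale.Agent.P240.R2.N402

open RootPairing RootPairing.Base Vale.Agent.P240.R2.H986.X

section
variable {ι M N : Type} [AddCommGroup M] [Module ℚ M] [AddCommGroup N] [Module ℚ N]
variable {P : RootPairing ι ℚ M N} {b : P.Base} [Finite ι] [P.IsCrystallographic]

omit [Finite ι] in
lemma pr_refl_left (i j k : ι) : P.pairingIn ℤ (P.reflectionPerm i j) k =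
    P.pairingIn ℤ j k - P.pairingIn ℤ j i * P.pairingIn ℤ i k := by
  apply (FaithfulSMul.algebraMap_injective ℤ ℚ)
  rw [map_sub, map_mul]
  simp only [P.algebraMap_pairingIn ℤ]
  rw [← root_coroot_eq_pairing, root_reflectionPerm, reflection_apply_root, map_sub, map_smul,
    LinearMap.sub_apply, LinearMap.smul_apply, root_coroot_eq_pairing, root_coroot_eq_pairing,
    smul_eq_mul]

/-- symmetric Cartan matrices -/
lemma pr_symm (hsym : ∀ i ∈ b.support, ∀ j ∈ b.support, P.pairingIn ℤ i j = P.pairingIn ℤ j i)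
    {C : RC ι} (hsimp : ∀ i, C.simp i ↔ i ∈ b.support)
    (hs : ∀ i j, C.s i j = P.reflectionPerm i j) :
    ∀ j k, k ∈ b.support → P.pairingIn ℤ j k = P.pairingIn ℤ k j := by
  refine C.gen (fun j => ∀ k, k ∈ b.support → P.pairingIn ℤ j k = P.pairingIn ℤ k j) ?_ ?_
  · intro i hi k hk
    exact hsym i ((hsimp i).1 hi) k hk
  · intro i j hi hj k hk
    rw [hs, pr_refl_left, P.pairingIn_reflectionPerm, pr_refl_left, hj k hk,
      hj i ((hsimp i).1 hi), hsym i ((hsimp i).1 hi) k hk, mul_comm]

variable [P.IsReduced]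

lemma pr_bd {i j : ι} (h : P.pairingIn ℤ i j = P.pairingIn ℤ j i) (h1 : i ≠ j)
    (h2 : i ≠ P.reflectionPerm j j) : P.pairingIn ℤ i j = -1 ∨ P.pairingIn ℤ i j = 0 ∨
      P.pairingIn ℤ i j = 1 := by
  have h3 := P.pairingIn_pairingIn_mem_set_of_isCrystal_of_isRed' i j
    (fun e => h1 (P.root.injective e)) (fun e => h2 (P.root.injective (by
      rw [root_reflectionPerm, reflection_apply_self]
      exact e)))
  rw [← h] at h3
  simp only [Set.mem_insert_iff, Set.mem_singleton_iff, Prod.mk.injEq] at h3
  omega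

/-- **the combinatorics** -/
theorem sl_of_symm (hsym : ∀ i ∈ b.support, ∀ j ∈ b.support, P.pairingIn ℤ i j = P.pairingIn ℤ j i)
    {C : RC ι} (hht : C.ht = b.height) (hneg : ∀ i, C.neg i = P.reflectionPerm i i)
    (hs : ∀ i j, C.s i j = P.reflectionPerm i j) (hsimp : ∀ i, C.simp i ↔ i ∈ b.support)
    (hpr : ∀ i j, C.pr j i = P.pairingIn ℤ j i)
    (hc : ∀ i j k, C.cone i j k ↔ ∃ m n : ℕ, 0 < m ∧ 0 < n ∧
      P.root k = m • P.root i + n • P.root j) : SL C := by
  have hT := pr_symm hsym hsimp hs
  have hbd : ∀ b' i, C.simp i → b' ≠ i → b' ≠ C.neg i →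
      C.pr b' i = -1 ∨ C.pr b' i = 0 ∨ C.pr b' i = 1 := by
    intro j i hi h1 h2
    rw [hpr]
    rw [hneg] at h2
    exact pr_bd (hT j i ((hsimp i).1 hi)) h1 h2
  have htwo : ∀ b' i, C.simp i → C.pr b' i = 2 → b' = i := by
    intro b' i hi h2
    by_contra hne
    by_cases h1 : b' = C.neg i
    · rw [h1, C.pr_neg, C.pr_self] at h2
      omega
    · rcases hbd b' i hi hne h1 with h3 | h3 | h3 <;> omega
  have hroot : ∀ i k, C.pr i k = -1 → P.root (C.s k i) = P.root i + P.root k := by
    intro i k hp
    rw [hs, root_reflectionPerm, reflection_apply_root' ℤ, ← hpr, hp, neg_one_smul, sub_neg_eq_add]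
  refine ⟨hbd, ?_, ?_, ?_, ?_, ?_, ?_⟩
  · intro b' i hi
    have h1 : P.root (P.reflectionPerm i b') = P.root b' + (-P.pairingIn ℤ b' i) • P.root i := by
      rw [root_reflectionPerm, neg_smul, reflection_apply_root' ℤ, sub_eq_add_neg]
    have h2 := b.height_add_zsmul h1
    rw [height_one_of_mem_support ((hsimp i).1 hi)] at h2
    rw [hht, hs, hpr, h2]
    simp only [smul_eq_mul, mul_one]
    ring
  · intro b' i k _ _
    rw [hs, hpr, hpr, hpr, hpr, pr_refl_left]
  · intro b' hb hns
    rw [hht] at hb
    have hb' : b.IsPos b' := hb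
    obtain ⟨j, hj, h1⟩ := hb'.exists_mem_support_pos_pairingIn
    rw [← hT b' j hj, ← hpr] at h1
    have hj' := (hsimp j).2 hj
    refine ⟨j, hj', ?_⟩
    have hne : b' ≠ j := fun e => hns (by rw [e]; exact hj')
    have hne' : b' ≠ C.neg j := by
      intro e
      rw [e, C.pr_neg, C.pr_self] at h1
      omega
    rcases hbd b' j hj' hne hne' with h3 | h3 | h3 <;> omega
  · intro i k j hi hk hne hcone
    obtain ⟨m, n, hm, hn, hj⟩ := (hc i k j).1 hcone
    have hlin : ∀ l, P.pairingIn ℤ j l = m * P.pairingIn ℤ i l + n * P.pairingIn ℤ k l := by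
      intro l
      apply (FaithfulSMul.algebraMap_injective ℤ ℚ)
      rw [map_add, map_mul, map_mul]
      simp only [P.algebraMap_pairingIn ℤ]
      rw [← root_coroot_eq_pairing, hj, map_add, map_nsmul, map_nsmul, LinearMap.add_apply,
        LinearMap.smul_apply, LinearMap.smul_apply, root_coroot_eq_pairing,
        root_coroot_eq_pairing, nsmul_eq_mul, nsmul_eq_mul]
      simp
    have h1 : C.pr j i = m * 2 + n * C.pr k i := by
      rw [hpr, hpr, hlin, P.pairingIn_same]
    have h2 : C.pr j k = m * C.pr i k + n * 2 := by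
      rw [hpr, hpr, hlin, P.pairingIn_same]
    have hsy : C.pr k i = C.pr i k := by
      rw [hpr, hpr]
      exact hsym k ((hsimp k).1 hk) i ((hsimp i).1 hi)
    have hne2 : i ≠ C.neg k := by
      intro e
      have h3 := C.simp_pos i hi
      have h4 := C.simp_pos k hk
      rw [e, C.ht_neg] at h3
      omega
    have hle := C.pr_bd k i hk hi hne.symm
    have hmz : (1 : ℤ) ≤ m := by exact_mod_cast hm
    have hnz : (1 : ℤ) ≤ n := by exact_mod_cast hn
    rcases hbd i k hk hne hne2 with h3 | h3 | h3
    · refine ⟨h3, ?_⟩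
      rw [hsy, h3] at h1
      rw [h3] at h2
      have hji : j ≠ i := by
        rintro rfl
        rw [C.pr_self] at h1
        rw [h3] at h2
        omega
      have hjk : j ≠ k := by
        rintro rfl
        rw [C.pr_self] at h2
        rw [hsy, h3] at h1
        omega
      have hjni : j ≠ C.neg i := by
        rintro rfl
        rw [C.pr_neg, C.pr_self] at h1
        rw [C.pr_neg, h3] at h2
        omega
      have hjnk : j ≠ C.neg k := by
        rintro rfl
        rw [C.pr_neg, C.pr_self] at h2
        rw [C.pr_neg, hsy, h3] at h1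
        omega
      have h4 : C.pr j i ≤ 1 := by rcases hbd j i hi hji hjni with h | h | h <;> omega
      have h5 : C.pr j k ≤ 1 := by rcases hbd j k hk hjk hjnk with h | h | h <;> omega
      have hm1 : m = 1 := by omega
      have hn1 : n = 1 := by omega
      apply P.root.injective
      rw [hroot k i (by rw [hsy, h3]), hj, hm1, hn1, one_smul, one_smul, add_comm]
    · exfalso
      rw [hsy, h3, mul_zero, add_zero] at h1
      rw [h3, mul_zero, zero_add] at h2
      have hji : j = i := by
        by_contra hji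
        by_cases hjni : j = C.neg i
        · rw [hjni, C.pr_neg, C.pr_self] at h1
          omega
        · rcases hbd j i hi hji hjni with h | h | h <;> omega
      have hjk : j = k := by
        by_contra hjk
        by_cases hjnk : j = C.neg k
        · rw [hjnk, C.pr_neg, C.pr_self] at h2
          omega
        · rcases hbd j k hk hjk hjnk with h | h | h <;> omega
      exact hne (hji.symm.trans hjk)
    · omega
  · intro i k hi hk
    rw [hpr, hpr]
    exact hsym i ((hsimp i).1 hi) k ((hsimp k).1 hk)
  · intro i k hi hk hp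
    have hsy : C.pr k i = -1 := by
      rw [hpr, ← hp, hpr]
      exact hsym k ((hsimp k).1 hk) i ((hsimp i).1 hi)
    apply P.root.injective
    rw [hroot k i hsy, hroot i k hp, add_comm]

end

end Vale.Agent.P240.R2.N402
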