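import Vale.Agent.P240.R2.N402.TL
import Vale.Agent.P240.R2.N402.TS
import Vale.Agent.P240.R2.N402.TG
import Vale.Agent.P240.H138.Cls
import Vale.Agent.P240.R2.H281.EB

/-!
The `27`-dimensional module of the groups given by Chevalley's relations for `E₆`.
-/

set_option autoImplicit false

namespace Vale.Agent.P240.R2.N402

open Subgroup CartanMatrix Matrix Vale.Agent.P240.K Vale.Agent.P240.H195 Vale.Agent.P240.H138
  Vale.Agent.P240.R2.H986.X Vale.Agent.P240.R2.H281EA Vale.Agent.P240.R2.H165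
  Vale.Agent.P240.R2.H165.XC Vale.Agent.P240.R2.H281EB

universe u

/-! ### products, subgroups, and changes of the index set -/

section
variable {J : Type*} {F : Type*} [Field F] {G : Type*} [Group G] {A : J → J → ℤ} {m p : J → F → G}

lemma nt_prod {G' : Type*} [Group G'] (m p : J → F → G) (m' p' : J → F → G') (i : J) (t : F) :
    nt (fun i t => (m i t, m' i t)) (fun i t => (p i t, p' i t)) i t =
      (nt m p i t, nt m' p' i t) := rfl

lemma CT.prod {G' : Type*} [Group G'] {m' p' : J → F → G'} (h : CT A m p) (h' : CT A m' p') :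
    CT A (fun i t => (m i t, m' i t)) (fun i t => (p i t, p' i t)) where
  add i t u := Prod.ext (h.add i t u) (h'.add i t u)
  add' i t u := Prod.ext (h.add' i t u) (h'.add' i t u)
  r1 i t u ht := Prod.ext (h.r1 i t u ht) (h'.r1 i t u ht)
  r1' i t u ht := Prod.ext (h.r1' i t u ht) (h'.r1' i t u ht)
  r2 i k hne h0 t u := Prod.ext (h.r2 i k hne h0 t u) (h'.r2 i k hne h0 t u)
  r2' i k hne h0 t u := Prod.ext (h.r2' i k hne h0 t u) (h'.r2' i k hne h0 t u)
  r3 i k hne t u := Prod.ext (h.r3 i k hne t u) (h'.r3 i k hne t u)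
  r4 i k h1 t u ht := Prod.ext (h.r4 i k h1 t u ht) (h'.r4 i k h1 t u ht)
  r4' i k h1 t u ht := Prod.ext (h.r4' i k h1 t u ht) (h'.r4' i k h1 t u ht)
  r5 i k h1 u := Prod.ext (h.r5 i k h1 u) (h'.r5 i k h1 u)
  r5' i k h1 u := Prod.ext (h.r5' i k h1 u) (h'.r5' i k h1 u)
  r6 i k h1 t u ht := Prod.ext (h.r6 i k h1 t u ht) (h'.r6 i k h1 t u ht)

lemma CT.sub (h : CT A m p) (M : Subgroup G) (hm : ∀ i t, m i t ∈ M) (hp : ∀ i t, p i t ∈ M) :
    CT A (fun i t => (⟨m i t, hm i t⟩ : M)) (fun i t => (⟨p i t, hp i t⟩ : M)) where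
  add i t u := Subtype.ext (h.add i t u)
  add' i t u := Subtype.ext (h.add' i t u)
  r1 i t u ht := Subtype.ext (h.r1 i t u ht)
  r1' i t u ht := Subtype.ext (h.r1' i t u ht)
  r2 i k hne h0 t u := Subtype.ext (h.r2 i k hne h0 t u)
  r2' i k hne h0 t u := Subtype.ext (h.r2' i k hne h0 t u)
  r3 i k hne t u := Subtype.ext (h.r3 i k hne t u)
  r4 i k h1 t u ht := Subtype.ext (h.r4 i k h1 t u ht)
  r4' i k h1 t u ht := Subtype.ext (h.r4' i k h1 t u ht)
  r5 i k h1 u := Subtype.ext (h.r5 i k h1 u)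
  r5' i k h1 u := Subtype.ext (h.r5' i k h1 u)
  r6 i k h1 t u ht := Subtype.ext (h.r6 i k h1 t u ht)

lemma CT.re {J' : Type*} (h : CT A m p) {B : J' → J' → ℤ} (f : J' → J)
    (hf : Function.Injective f) (hB : ∀ i k, B i k = A (f i) (f k)) :
    CT B (fun i t => m (f i) t) (fun i t => p (f i) t) where
  add i t u := h.add _ t u
  add' i t u := h.add' _ t u
  r1 i t u ht := h.r1 _ t u ht
  r1' i t u ht := h.r1' _ t u ht
  r2 i k hne h0 t u := h.r2 _ _ (fun e => hne (hf e)) (by rw [← hB]; exact h0) t u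
  r2' i k hne h0 t u := h.r2' _ _ (fun e => hne (hf e)) (by rw [← hB]; exact h0) t u
  r3 i k hne t u := h.r3 _ _ (fun e => hne (hf e)) t u
  r4 i k h1 t u ht := h.r4 _ _ (by rw [← hB]; exact h1) t u ht
  r4' i k h1 t u ht := h.r4' _ _ (by rw [← hB]; exact h1) t u ht
  r5 i k h1 u := h.r5 _ _ (by rw [← hB]; exact h1) u
  r5' i k h1 u := h.r5' _ _ (by rw [← hB]; exact h1) u
  r6 i k h1 t u ht := h.r6 _ _ (by rw [← hB]; exact h1) t u ht

end

/-! ### the noncommuting elements -/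

lemma NF_ne {F : Type*} [Field F] : -(NF F 0)ᵀ ≠ NF F 0 := by
  intro e
  have h1 := congrFun (congrFun e (1, 0, 0)) (1, 1, 0)
  have h2 : N6 0 (1, 0, 0) (1, 1, 0) = 1 := by decide
  have h3 : N6 0 (1, 1, 0) (1, 0, 0) = 0 := by decide
  rw [neg_apply, transpose_apply, NF, map_apply, map_apply, h2, h3, Int.cast_zero, Int.cast_one,
    neg_zero] at h1
  exact one_ne_zero h1.symm

/-! ### the theorem -/

section
variable {ι : Type*} {F : Type*} [Field F] {L : Type*} [Group L] {C : RC ι} {x : ι → F → L}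

/-- the pairs -/
def mM (x : ι → F → L) (E : {i // C.simp i} ≃ Fin 6) (i : {i // C.simp i}) (t : F) : GL I F × L :=
  (xp (E i) t, x i.1 t)

/-- the pairs -/
def pM (C : RC ι) (x : ι → F → L) (E : {i // C.simp i} ≃ Fin 6) (i : {i // C.simp i}) (t : F) :
    GL I F × L := (xm (E i) t, x (C.neg i.1) t)

/-- the group of pairs -/
def MM (C : RC ι) (x : ι → F → L) (E : {i // C.simp i} ≃ Fin 6) : Subgroup (GL I F × L) :=
  closure ({g | ∃ i t, g = mM x E i t} ∪ {g | ∃ i t, g = pM C x E i t})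

variable (hS : SL C) (h : CS C x) (E : {i // C.simp i} ≃ Fin 6)
  (hE : ∀ i j : {i // C.simp i}, C.pr i.1 j.1 = E₆ (E i) (E j))

lemma mM_mem (i : {i // C.simp i}) (t : F) : mM x E i t ∈ MM C x E :=
  subset_closure (Or.inl ⟨i, t, rfl⟩)

lemma pM_mem (i : {i // C.simp i}) (t : F) : pM C x E i t ∈ MM C x E :=
  subset_closure (Or.inr ⟨i, t, rfl⟩)

include hS h hE

lemma hy : HY C x (fun i t => (⟨mM x E i t, mM_mem E i t⟩ : MM C x E))
    (fun i t => (⟨pM C x E i t, pM_mem E i t⟩ : MM C x E))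
    ((MonoidHom.snd (GL I F) L).comp (MM C x E).subtype) where
  sl := hS
  cs := h
  ct := ((ct_G27.re E E.injective hE).prod (ct_of_cs h hS)).sub _ _ _
  fm _ _ := rfl
  fp _ _ := rfl

lemma ker_cen (g : GL I F) (hg : (g, (1 : L)) ∈ MM C x E) {y : GL I F × L} (hy' : y ∈ MM C x E) :
    g * y.1 = y.1 * g := by
  have H := hy hS h E hE
  have h1 := H.ker_le ?_ ?_ ⟨(g, 1), hg⟩ rfl ⟨y, hy'⟩
  · have h2 := congrArg Subtype.val h1
    exact congrArg Prod.fst h2
  · refine eq_top_iff.2 ((closure_closure_coe_preimage (k := {g | ∃ i t, g = mM x E i t} ∪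
      {g | ∃ i t, g = pM C x E i t})).symm.le.trans ?_)
    refine closure_mono ?_
    rintro ⟨g, hg⟩ (⟨i, t, hgi⟩ | ⟨i, t, hgi⟩)
    · exact Or.inl ⟨i, t, Subtype.ext hgi⟩
    · exact Or.inr ⟨i, t, Subtype.ext hgi⟩
  · intro Q hQU hQk hQn
    have h2 : Q.map ((MonoidHom.fst (GL I F) L).comp (MM C x E).subtype) = ⊥ := by
      apply triv_of_norm
      · refine (map_mono hQU).trans ?_
        rw [map_le_iff_le_comap, Um, closure_le]
        rintro _ ⟨i, t, rfl⟩
        exact subset_closure ⟨E i, t, rfl⟩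
      · rintro i _ ⟨g, hg, rfl⟩
        obtain ⟨i, rfl⟩ := E.surjective i
        exact ⟨_, hQn i g hg, rfl⟩
    rw [eq_bot_iff]
    intro g hg
    have h3 : g.1.1 ∈ Q.map ((MonoidHom.fst (GL I F) L).comp (MM C x E).subtype) := ⟨g, hg, rfl⟩
    rw [h2, mem_bot] at h3
    have h4 : g.1.2 = 1 := hQk hg
    rw [mem_bot]
    exact Subtype.ext (Prod.ext h3 h4)

omit hS hE in
/-- the second projection is surjective -/
lemma exists_fst (l : L) : ∃ g : GL I F, (g, l) ∈ MM C x E := by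
  obtain ⟨R, hR⟩ : ∃ R, R = (MM C x E).map (MonoidHom.snd (GL I F) L) := ⟨_, rfl⟩
  have hm : ∀ i, C.simp i → ∀ t, x i t ∈ R := fun i hi t => by
    rw [hR]
    exact ⟨_, mM_mem E ⟨i, hi⟩ t, rfl⟩
  have hp : ∀ i, C.simp i → ∀ t, x (C.neg i) t ∈ R := fun i hi t => by
    rw [hR]
    exact ⟨_, pM_mem E ⟨i, hi⟩ t, rfl⟩
  have h1 : ∀ j, ∀ t, x j t ∈ R := by
    refine C.gen (fun j => ∀ t, x j t ∈ R) hm ?_
    intro i j hi hj t
    obtain ⟨c, hcc, hc⟩ := h.refl i j
    have h2 := (hc 1 (c * t) one_ne_zero).1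
    rw [_root_.one_zpow, mul_one, ← mul_assoc, hcc, one_mul] at h2
    rw [← h2]
    have h3 : Vale.Agent.P240.R2.H986.X.nn C.neg x i 1 ∈ R := mul_mem (mul_mem (hm i hi _) (hp i hi _)) (hm i hi _)
    exact mul_mem (mul_mem h3 (hj _)) (inv_mem h3)
  have h2 : l ∈ R := by
    have h3 : Vale.Agent.P240.R2.H986.X.gr x (fun _ => True) ≤ R := by
      rw [Vale.Agent.P240.R2.H986.X.gr, closure_le]
      rintro _ ⟨i, t, -, rfl⟩
      exact h1 i t
    rw [h.gen] at h3
    exact h3 (mem_top l)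
  rw [hR] at h2
  obtain ⟨⟨g, l'⟩, hg, hl⟩ := h2
  have hl' : l' = l := hl
  exact ⟨g, by rw [← hl']; exact hg⟩

/-- the first projection is injective -/
lemma fst_inj [IsSimpleGroup L] {l : L} (hl : ((1 : GL I F), l) ∈ MM C x E) : l = 1 := by
  have hN : ((MM C x E).comap (MonoidHom.inr (GL I F) L)).Normal := by
    constructor
    intro n hn g
    obtain ⟨g', hg'⟩ := exists_fst h E g
    have h1 := mul_mem (mul_mem hg' (show ((1 : GL I F), n) ∈ MM C x E from hn)) (inv_mem hg')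
    have e1 : (g', g) * ((1 : GL I F), n) * (g', g)⁻¹ = ((1 : GL I F), g * n * g⁻¹) := by
      rw [Prod.inv_mk, Prod.mk_mul_mk, Prod.mk_mul_mk, mul_one, mul_inv_cancel]
    rw [e1] at h1
    exact h1
  rcases hN.eq_bot_or_eq_top with h1 | h1
  · have h2 : l ∈ (MM C x E).comap (MonoidHom.inr (GL I F) L) := hl
    rwa [h1, mem_bot] at h2
  · exfalso
    have h2 : ∀ l : L, ((1 : GL I F), l) ∈ MM C x E := fun l => by
      have h3 : l ∈ (MM C x E).comap (MonoidHom.inr (GL I F) L) := by rw [h1]; exact mem_top l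
      exact h3
    -- the elements of the first factor commute
    have h3 : ∀ y ∈ MM C x E, ∀ y' ∈ MM C x E, y.1 * y'.1 = y'.1 * y.1 := by
      intro y hy y' hy'
      refine ker_cen hS h E hE y.1 ?_ hy'
      have h4 := mul_mem hy (h2 y.2⁻¹)
      have e1 : y * ((1 : GL I F), y.2⁻¹) = (y.1, 1) := by
        apply Prod.ext
        · exact mul_one _
        · exact mul_inv_cancel _
      rwa [e1] at h4
    obtain ⟨i, hi⟩ := E.surjective 0
    have ct := (ct_G27 (F := F)).r1 0 1 1 one_ne_zero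
    have h4 : ∀ t u : F, (xp 0 t : GL I F) * xp 0 u = xp 0 u * xp 0 t := fun t u => by
      have := h3 _ (mM_mem (x := x) E i t) _ (mM_mem E i u)
      simp only [mM, hi] at this
      exact this
    have h5 : ∀ t u : F, (xp 0 t : GL I F) * xm 0 u = xm 0 u * xp 0 t := fun t u => by
      have := h3 _ (mM_mem (x := x) E i t) _ (pM_mem E i u)
      simp only [mM, pM, hi] at this
      exact this
    have h6 : nt (fun i (t : F) => (xp i t : GL I F)) (fun i t => xm i t) 0 1 * xp 0 1 =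
        xp 0 1 * nt (fun i (t : F) => (xp i t : GL I F)) (fun i t => xm i t) 0 1 := by
      have h7 := h5 1 (-1⁻¹)
      obtain ⟨a, ha⟩ : ∃ a : GL I F, a = xp 0 1 := ⟨_, rfl⟩
      obtain ⟨b, hb⟩ : ∃ b : GL I F, b = xm 0 (-1⁻¹) := ⟨_, rfl⟩
      rw [nt, ← ha, ← hb]
      rw [← ha, ← hb] at h7
      calc a * b * a * a = a * (b * a) * a := by group
        _ = a * (a * b * a) := by rw [← h7]; group
    rw [h6, mul_inv_cancel_right] at ct
    have h7 := congrArg Units.val ct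
    rw [xp_val, xm_val, one_smul, add_right_inj] at h7
    rw [inv_one, one_mul, one_mul, neg_one_smul] at h7
    exact NF_ne h7.symm

end

section
variable {F : Type} [Field F] {L : Type u} [Group L]

lemma E6_symm (i j : Fin 6) : E₆ i j = E₆ j i := by
  have h : ∀ i j : Fin 6, e6 i j = e6 j i := by decide
  exact h i j

/-- **the module of the groups of type `E₆`** -/
theorem isE6Mod (h : IsChevA E₆ F L) (hs : IsSimpleGroup L) (hab : ∃ x y : L, x * y ≠ y * x) :
    IsE6Mod F L := by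
  classical
  obtain ⟨ι, hι, P, _, _, b, e, x, hb, he, hx⟩ := h
  have h0 : ∀ i, e i ∈ b.support := fun i => by
    rw [hb, Finset.mem_map]
    exact ⟨i, Finset.mem_univ i, rfl⟩
  have h0' : ∀ i, i ∈ b.support → ∃ l, e l = i := fun i hi => by
    rw [hb, Finset.mem_map] at hi
    obtain ⟨l, -, hl⟩ := hi
    exact ⟨l, hl⟩
  let f : Fin 6 → b.support := fun i => ⟨e i, h0 i⟩
  have hf : Function.Bijective f := by
    constructor
    · intro i j hij
      exact e.injective (congrArg Subtype.val hij)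
    · rintro ⟨k, hk⟩
      obtain ⟨i, hi⟩ := h0' k hk
      exact ⟨i, Subtype.ext hi⟩
  let e' : b.support ≃ Fin 6 := (Equiv.ofBijective f hf).symm
  have hee : ∀ i : b.support, e (e' i) = i.1 := fun i =>
    congrArg Subtype.val (e'.symm_apply_apply i)
  have he' : ∀ i j, b.cartanMatrix i j = E₆ (e' i) (e' j) := by
    intro i j
    obtain ⟨i, rfl⟩ := e'.symm.surjective i
    obtain ⟨j, rfl⟩ := e'.symm.surjective j
    rw [e'.apply_symm_apply, e'.apply_symm_apply, ← he]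
    rfl
  have hB : Conn b.cartanMatrix := E6_conn.transport e' he'
  obtain ⟨C, hht, hneg, hsr, hsimp, hpr, hc⟩ := Vale.Agent.P240.R2.H281X1.stmtX1 ι _ _ P b
    (nonempty_of_chevRel hx.chevRel hab) (by
      intro p ⟨i, hi, hpi⟩ hst j hj
      exact hB (fun k => p k.1) ⟨⟨i, hi⟩, hpi⟩
        (fun i j hi hij => hst i.1 j.1 i.2 j.2 hi hij) ⟨j, hj⟩)
  have hCS : CS C x := cs_of_chevRel hx.chevRel hht hneg hsr hpr hc
  have hS : SL C := sl_of_symm (by
    intro i hi j hj
    obtain ⟨k, rfl⟩ := h0' i hi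
    obtain ⟨l, rfl⟩ := h0' j hj
    rw [he, he, E6_symm]) hht hneg hsr hsimp hpr hc
  let E : {i // C.simp i} ≃ Fin 6 := (Equiv.subtypeEquivRight hsimp).trans e'
  have hE : ∀ i j : {i // C.simp i}, C.pr i.1 j.1 = E₆ (E i) (E j) := fun i j => by
    rw [hpr]
    exact he' ⟨i.1, (hsimp i.1).1 i.2⟩ ⟨j.1, (hsimp j.1).1 j.2⟩
  have heE : ∀ i : {i // C.simp i}, e (E i) = i.1 := fun i => hee ⟨i.1, (hsimp i.1).1 i.2⟩
  -- the first projection
  let ψ : MM C x E →* GL I F := (MonoidHom.fst (GL I F) L).comp (MM C x E).subtype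
  have hψG : ∀ y, ψ y ∈ G27 F := by
    have h1 : MM C x E ≤ (G27 F).comap (MonoidHom.fst (GL I F) L) := by
      rw [MM, closure_le]
      rintro _ (⟨i, t, rfl⟩ | ⟨i, t, rfl⟩)
      · exact xp_mem _ _
      · exact xm_mem _ _
    exact fun y => h1 y.2
  let ψ' : MM C x E →* G27 F := ψ.codRestrict (G27 F) hψG
  have hval : ∀ y, (ψ' y).1 = y.1.1 := fun _ => rfl
  have hxp : ∀ (i : Fin 6) (t : F), ∃ y : MM C x E, (ψ' y).1 = xp i t ∧ y.1.2 = x (e i) t := by
    intro i t
    obtain ⟨i, rfl⟩ := E.surjective i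
    exact ⟨⟨_, mM_mem E i t⟩, rfl, by rw [heE]; rfl⟩
  have hxm : ∀ (i : Fin 6) (t : F), ∃ y : MM C x E, (ψ' y).1 = xm i t ∧
      y.1.2 = x (P.reflectionPerm (e i) (e i)) t := by
    intro i t
    obtain ⟨i, rfl⟩ := E.surjective i
    exact ⟨⟨_, pM_mem E i t⟩, rfl, by rw [heE, ← hneg]; rfl⟩
  have hinj : Function.Injective ψ' := by
    rw [injective_iff_map_eq_one]
    rintro ⟨⟨g, l⟩, hgl⟩ h1
    have h2 : g = 1 := congrArg Subtype.val h1
    subst h2
    have h3 := fst_inj hS hCS E hE hgl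
    subst h3
    rfl
  have hsurj : Function.Surjective ψ' := by
    have h1 : G27 F ≤ ψ.range := by
      rw [G27, closure_le]
      rintro g ⟨i, t, hg | hg⟩
      · obtain ⟨y, hy, -⟩ := hxp i t
        refine ⟨y, ?_⟩
        apply Units.ext
        rw [hg, ← xp_val, ← hy]
        rfl
      · obtain ⟨y, hy, -⟩ := hxm i t
        refine ⟨y, ?_⟩
        apply Units.ext
        rw [hg, ← xm_val, ← hy]
        rfl
    rintro ⟨g, hg⟩
    obtain ⟨y, hy⟩ := h1 hg
    exact ⟨y, Subtype.ext hy⟩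
  let Ψ : MM C x E ≃* G27 F := MulEquiv.ofBijective ψ' ⟨hinj, hsurj⟩
  have hΨ : ∀ y, Ψ.symm (ψ' y) = y := fun y => Ψ.symm_apply_apply y
  refine ⟨ι, hι, P, inferInstance, inferInstance, b, e, x, hb, he, hx,
    ((MonoidHom.snd (GL I F) L).comp (MM C x E).subtype).comp Ψ.symm.toMonoidHom, ?_, ?_⟩
  · intro g hg
    obtain ⟨y, rfl⟩ := hsurj g
    have h1 : (Ψ.symm (ψ' y)).1.2 = 1 := hg
    rw [hΨ] at h1
    have h2 : (y.1.1, (1 : L)) ∈ MM C x E := by
      rw [← h1]
      exact y.2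
    have h3 := fun z hz => ker_cen hS hCS E hE y.1.1 h2 (y := z) hz
    have h4 : ∀ (i : Fin 6) (N : Matrix I I F) (u : GL I F), u.1 = 1 + (1 : F) • N →
        y.1.1 * u = u * y.1.1 → y.1.1.1 * N = N * y.1.1.1 := by
      intro i N u hu hyu
      have h5 := congrArg Units.val hyu
      rw [Units.val_mul, Units.val_mul, hu, one_smul, mul_add, add_mul, mul_one, one_mul,
        add_right_inj] at h5
      exact h5
    obtain ⟨c, hc⟩ := scal_of_comm (g := y.1.1.1) (fun i => by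
      obtain ⟨z, hz, -⟩ := hxp i 1
      refine h4 i _ (xp i 1) (xp_val i 1) ?_
      rw [← hz]
      exact h3 _ z.2) (fun i => by
      obtain ⟨z, hz, -⟩ := hxm i 1
      refine h4 i _ (xm i 1) (xm_val i 1) ?_
      rw [← hz]
      exact h3 _ z.2)
    exact ⟨c, hc⟩
  · intro i t g
    constructor
    · intro hg
      obtain ⟨y, hy, hy2⟩ := hxp i t
      have h1 : g = ψ' y := by
        apply Subtype.ext
        rw [hy]
        exact Units.ext hg
      rw [h1]
      change (Ψ.symm (ψ' y)).1.2 = _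
      rw [hΨ, hy2]
    · intro hg
      obtain ⟨y, hy, hy2⟩ := hxm i t
      have h1 : g = ψ' y := by
        apply Subtype.ext
        rw [hy]
        exact Units.ext hg
      rw [h1]
      change (Ψ.symm (ψ' y)).1.2 = _
      rw [hΨ, hy2]

end

end Vale.Agent.P240.R2.N402
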