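import Vale.Agent.P240.R2.N402.SkA

/-!
`2E6(q)`, `q` odd: the signs of an involution of `T` on the root subgroups.
-/

set_option autoImplicit false

namespace Vale.Agent.P240.R2.N402

open Subgroup Vale.Agent.P240.K Vale.Agent.P240.H195 CartanMatrix
open Vale.Agent.P240.R2.H165.XC Vale.Agent.P240.R2.H945 Vale.Agent.P240.R2.H945.W
open Vale.Agent.P240.R2.H986.X (RC nn nl wl SS wl_nil wl_cons wl_append wl_neg nl_nil nl_cons)

universe u

section
variable {ι : Type*} {F : Type*} [Field F] {L : Type*} [Group L] {C : RC ι} {K : ι → Subfield F}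
  {x : ι → F → L}

/-- `T` acts on the root elements by scalars, opposite root elements by inverse scalars -/
lemma T_act2 (h : TS C K x) {g : L} (hg : g ∈ TT C K x) (j : ι) : ∃ c : F, c ∈ K j ∧ c ≠ 0 ∧
    ∀ u, u ∈ K j → g * x j u * g⁻¹ = x j (c * u) ∧
      g * x (C.neg j) u * g⁻¹ = x (C.neg j) (c⁻¹ * u) := by
  refine closure_induction (p := fun g _ => ∃ c : F, c ∈ K j ∧ c ≠ 0 ∧
    ∀ u, u ∈ K j → g * x j u * g⁻¹ = x j (c * u) ∧
      g * x (C.neg j) u * g⁻¹ = x (C.neg j) (c⁻¹ * u)) ?_ ?_ ?_ ?_ hg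
  · rintro _ ⟨i, t, ht, ht0, rfl⟩
    obtain ⟨τ, hτ, h1⟩ := h.refl i (C.s i j)
    obtain ⟨c, hc, hc0, h2⟩ := h1 1 (one_mem _) one_ne_zero
    obtain ⟨d, hd, hd0, h3⟩ := h1 t ht ht0
    rw [h.K_s] at hτ hc hd h2 h3
    rw [C.s_s] at h2 h3
    refine ⟨d * c⁻¹, mul_mem hd (inv_mem hc), mul_ne_zero hd0 (inv_ne_zero hc0), fun u hu => ?_⟩
    constructor
    · have hv : τ.symm (c⁻¹ * u) ∈ K j := by
        rw [← hτ, τ.apply_symm_apply]
        exact mul_mem (inv_mem hc) hu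
      have h4 := (h2 _ hv).1
      have h5 := (h3 _ hv).1
      rw [τ.apply_symm_apply, mul_inv_cancel_left₀ hc0] at h4
      rw [τ.apply_symm_apply, ← mul_assoc] at h5
      rw [← h5, ← h4]
      group
    · have hv : τ.symm (c * u) ∈ K j := by
        rw [← hτ, τ.apply_symm_apply]
        exact mul_mem hc hu
      have h4 := (h2 _ hv).2
      have h5 := (h3 _ hv).2
      rw [τ.apply_symm_apply, inv_mul_cancel_left₀ hc0] at h4
      rw [τ.apply_symm_apply, ← mul_assoc] at h5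
      rw [mul_inv, inv_inv, ← h5, ← h4]
      group
  · exact ⟨1, one_mem _, one_ne_zero, fun u _ => by simp⟩
  · rintro a b _ _ ⟨c, hcK, hc, h1⟩ ⟨d, hdK, hd, h2⟩
    refine ⟨c * d, mul_mem hcK hdK, mul_ne_zero hc hd, fun u hu => ⟨?_, ?_⟩⟩
    · calc a * b * x j u * (a * b)⁻¹ = a * (b * x j u * b⁻¹) * a⁻¹ := by group
        _ = _ := by rw [(h2 u hu).1, (h1 _ (mul_mem hdK hu)).1, mul_assoc]
    · calc a * b * x (C.neg j) u * (a * b)⁻¹ = a * (b * x (C.neg j) u * b⁻¹) * a⁻¹ := by group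
        _ = _ := by
          rw [(h2 u hu).2, (h1 _ (mul_mem (inv_mem hdK) hu)).2, mul_inv, mul_assoc]
  · rintro a _ ⟨c, hcK, hc, h1⟩
    refine ⟨c⁻¹, inv_mem hcK, inv_ne_zero hc, fun u hu => ⟨?_, ?_⟩⟩
    · have h2 := (h1 (c⁻¹ * u) (mul_mem (inv_mem hcK) hu)).1
      rw [mul_inv_cancel_left₀ hc] at h2
      rw [← h2]
      group
    · have h2 := (h1 (c * u) (mul_mem hcK hu)).2
      rw [inv_mul_cancel_left₀ hc] at h2
      rw [inv_inv, ← h2]
      group

/-- an element of `T` conjugates `n_i(1)` to `n_i(c)` -/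
lemma T_conj_nn (h : TS C K x) {g : L} (hg : g ∈ TT C K x) (j : ι) {c : F} (hc : c ∈ K j)
    (hact : ∀ u, u ∈ K j → g * x j u * g⁻¹ = x j (c * u)) :
    g * nn C.neg x j 1 * g⁻¹ = nn C.neg x j c := by
  obtain ⟨d, hd, hd0, h1⟩ := T_act2 h hg j
  have h2 : c = d := by
    have h3 := hact 1 (one_mem _)
    rw [(h1 1 (one_mem _)).1] at h3
    have h4 := h.x_inj (mul_mem hd (one_mem _)) (mul_mem hc (one_mem _)) h3
    rw [mul_one, mul_one] at h4
    exact h4.symm
  subst h2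
  have e1 : g * nn C.neg x j 1 * g⁻¹ = (g * x j 1 * g⁻¹) * (g * x (C.neg j) (-1⁻¹) * g⁻¹) *
      (g * x j 1 * g⁻¹) := by
    rw [show nn C.neg x j 1 = x j 1 * x (C.neg j) (-1⁻¹) * x j 1 from rfl]; group
  rw [e1, (h1 1 (one_mem _)).1, (h1 (-1⁻¹) (neg_mem (inv_mem (one_mem _)))).2]
  rw [show nn C.neg x j c = x j c * x (C.neg j) (-c⁻¹) * x j c from rfl]
  congr 2
  · rw [mul_one]
  · congr 1
    rw [inv_one]
    ring
  · rw [mul_one]

end

section
variable {ι : Type} [Finite ι] {F : Type} [Field F] [Finite F] {L : Type u} [Group L]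
  {C : RC ι} {e : Fin 4 → ι} {K₀ : Subfield F} {K : ι → Subfield F} {x : ι → F → L}
  {co : ι → Fin 4 → ℤ} {r : ℕ} [Fact r.Prime] [CharP F r]

lemma zpow_even {F : Type*} [Field F] {n : ℤ} (hn : Even n) : (-1 : F) ^ n = 1 := hn.neg_one_zpow

lemma neg_one_zpow_eq {F : Type*} [Field F] (n : ℤ) : (-1 : F) ^ n = 1 ∨ (-1 : F) ^ n = -1 := by
  rcases Int.even_or_odd n with hn | hn
  · left; exact hn.neg_one_zpow
  · right; exact hn.neg_one_zpow

/-- the norm exponent is even -/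
lemma norm_even {F : Type*} [Field F] [Finite F] {K₀ : Subfield F} {r : ℕ} [Fact r.Prime] [CharP F r]
    (hr : r ≠ 2) (hcard : Nat.card F = Nat.card K₀ ^ 2) :
    Even ((Nat.card F - 1) / (Nat.card K₀ - 1)) := by
  have : Fintype K₀ := Fintype.ofFinite K₀
  have h2 : 2 ≤ Nat.card K₀ := Finite.one_lt_card
  have hodd : Odd (Nat.card K₀) := by
    rw [Nat.card_eq_fintype_card, Nat.odd_iff]
    apply FiniteField.odd_card_of_char_ne_two
    intro hc
    apply hr
    have h3 : CharP K₀ 2 := by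
      have h3 := ringChar.charP K₀
      rwa [hc] at h3
    have h4 : ((2 : ℕ) : K₀) = 0 := CharP.cast_eq_zero K₀ 2
    have h5 : ((2 : ℕ) : F) = 0 := by
      have := congrArg (algebraMap K₀ F) h4
      rwa [map_natCast, map_zero] at this
    exact ((Nat.prime_dvd_prime_iff_eq Fact.out Nat.prime_two).1
      ((CharP.cast_eq_zero_iff F r 2).1 h5))
  rw [hcard]
  have e1 : Nat.card K₀ ^ 2 - 1 = (Nat.card K₀ + 1) * (Nat.card K₀ - 1) := by
    obtain ⟨k, hk⟩ := Nat.exists_eq_add_of_le h2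
    rw [hk]
    have : 2 + k - 1 = k + 1 := by omega
    rw [this]
    have : (2 + k) ^ 2 - 1 = (2 + k + 1) * (k + 1) := by
      have h3 : (2 + k) ^ 2 = (2 + k + 1) * (k + 1) + 1 := by ring
      omega
    exact this
  rw [e1, Nat.mul_div_cancel _ (by omega)]
  exact hodd.add_one

omit [Finite ι] in
/-- the action of `h_i(-1)` on the simple root subgroups -/
lemma h_neg_one (h : TD F₄ 2 C e K₀ K x) (hr : r ≠ 2) (i k : Fin 4) (u : F) (hu : u ∈ K (e k)) :
    hh C x (e i) (-1) * x (e k) u * (hh C x (e i) (-1))⁻¹ = x (e k) ((-1) ^ (F₄ k i) * u) := by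
  by_cases hik : i = k
  · subst hik
    have h1 := h.ts.h_self (e i) (t := -1) (neg_mem (one_mem _)) (by simp) hu
    rw [hh, h1]
    congr 2
    have : (F₄ i i : ℤ) = 2 := by fin_cases i <;> rfl
    rw [this]
    norm_num
  · rw [h.h_rel i k hik (-1) u (neg_mem (one_mem _)) (by simp) hu]
    congr 2
    split_ifs with h1
    · rw [(norm_even hr h.card).neg_one_pow, inv_one, h1]
      norm_num
    · rfl

/-- **the signs**: an element of `T` that acts by signs on the simple root subgroups acts by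
signs on all root subgroups -/
theorem signs (h : TD F₄ 2 C e K₀ K x) (hf : FC F₄ C e co) (hr : r ≠ 2) (j : ι) :
    ∀ t ∈ TT C K x, ∀ a : Fin 4 → ℤ,
      (∀ k, ∀ u ∈ K (e k), t * x (e k) u * t⁻¹ = x (e k) ((-1) ^ (a k) * u)) →
      ∀ u ∈ K j, t * x j u * t⁻¹ = x j ((-1) ^ (∑ k, a k * co j k) * u) := by
  have hts := h.ts
  refine C.gen (fun j => ∀ t ∈ TT C K x, ∀ a : Fin 4 → ℤ,
      (∀ k, ∀ u ∈ K (e k), t * x (e k) u * t⁻¹ = x (e k) ((-1) ^ (a k) * u)) →
      ∀ u ∈ K j, t * x j u * t⁻¹ = x j ((-1) ^ (∑ k, a k * co j k) * u)) ?_ ?_ j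
  · intro i hi t ht a ha u hu
    obtain ⟨k, rfl⟩ := (h.simp i).1 hi
    rw [ha k u hu, hf.simp k]
    congr 3
    simp [Pi.single_apply]
  · intro i j hi ih t ht a ha u hu
    obtain ⟨k, rfl⟩ := (h.simp i).1 hi
    rw [hts.K_s] at hu
    obtain ⟨τ, hτ, h1⟩ := hts.refl (e k) j
    obtain ⟨c, hc, hc0, h2⟩ := h1 1 (one_mem _) one_ne_zero
    have hsg : ∀ (F' : Type) [Field F'] (n : ℤ), (-1 : F') ^ n = 1 ∨ (-1 : F') ^ n = -1 :=
      fun F' _ n => neg_one_zpow_eq n
    have hs1 : ∀ n : ℤ, ∀ M : Subfield F, (-1 : F) ^ n ∈ M := by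
      intro n M
      rcases neg_one_zpow_eq (F := F) n with h3 | h3
      · rw [h3]; exact one_mem _
      · rw [h3]; exact neg_mem (one_mem _)
    have hτs : ∀ n : ℤ, τ ((-1 : F) ^ n) = (-1) ^ n := by
      intro n
      rw [map_zpow₀, map_neg, map_one]
    obtain ⟨v, hv, hv'⟩ : ∃ v, v ∈ K j ∧ u = c * τ v := by
      refine ⟨τ.symm (c⁻¹ * u), ?_, ?_⟩
      · rw [← hτ, τ.apply_symm_apply]
        exact mul_mem (inv_mem hc) hu
      · rw [τ.apply_symm_apply, mul_inv_cancel_left₀ hc0]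
    have h3 : ∀ n : ℤ, nn C.neg x (e k) 1 * x j ((-1) ^ n * v) * (nn C.neg x (e k) 1)⁻¹ =
        x (C.s (e k) j) ((-1) ^ n * u) := by
      intro n
      rw [(h2 _ (mul_mem (hs1 n _) hv)).1, map_mul, hτs, hv']
      congr 1
      ring
    have h30 := h3 0
    rw [zpow_zero, one_mul, one_mul] at h30
    -- the conjugate of `n`
    have h4 := T_conj_nn hts ht (e k) (hs1 (a k) _) (ha k)
    set n := nn C.neg x (e k) 1 with hn
    have h5 : t * x (C.s (e k) j) u * t⁻¹ = (t * n * t⁻¹) * (t * x j v * t⁻¹) * (t * n * t⁻¹)⁻¹ := by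
      rw [← h30]; group
    rw [h5, ih t ht a ha v hv, h4]
    have hco : ∑ l, a l * co (C.s (e k) j) l = (∑ l, a l * co j l) - C.pr j (e k) * a k := by
      rw [hf.s]
      simp only [Pi.sub_apply, Pi.smul_apply, smul_eq_mul, mul_sub, Finset.sum_sub_distrib]
      congr 1
      rw [Finset.sum_eq_single k]
      · rw [Pi.single_eq_same]; ring
      · intro l _ hl
        rw [Pi.single_eq_of_ne hl]; ring
      · intro hk; exact absurd (Finset.mem_univ k) hk
    rw [hco]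
    rcases Int.even_or_odd (a k) with hak | hak
    · rw [hak.neg_one_zpow, h3]
      congr 2
      rw [zpow_sub₀ (by simp), (hak.mul_left _).neg_one_zpow, div_one]
    · rw [hak.neg_one_zpow]
      -- `n(-1) = n h`
      have hneg : nn C.neg x (e k) (-1) = hh C x (e k) (-1) * n := by
        rw [hh, ← hn]; group
      have hT : hh C x (e k) (-1) ∈ TT C K x := hts.h_mem (neg_mem (one_mem _)) (by simp)
      rw [hneg]
      have h6 : hh C x (e k) (-1) * n * x j ((-1) ^ (∑ l, a l * co j l) * v) *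
          (hh C x (e k) (-1) * n)⁻¹ = hh C x (e k) (-1) *
          (n * x j ((-1) ^ (∑ l, a l * co j l) * v) * n⁻¹) * (hh C x (e k) (-1))⁻¹ := by group
      have hcomm : hh C x (e k) (-1) = n⁻¹ * n⁻¹ := by
        rw [hh, ← hn, ← hts.nn_inv (e k) (one_mem _)]
      have h7 : hh C x (e k) (-1) * n * x j ((-1) ^ (∑ l, a l * co j l) * v) *
          (hh C x (e k) (-1) * n)⁻¹ = n * (hh C x (e k) (-1) *
          x j ((-1) ^ (∑ l, a l * co j l) * v) * (hh C x (e k) (-1))⁻¹) * n⁻¹ := by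
        rw [hcomm]; group
      rw [h7, ih _ hT (fun l => F₄ l k) (fun l w hw => h_neg_one h hr k l w hw) _
        (mul_mem (hs1 _ _) hv), ← mul_assoc, ← zpow_add₀ (by simp), h3]
      congr 2
      rw [hf.pr]
      obtain ⟨m, hm⟩ := hak
      rw [hm]
      have e9 : (∑ l, a l * co j l) - (∑ l, co j l * F₄ l k) * (2 * m + 1) =
        (∑ l, F₄ l k * co j l + ∑ l, a l * co j l) + 2 * (-(m + 1) * (∑ l, co j l * F₄ l k)) := by
        have : ∑ l, F₄ l k * co j l = ∑ l, co j l * F₄ l k :=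
          Finset.sum_congr rfl fun l _ => mul_comm _ _
        rw [this]
        ring
      rw [e9, zpow_add₀ (by simp) _ (2 * _), zpow_mul]
      norm_num

end

/-- **T2a.1** -/
theorem stmtSign : StmtSign.{u} := by
  intro ι _ F _ _ L _ _ r _ _ C e K₀ K x co h hf hZ hr θ θ' hθ hθ' t ht htt h2 h3 hxθ hxθ'
  have hts := h.ts
  have hne : (-1 : F) ≠ 1 := by
    intro hc
    have h5 : ((2 : ℕ) : F) = 0 := by
      have : (1 : F) + 1 = 0 := by
        nth_rewrite 1 [← hc]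
        ring
      push_cast
      linear_combination this
    exact hr ((Nat.prime_dvd_prime_iff_eq Fact.out Nat.prime_two).1
      ((CharP.cast_eq_zero_iff F r 2).1 h5))
  have hsq : ∀ j, ∃ a : ℤ, ∀ u ∈ K j, t * x j u * t⁻¹ = x j ((-1) ^ a * u) := by
    intro j
    obtain ⟨c, hc, hc0, h1⟩ := hts.T_act ht j
    have h4 : c * c = 1 := by
      have h5 : (t * t) * x j 1 * (t * t)⁻¹ = x j (c * c) := by
        have : (t * t) * x j 1 * (t * t)⁻¹ = t * (t * x j 1 * t⁻¹) * t⁻¹ := by group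
        rw [this, h1 1 (one_mem _), mul_one, h1 c hc]
      rw [htt, one_mul, inv_one, mul_one] at h5
      exact (hts.x_inj (one_mem _) (mul_mem hc hc) h5).symm
    have h6 : (c - 1) * (c + 1) = 0 := by linear_combination h4
    rcases mul_eq_zero.1 h6 with h7 | h7
    · refine ⟨0, fun u hu => ?_⟩
      rw [h1 u hu, sub_eq_zero.1 h7, zpow_zero]
    · refine ⟨1, fun u hu => ?_⟩
      rw [h1 u hu, eq_neg_of_add_eq_zero_left h7, zpow_one]
  obtain ⟨a0, ha0⟩ := hsq (e 0)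
  obtain ⟨a1, ha1⟩ := hsq (e 1)
  have key := fun j => signs h hf hr j t ht ![a0, a1, 0, 0] (by
    intro k
    fin_cases k
    · exact ha0
    · exact ha1
    · intro u hu
      rw [show ((![a0, a1, 0, 0] : Fin 4 → ℤ) ⟨2, by omega⟩) = 0 from rfl, zpow_zero, one_mul]
      exact h2 u hu
    · intro u hu
      rw [show ((![a0, a1, 0, 0] : Fin 4 → ℤ) ⟨3, by omega⟩) = 0 from rfl, zpow_zero, one_mul]
      exact h3 u hu)
  simp only [Fin.sum_univ_four, Matrix.cons_val_zero, Matrix.cons_val_one, Matrix.cons_val] at key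
  simp only [cv, Prod.mk.injEq] at hθ hθ'
  have k1 := key θ 1 (one_mem _)
  have k2 := key θ' 1 (one_mem _)
  rw [hxθ 1 (one_mem _)] at k1
  rw [hxθ' 1 (one_mem _)] at k2
  have hs1 : ∀ n : ℤ, ∀ M : Subfield F, (-1 : F) ^ n ∈ M := by
    intro n M
    rcases neg_one_zpow_eq (F := F) n with h3 | h3
    · rw [h3]; exact one_mem _
    · rw [h3]; exact neg_mem (one_mem _)
  have k1' := hts.x_inj (one_mem _) (mul_mem (hs1 _ _) (one_mem _)) k1
  have k2' := hts.x_inj (one_mem _) (mul_mem (hs1 _ _) (one_mem _)) k2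
  rw [mul_one, hθ.1, hθ.2.1] at k1'
  rw [mul_one, hθ'.1, hθ'.2.1] at k2'
  have hev : ∀ n : ℤ, (1 : F) = (-1) ^ n → Even n := by
    intro n hn
    by_contra hcon
    rw [Int.not_even_iff_odd] at hcon
    rw [hcon.neg_one_zpow] at hn
    exact hne hn.symm
  have e1 := hev _ k1'
  have e2 := hev _ k2'
  have ea1 : Even a1 := by
    obtain ⟨m, hm⟩ := e1
    exact ⟨m - a0 - a1, by omega⟩
  have ea0 : Even a0 := by
    obtain ⟨m, hm⟩ := e2
    obtain ⟨m', hm'⟩ := ea1
    exact ⟨m - 3 * m', by omega⟩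
  apply eq_one_of_act hts hZ
  intro j u hu
  rw [key j u hu]
  have e3 : Even (a0 * co j 0 + a1 * co j 1 + 0 * co j 2 + 0 * co j 3) := by
    rw [zero_mul, zero_mul, add_zero, add_zero]
    exact (ea0.mul_right _).add (ea1.mul_right _)
  rw [e3.neg_one_zpow, one_mul]

end Vale.Agent.P240.R2.N402
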