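import Vale.Agent.P240.R2.H986.W.Rt
import Vale.Agent.P240.H195.BNRad

/-!
Twisted groups: lengths and roots.
-/

set_option autoImplicit false

namespace Vale.Agent.P240.R2.N402

open Subgroup Vale.Agent.P240.K Vale.Agent.P240.H195
open Vale.Agent.P240.R2.H945.W Vale.Agent.P240.R2.H945.W.TS
open Vale.Agent.P240.R2.H986.X (RC nn nl wl nl_nil nl_cons nl_append wl_nil wl_cons wl_append wl_neg wl_s
  wl_rev wl_rev' SS)

universe u

section
variable {ι : Type*} {F : Type*} [Field F] {L : Type u} [Group L] {C : RC ι} {K : ι → Subfield F}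
  {x : ι → F → L}

lemma Ui_conj_n' [Finite F] (h : TS C K x) {i : ι} (hi : C.simp i) {g : L} (hg : g ∈ Ui C K x i) :
    (nn C.neg x i 1)⁻¹ * g * nn C.neg x i 1 ∈ Ui C K x i := by
  have h1 := h.nl_inv_conj_gr (p := fun j => 0 < C.ht j ∧ j ≠ i) (q := fun j => 0 < C.ht j ∧ j ≠ i)
    (l := [i]) (fun j hj => ?_) hg
  · rw [nl_cons, nl_nil, mul_one] at h1
    exact h1
  · rw [List.reverse_singleton, wl_cons, wl_nil]
    refine ⟨C.s_pos i j hi hj.1 hj.2, fun he => ?_⟩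
    have h2 := C.s_s i j
    rw [he, C.s_self] at h2
    have h3 := C.ht_neg i
    have h4 := C.simp_pos i hi
    have h5 := hj.1
    rw [← h2] at h5
    omega

lemma T_conj_n' (h : TS C K x) {i : ι} {g : L} (hg : g ∈ TT C K x) :
    (nn C.neg x i 1)⁻¹ * g * nn C.neg x i 1 ∈ TT C K x := by
  have h1 := h.nl_inv_conj_T [i] hg
  rwa [nl_cons, nl_nil, mul_one] at h1

/-- `w(a_i) > 0` implies `w B s_i ⊆ B w s_i B` -/
lemma rg_pos [Finite F] (h : TS C K x) {l : List ι} {i : ι} (hi : C.simp i)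
    (hp : 0 < C.ht (wl C l i)) : RG (BB C K x) (nl C x l) (nn C.neg x i 1) := by
  intro b hb
  obtain ⟨g, hg, t, ht, rfl⟩ := h.mem_BB hb
  obtain ⟨v, hv, c, hc, rfl⟩ := U_dec h hi hg
  have hv' : (x i c)⁻¹ * v * x i c ∈ Ui C K x i := by
    have h1 := Ui_conj_x h hi (neg_mem hc) hv
    rwa [h.x_neg i hc, inv_inv] at h1
  obtain ⟨φ, hφ, -, h1, -⟩ := h.nl_act l i
  refine ⟨nl C x l * x i c * (nl C x l)⁻¹, ?_,
    ((nn C.neg x i 1)⁻¹ * ((x i c)⁻¹ * v * x i c) * nn C.neg x i 1) *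
      ((nn C.neg x i 1)⁻¹ * t * nn C.neg x i 1), mul_mem ?_ ?_, ?_⟩
  · rw [h1 c hc]
    exact UU_le (x_mem_UU hp (by rw [h.K_wl]; exact hφ c hc))
  · exact UU_le (Ui_le i (Ui_conj_n' h hi hv'))
  · exact TT_le_BB (T_conj_n' h ht)
  · group

lemma nl_N {l : List ι} (hl : ∀ i ∈ l, C.simp i) : nl C x l ∈ NN C K x := TS.nl_mem hl

/-- `w(a_i) < 0` -/
lemma not_rg_neg [Finite F] (h : TS C K x) (hb : BN0 (BB C K x) (NN C K x) (SS C x)) {l : List ι}
    (hl : ∀ i ∈ l, C.simp i) {i : ι} (hi : C.simp i)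
    (hp : C.ht (wl C l i) < 0) : ¬ RG (BB C K x) (nl C x l) (nn C.neg x i 1) := by
  intro hr
  have h1 : RG (BB C K x) (nl C x (l ++ [i])) (nn C.neg x i 1) := by
    apply rg_pos h hi
    rw [wl_append, wl_cons, wl_nil, C.s_self, wl_neg, C.ht_neg]
    omega
  rw [nl_append, nl_cons, nl_nil, mul_one] at h1
  exact hb.not_both (nl_N hl) ⟨i, hi, rfl⟩ hr h1

/-- the cosets of words -/
lemma dc_pos (h : TS C K x) (hb : BN0 (BB C K x) (NN C K x) (SS C x)) {l l' : List ι}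
    (hl : ∀ i ∈ l, C.simp i) (hl' : ∀ i ∈ l', C.simp i)
    (hd : DC (BB C K x) (nl C x l) (nl C x l')) {j : ι} (hp : 0 < C.ht (wl C l j)) :
    0 < C.ht (wl C l' j) := by
  by_contra hcon
  have h0 := C.ht_ne (wl C l' j)
  have h1 := hb.inj (nl_N hl) (nl_N hl') hd
  have hT : (nl C x l)⁻¹ * nl C x l' ∈ TT C K x :=
    inf_mem h h1 (mul_mem (inv_mem (nl_N hl)) (nl_N hl'))
  obtain ⟨c, hcK, hc, h2⟩ := h.T_act hT j
  obtain ⟨φ, hφ, hφ0, h3, -⟩ := h.nl_act l j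
  obtain ⟨φ', hφ', hφ0', h3', -⟩ := h.nl_act l' j
  have h4 := h3' 1 (one_mem _)
  have e1 : nl C x l' * x j 1 * (nl C x l')⁻¹ =
      nl C x l * (((nl C x l)⁻¹ * nl C x l') * x j 1 * ((nl C x l)⁻¹ * nl C x l')⁻¹) *
        (nl C x l)⁻¹ := by group
  rw [e1, h2 1 (one_mem _), h3 _ (mul_mem hcK (one_mem _))] at h4
  have h5 : x (wl C l' j) (φ' 1) ∈ UU C K x := by
    rw [← h4]
    exact x_mem_UU hp (by rw [h.K_wl]; exact hφ _ (mul_mem hcK (one_mem _)))
  exact hφ0' 1 (one_mem _) one_ne_zero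
    (h.x_not_mem (by omega) (by rw [h.K_wl]; exact hφ' 1 (one_mem _)) h5)

end

section
variable {ι : Type*} {F : Type*} [Field F] {L : Type u} [Group L] {C : RC ι} {K : ι → Subfield F}
  {x : ι → F → L}

/-- `U ∩ nUn⁻¹` -/
def Uw (C : RC ι) (K : ι → Subfield F) (x : ι → F → L) (l : List ι) : Subgroup L :=
  UU C K x ⊓ cj (nl C x l) (UU C K x)

lemma mem_Uw {l : List ι} {g : L} : g ∈ Uw C K x l ↔ g ∈ UU C K x ∧
    (nl C x l)⁻¹ * g * nl C x l ∈ UU C K x := by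
  rw [Uw, mem_inf, mem_cj]

/-- the root elements in `U ∩ nUn⁻¹` -/
lemma x_Uw [Finite F] (h : TS C K x) {l : List ι} {j : ι} (hj : 0 < C.ht j)
    (hj' : 0 < C.ht (wl C l.reverse j)) {t : F} (ht : t ∈ K j) : x j t ∈ Uw C K x l := by
  rw [mem_Uw]
  refine ⟨x_mem_UU hj ht, ?_⟩
  obtain ⟨u, hu, h2⟩ := h.nl_onto l (wl C l.reverse j) (w := t) (by rw [h.K_wl]; exact ht)
  rw [wl_rev'] at h2
  have e1 : (nl C x l)⁻¹ * x j t * nl C x l = x (wl C l.reverse j) u := by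
    rw [← h2]; group
  rw [e1]
  exact x_mem_UU hj' hu

/-- the intersections get smaller -/
lemma Uw_le [Finite F] [Finite L] (h : TS C K x) {r : ℕ} (hr : r.Prime)
    (hb : SB r (BB C K x) (NN C K x) (UU C K x) (SS C x)) {l : List ι} (hl : ∀ i ∈ l, C.simp i)
    {i : ι} (hi : C.simp i) (hp : 0 < C.ht (wl C l i)) : Uw C K x (l ++ [i]) ≤ Uw C K x l := by
  have hrg := rg_pos h hi hp
  have hm : nl C x l ∈ NN C K x := nl_N hl
  have hs : nn C.neg x i 1 ∈ SS C x := ⟨i, hi, rfl⟩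
  intro y hy
  rw [mem_Uw, nl_append, nl_cons, nl_nil, mul_one] at hy
  rw [mem_Uw]
  refine ⟨hy.1, ?_⟩
  obtain ⟨z, hz⟩ : ∃ z, z = (nl C x l)⁻¹ * y * nl C x l := ⟨_, rfl⟩
  rw [← hz]
  have hzP : z ∈ Par (BB C K x) (nn C.neg x i 1) := by
    have : z = nn C.neg x i 1 * ((nl C x l * nn C.neg x i 1)⁻¹ * y * (nl C x l * nn C.neg x i 1)) *
        (nn C.neg x i 1)⁻¹ := by rw [hz]; group
    rw [this]
    exact mul_mem (mul_mem self_mem_Par (le_Par (hb.le hy.2))) (inv_mem self_mem_Par)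
  have hzB : z ∈ BB C K x := by
    by_contra hcon
    obtain ⟨u', hu', b', hb', he⟩ := hb.coset_form hs hzP hcon
    have h1 : DC (BB C K x) (nl C x l * nn C.neg x i 1) (nl C x l * z) := by
      rw [he]
      have e5 : nl C x l * (u' * nn C.neg x i 1 * b') = nl C x l * u' * nn C.neg x i 1 * b' := by
        group
      rw [e5]
      exact (hrg u' (hb.le hu')).right hb'
    have h2 : DC (BB C K x) (nl C x l) (nl C x l * z) :=
      ⟨y, hb.le hy.1, 1, one_mem _, by rw [hz]; group⟩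
    have h4 := hb.inj hm (mul_mem hm (hb.sub _ hs)) (h2.trans h1.symm)
    rw [inv_mul_cancel_left] at h4
    exact hb.not_mem hs h4
  rw [hz] at hzB ⊢
  exact hb.conj_U' hr hy.1 hzB

/-- the index -/
theorem card_Uw [Finite F] [Finite L] (h : TS C K x) {r : ℕ} (hr : r.Prime)
    (hb : SB r (BB C K x) (NN C K x) (UU C K x) (SS C x)) {l : List ι} (hl : ∀ i ∈ l, C.simp i)
    {i : ι} (hi : C.simp i) (hp : 0 < C.ht (wl C l i)) :
    Nat.card (Uw C K x l) = Nat.card (Uw C K x (l ++ [i])) * Nat.card (K i) := by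
  have e0 : nl C x (l ++ [i]) = nl C x l * nn C.neg x i 1 := by
    rw [nl_append, nl_cons, nl_nil, mul_one]
  obtain ⟨φ, hφ, -, h1, -⟩ := h.nl_act l i
  have hX : ∀ c, c ∈ K i → nl C x l * x i c * (nl C x l)⁻¹ ∈ Uw C K x l := by
    intro c hc
    rw [mem_Uw]
    refine ⟨?_, ?_⟩
    · rw [h1 c hc]
      exact x_mem_UU hp (by rw [h.K_wl]; exact hφ c hc)
    · have e : (nl C x l)⁻¹ * (nl C x l * x i c * (nl C x l)⁻¹) * nl C x l = x i c := by group
      rw [e]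
      exact x_mem_UU (C.simp_pos i hi) hc
  have hle := Uw_le h hr hb hl hi hp
  let f : Uw C K x (l ++ [i]) × K i → Uw C K x l := fun y =>
    ⟨y.1.1 * (nl C x l * x i y.2.1 * (nl C x l)⁻¹), mul_mem (hle y.1.2) (hX _ y.2.2)⟩
  have hf : Function.Bijective f := by
    constructor
    · rintro ⟨⟨y, hy⟩, ⟨c, hc⟩⟩ ⟨⟨y', hy'⟩, ⟨c', hc'⟩⟩ he
      have he' : y * (nl C x l * x i c * (nl C x l)⁻¹) = y' * (nl C x l * x i c' * (nl C x l)⁻¹) :=
        congrArg Subtype.val he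
      have h2 : y'⁻¹ * y = nl C x l * x i (c' - c) * (nl C x l)⁻¹ := by
        rw [sub_eq_add_neg, h.add i c' (-c) hc' (neg_mem hc), h.x_neg i hc]
        have : y'⁻¹ * y = y'⁻¹ * (y * (nl C x l * x i c * (nl C x l)⁻¹)) *
          (nl C x l * x i c * (nl C x l)⁻¹)⁻¹ := by group
        rw [this, he']
        group
      have h3 : y'⁻¹ * y ∈ Uw C K x (l ++ [i]) := mul_mem (inv_mem hy') hy
      rw [mem_Uw, e0, h2] at h3
      have h4 := h3.2
      have e1 : (nl C x l * nn C.neg x i 1)⁻¹ * (nl C x l * x i (c' - c) * (nl C x l)⁻¹) *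
          (nl C x l * nn C.neg x i 1) = (nn C.neg x i 1)⁻¹ * x i (c' - c) * nn C.neg x i 1 := by
        group
      obtain ⟨ψ, hψ, hψ0, h5⟩ := n_inv_act h i i
      rw [e1, h5 _ (sub_mem hc' hc), C.s_self] at h4
      have h6 : c' - c = 0 := by
        by_contra hcon
        exact hψ0 _ (sub_mem hc' hc) hcon
          (h.x_not_mem (simp_neg_lt hi) (by rw [h.K_neg]; exact hψ _ (sub_mem hc' hc)) h4)
      have h7 : c' = c := sub_eq_zero.1 h6
      subst h7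
      have h8 : y = y' := mul_right_cancel he'
      subst h8
      rfl
    · rintro ⟨g, hg⟩
      have hg' := mem_Uw.1 hg
      obtain ⟨v, hv, c, hc, hvc⟩ := U_dec h hi hg'.2
      have h2 : g * (nl C x l * x i c * (nl C x l)⁻¹)⁻¹ = nl C x l * v * (nl C x l)⁻¹ := by
        have : g = nl C x l * ((nl C x l)⁻¹ * g * nl C x l) * (nl C x l)⁻¹ := by group
        rw [this, hvc]
        group
      refine ⟨⟨⟨g * (nl C x l * x i c * (nl C x l)⁻¹)⁻¹, ?_⟩, ⟨c, hc⟩⟩, ?_⟩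
      · rw [mem_Uw, e0]
        refine ⟨mul_mem hg'.1 (inv_mem (mem_Uw.1 (hX c hc)).1), ?_⟩
        rw [h2]
        have e1 : (nl C x l * nn C.neg x i 1)⁻¹ * (nl C x l * v * (nl C x l)⁻¹) *
          (nl C x l * nn C.neg x i 1) = (nn C.neg x i 1)⁻¹ * v * nn C.neg x i 1 := by group
        rw [e1]
        exact Ui_le i (Ui_conj_n' h hi hv)
      · apply Subtype.ext
        change g * (nl C x l * x i c * (nl C x l)⁻¹)⁻¹ * (nl C x l * x i c * (nl C x l)⁻¹) = g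
        rw [inv_mul_cancel_right]
  rw [← Nat.card_prod]
  exact (Nat.card_congr (Equiv.ofBijective f hf)).symm

end

end Vale.Agent.P240.R2.N402
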