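import Vale.Agent.P240.R2.N402.A1
import Vale.Agent.P240.R2.N402.Bas

/-!
`2E6(q)`, `q` odd: elementary abelian 2-subgroups normalized by a long root subgroup.
-/

set_option autoImplicit false

namespace Vale.Agent.P240.R2.N402

open Subgroup Vale.Agent.P240.K Vale.Agent.P240.H195 CartanMatrix
open Vale.Agent.P240.R2.H165.XC Vale.Agent.P240.R2.H945 Vale.Agent.P240.R2.H945.W
open Vale.Agent.P240.R2.H945.W.TS
open Vale.Agent.P240.R2.H986.X (RC nn nl wl SS wl_nil wl_cons wl_append wl_neg nl_nil nl_cons wl_rev'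
  wl_rev)

universe u

section
variable {ι : Type*} {F : Type*} [Field F] {L : Type*} [Group L] {C : RC ι} {K : ι → Subfield F}
  {x : ι → F → L}

/-- root subgroups -/
lemma mem_gr_one (h : TS C K x) {i : ι} {g : L} (hg : g ∈ gr K x (fun j => j = i)) :
    ∃ t, t ∈ K i ∧ g = x i t := by
  induction hg using closure_induction with
  | mem g hg =>
    obtain ⟨j, t, rfl, ht, rfl⟩ := hg
    exact ⟨t, ht, rfl⟩
  | one => exact ⟨0, zero_mem _, (h.x_zero i).symm⟩
  | mul a b _ _ ha hb =>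
    obtain ⟨t, ht, rfl⟩ := ha
    obtain ⟨u, hu, rfl⟩ := hb
    exact ⟨t + u, add_mem ht hu, (h.add i t u ht hu).symm⟩
  | inv a _ ha =>
    obtain ⟨t, ht, rfl⟩ := ha
    exact ⟨-t, neg_mem ht, (h.x_neg i ht).symm⟩

/-- involutions in `U` -/
lemma U_sq [Finite ι] (h : TS C K x) (r : ℕ) [Fact r.Prime] [CharP F r] (hr : r ≠ 2) {z : L}
    (hz : z ∈ UU C K x) (hzz : z * z = 1) : z = 1 := by
  obtain ⟨k, hk⟩ := UU_pgroup h r ⟨z, hz⟩
  have hk' : z ^ r ^ k = 1 := by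
    have := congrArg Subtype.val hk
    simpa using this
  have h1 : orderOf z ∣ 2 := orderOf_dvd_of_pow_eq_one (by rw [pow_two, hzz])
  have h2 : orderOf z ∣ r ^ k := orderOf_dvd_of_pow_eq_one hk'
  have hc : Nat.Coprime 2 (r ^ k) :=
    Nat.Coprime.pow_right k ((Nat.coprime_primes Nat.prime_two Fact.out).2 (Ne.symm hr))
  exact orderOf_eq_one_iff.1 (Nat.eq_one_of_dvd_coprimes hc h1 h2)

/-- `B` normalizes the subgroups of ideals -/
lemma BB_norm (h : TS C K x) {p : ι → Prop} (hp : Ideal' C p) :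
    BB C K x ≤ normalizer (gr K x p : Set L) := by
  rw [BB]
  refine sup_le ?_ ?_
  · rw [UU, gr, closure_le]
    rintro _ ⟨j, t, hj, ht, rfl⟩
    exact mem_norm h hp hj ht
  · intro t ht
    rw [mem_normalizer_iff]
    intro g
    constructor
    · exact fun hg => h.T_conj_gr ht hg
    · intro hg
      have h1 := h.T_conj_gr (inv_mem ht) hg
      have h2 : t⁻¹ * (t * g * t⁻¹) * t⁻¹⁻¹ = g := by group
      rwa [h2] at h1

end

lemma RL_pos : ∀ v ∈ RL, 0 < hv v → 0 ≤ v.1 ∧ 0 ≤ v.2.1 ∧ 0 ≤ v.2.2.1 ∧ 0 ≤ v.2.2.2 := by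
  decide +kernel

lemma RL_bd : ∀ v ∈ RL, v.1 ≤ 2 ∧ v.2.1 ≤ 3 ∧ v.2.2.1 ≤ 4 ∧ v.2.2.2 ≤ 2 := by
  decide +kernel

lemma RL_pos1 : ∀ v ∈ RL, 0 < v.1 → 0 < hv v := by
  decide +kernel

lemma RL_bd1 : ∀ v ∈ RL, v.2.1 = 3 → v.2.2.1 = 4 → v.2.2.2 = 2 → v.1 = 1 ∨ v.1 = 2 := by
  decide +kernel

section
variable {ι : Type} {F : Type} [Field F] {L : Type u} [Group L] {C : RC ι} {e : Fin 4 → ι}
  {K₀ : Subfield F} {K : ι → Subfield F} {x : ι → F → L} {co : ι → Fin 4 → ℤ}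

lemma mul_bd {m n a b : ℤ} (hm : 0 < m) (hn : 0 < n) (ha : 0 ≤ a) (hb : 0 < b)
    (h : m * b + n * a ≤ b) : a = 0 := by
  have h1 : b ≤ m * b := by nlinarith
  have h2 : a ≤ n * a := by nlinarith
  omega

/-- the highest root -/
lemma ideal1 (h : TD F₄ 2 C e K₀ K x) (hf : FC F₄ C e co) {θ : ι} (hθ : cv co θ = (2, 3, 4, 2)) :
    Ideal' C (fun j => j = θ) := by
  have hR := fun j => hf.mem_RL (fun i hi => (h.simp i).1 hi) j
  constructor
  · rintro i rfl
    rw [hf.ht_cv, hθ]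
    decide
  · rintro i j k rfl hj hc
    exfalso
    obtain ⟨m, n, hm, hn, hk⟩ := hf.cone_cv hc
    rw [hf.ht_cv] at hj
    obtain ⟨p1, p2, p3, p4⟩ := RL_pos _ (hR j) hj
    obtain ⟨b1, b2, b3, b4⟩ := RL_bd _ (hR k)
    rw [hk] at b1 b2 b3 b4
    rw [hθ] at b1 b2 b3 b4
    simp only at b1 b2 b3 b4
    have q1 := mul_bd hm hn p1 (by norm_num) b1
    have q2 := mul_bd hm hn p2 (by norm_num) b2
    have q3 := mul_bd hm hn p3 (by norm_num) b3
    have q4 := mul_bd hm hn p4 (by norm_num) b4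
    have h5 : hv (cv co j) = (cv co j).1 + (cv co j).2.1 + (cv co j).2.2.1 + (cv co j).2.2.2 := rfl
    rw [h5, q1, q2, q3, q4] at hj
    omega

/-- the two highest roots -/
lemma ideal2 (h : TD F₄ 2 C e K₀ K x) (hf : FC F₄ C e co) {θ θ' : ι}
    (hθ : cv co θ = (2, 3, 4, 2)) (hθ' : cv co θ' = (1, 3, 4, 2)) :
    Ideal' C (fun j => j = θ ∨ j = θ') := by
  have hR := fun j => hf.mem_RL (fun i hi => (h.simp i).1 hi) j
  constructor
  · rintro i (rfl | rfl)
    · rw [hf.ht_cv, hθ]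
      decide
    · rw [hf.ht_cv, hθ']
      decide
  · rintro i j k (rfl | rfl) hj hc
    · left
      exact (ideal1 h hf hθ).2 _ _ _ rfl hj hc
    · left
      obtain ⟨m, n, hm, hn, hk⟩ := hf.cone_cv hc
      rw [hf.ht_cv] at hj
      obtain ⟨p1, p2, p3, p4⟩ := RL_pos _ (hR j) hj
      obtain ⟨b1, b2, b3, b4⟩ := RL_bd _ (hR k)
      rw [hk] at b1 b2 b3 b4
      rw [hθ'] at b1 b2 b3 b4
      simp only at b1 b2 b3 b4
      have q2 := mul_bd hm hn p2 (by norm_num) b2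
      have q3 := mul_bd hm hn p3 (by norm_num) b3
      have q4 := mul_bd hm hn p4 (by norm_num) b4
      have h5 : hv (cv co j) = (cv co j).1 + (cv co j).2.1 + (cv co j).2.2.1 + (cv co j).2.2.2 := rfl
      rw [h5, q2, q3, q4] at hj
      rw [q2] at b2
      have hm1 : m = 1 := by omega
      subst hm1
      have hn1 : n * (cv co j).1 = 1 := by
        have : 1 ≤ n * (cv co j).1 := by nlinarith
        omega
      apply hf.cv_inj
      rw [hk, hθ, hθ', q2, q3, q4, hn1]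
      norm_num

/-- the radical -/
lemma ideal3 (h : TD F₄ 2 C e K₀ K x) (hf : FC F₄ C e co) :
    Ideal' C (fun j => 0 < (cv co j).1) := by
  have hR := fun j => hf.mem_RL (fun i hi => (h.simp i).1 hi) j
  constructor
  · intro i hi
    rw [hf.ht_cv]
    exact RL_pos1 _ (hR i) hi
  · intro i j k hi hj hc
    obtain ⟨m, n, hm, hn, hk⟩ := hf.cone_cv hc
    rw [hf.ht_cv] at hj
    obtain ⟨p1, -, -, -⟩ := RL_pos _ (hR j) hj
    rw [hk]
    change 0 < m * (cv co i).1 + n * (cv co j).1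
    have h1 := mul_pos hm hi
    have h2 := mul_nonneg hn.le p1
    omega

end

end Vale.Agent.P240.R2.N402
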