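import Vale.Agent.P240.R2.N402.A2

/-!
`2E6(q)`, `q` odd: elementary abelian 2-subgroups normalized by a long root subgroup.
-/

set_option autoImplicit false

namespace Vale.Agent.P240.R2.N402

open Subgroup Vale.Agent.P240.K Vale.Agent.P240.H195 CartanMatrix
open Vale.Agent.P240.R2.H165.XC Vale.Agent.P240.R2.H945 Vale.Agent.P240.R2.H945.W
open Vale.Agent.P240.R2.H945.W.TS
open Vale.Agent.P240.R2.H986.X (RC nn nl wl SS wl_nil wl_cons wl_append wl_neg nl_nil nl_cons wl_rev'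
  wl_rev)

universe u

section
variable {ι : Type} [Finite ι] {F : Type} [Field F] [Finite F] {L : Type u} [Group L] [Finite L]
  {C : RC ι} {e : Fin 4 → ι} {K₀ : Subfield F} {K : ι → Subfield F} {x : ι → F → L}
  {co : ι → Fin 4 → ℤ} {r : ℕ} [Fact r.Prime] [CharP F r]

omit [Finite ι] [Finite F] [Finite L] in
lemma two_ne (hr : r ≠ 2) : (2 : F) ≠ 0 := by
  intro hc
  have h5 : ((2 : ℕ) : F) = 0 := by exact_mod_cast hc
  exact hr ((Nat.prime_dvd_prime_iff_eq Fact.out Nat.prime_two).1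
    ((CharP.cast_eq_zero_iff F r 2).1 h5))

omit [Finite L] in
/-- products of two long root elements whose square is 1 -/
lemma sq_roots (h : TD F₄ 2 C e K₀ K x) (hf : FC F₄ C e co)
    (hZ : ∀ g : L, (∀ y, g * y = y * g) → g = 1) (hr : r ≠ 2) {θ : ι}
    (hθ : cv co θ = (2, 3, 4, 2)) {γ : ι} (hγ : cv co γ ∈ LL) {s t : F} (hs : s ∈ K θ)
    (ht : t ∈ K γ) (hst : (x θ s * x γ t) * (x θ s * x γ t) = 1) : x θ s * x γ t = 1 := by
  have hts := h.ts
  by_cases hc : cv co γ = (-2, -3, -4, -2)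
  · have hγ' : γ = C.neg θ := by
      apply hf.cv_inj
      rw [hf.cv_neg, hc, hθ]
      rfl
    subst hγ'
    have hθ0 : 0 < C.ht θ := by rw [hf.ht_cv, hθ]; decide
    rw [hts.K_neg] at ht
    by_cases ht0 : t = 0
    · subst ht0
      rw [hts.x_zero, mul_one] at hst ⊢
      exact U_sq hts r hr (x_mem_UU hθ0 hs) hst
    exfalso
    set a := -t⁻¹ with ha
    have haK : a ∈ K θ := neg_mem (inv_mem ht)
    have ha0 : a ≠ 0 := neg_ne_zero.2 (inv_ne_zero ht0)
    have hta : -a⁻¹ = t := by rw [ha, inv_neg, neg_neg, inv_inv]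
    set n := nn C.neg x θ a with hn
    have e1 : n = x θ a * x (C.neg θ) t * x θ a := by
      rw [hn, nn, hta]
    have e2 : x (C.neg θ) t = x θ (-a) * n * x θ (-a) := by
      rw [e1, hts.x_neg θ haK]; group
    have hsa : s - a ∈ K θ := sub_mem hs haK
    have e3 : n * x θ (s - 2 * a) * n = x θ (2 * a - s) := by
      have e4 : x θ (s - a) * (n * x θ (s - 2 * a) * n) * x θ (-a) = 1 := by
        rw [← hst, e2]
        have e5 : x θ (s - a) = x θ s * x θ (-a) := by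
          rw [← hts.add _ _ _ hs (neg_mem haK), sub_eq_add_neg]
        have e6 : x θ (s - 2 * a) = x θ (-a) * x θ s * x θ (-a) := by
          rw [← hts.add _ _ _ (neg_mem haK) hs, ← hts.add _ _ _ (add_mem (neg_mem haK) hs)
            (neg_mem haK)]
          congr 1
          ring
        rw [e5, e6]
        group
      have e7 : n * x θ (s - 2 * a) * n = (x θ (s - a))⁻¹ * (x θ (-a))⁻¹ := by
        have : n * x θ (s - 2 * a) * n = (x θ (s - a))⁻¹ *
          (x θ (s - a) * (n * x θ (s - 2 * a) * n) * x θ (-a)) * (x θ (-a))⁻¹ := by group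
        rw [this, e4, mul_one]
      rw [e7, ← hts.x_neg θ hsa, ← hts.x_neg θ (neg_mem haK),
        ← hts.add _ _ _ (neg_mem hsa) (neg_mem (neg_mem haK))]
      congr 1
      ring
    have h2a : 2 * a ∈ K θ := by
      rw [two_mul]; exact add_mem haK haK
    obtain ⟨φ, hφ, hφ0, h1, -⟩ := hts.nn_act θ θ haK ha0
    have hnT : n * n ∈ TT C K x := hts.nn_nn haK ha0 haK ha0
    have e8 : x (C.neg θ) (φ (s - 2 * a)) = x θ (2 * a - s) * (n * n)⁻¹ := by
      have h3 := h1 (s - 2 * a) (sub_mem hs h2a)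
      rw [C.s_self] at h3
      rw [← h3, ← hn, ← e3]
      group
    have hB : x (C.neg θ) (φ (s - 2 * a)) ∈ BB C K x := by
      rw [e8]
      exact mul_mem (UU_le (x_mem_UU hθ0 (sub_mem h2a hs))) (TT_le_BB (inv_mem hnT))
    have hk : φ (s - 2 * a) ∈ K (C.neg θ) := by
      rw [hts.K_neg]; exact hφ _ (sub_mem hs h2a)
    have h4 : x (C.neg θ) (φ (s - 2 * a)) ^ r ^ 1 = 1 := by
      rw [pow_one, x_pow hts _ hk, CharP.cast_eq_zero, zero_mul, hts.x_zero]
    have hneg : C.ht (C.neg θ) < 0 := by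
      have := C.ht_neg θ
      omega
    have h5 := hts.x_not_mem hneg hk (mem_U_of_pow hts hZ r hB h4)
    have h6 : s - 2 * a = 0 := by
      by_contra hcon
      exact hφ0 _ (sub_mem hs h2a) hcon h5
    have h7 : n * n = 1 := by
      rw [h6, hts.x_zero, mul_one] at e3
      rw [e3, show 2 * a - s = 0 by linear_combination -h6, hts.x_zero]
    -- transport to the first simple root
    obtain ⟨ψ, hψ, hψ0, -, h8⟩ := hts.nl_act (([1, 2, 1, 3, 2, 1, 0] : List (Fin 4)).map e) θ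
    have h9 : wl C (([1, 2, 1, 3, 2, 1, 0] : List (Fin 4)).map e) θ = e 0 := by
      apply hf.cv_inj
      rw [hf.cv_wl, hθ, hf.cv_simp]
      decide
    have h10 := h8 a haK ha0
    have hKe : K (e 0) = K θ := by rw [← h9, hts.K_wl]
    rw [h9] at h10
    set b := ψ a with hb
    have hbK : b ∈ K (e 0) := by rw [hKe]; exact hψ a haK
    have hb0 : b ≠ 0 := hψ0 a haK ha0
    have h11 : nn C.neg x (e 0) b * nn C.neg x (e 0) b = 1 := by
      rw [← h10, ← hn]
      have : ∀ y : L, y * n * y⁻¹ * (y * n * y⁻¹) = y * (n * n) * y⁻¹ := fun y => by group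
      rw [this, h7, mul_one, mul_inv_cancel]
    have h12 : nn C.neg x (e 0) (-b) = nn C.neg x (e 0) b := by
      rw [← hts.nn_inv _ hbK]
      exact inv_eq_of_mul_eq_one_left h11
    have h13 : hh C x (e 0) (-b) = hh C x (e 0) b := by rw [hh, hh, h12]
    have h14 := h.h_rel 0 1 (by decide) b 1 hbK hb0 (one_mem _)
    have h15 := h.h_rel 0 1 (by decide) (-b) 1 (neg_mem hbK) (neg_ne_zero.2 hb0) (one_mem _)
    have hA : (F₄ 1 0 : ℤ) = -1 := rfl
    rw [h13, h14] at h15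
    have hne : ¬ ((-1 : ℤ) = -((2 : ℕ) : ℤ)) := by decide
    rw [hA, if_neg hne, if_neg hne, mul_one, mul_one, zpow_neg_one, zpow_neg_one] at h15
    have hK1 : K (e 0) = K (e 1) := h.K_eq 0 1 rfl rfl
    have hbK' : b ∈ K (e 1) := hK1 ▸ hbK
    have h16 := hts.x_inj (inv_mem hbK') (inv_mem (neg_mem hbK')) h15
    have h17 : b = -b := inv_injective h16
    have h18 : 2 * b = 0 := by linear_combination h17
    rcases mul_eq_zero.1 h18 with h19 | h19
    · exact two_ne hr h19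
    · exact hb0 h19
  · obtain ⟨l, -, hl1, hl2⟩ := both_pos _ hγ hc
    obtain ⟨φ, hφ, -, h1, -⟩ := hts.nl_act (l.map e) θ
    obtain ⟨ψ, hψ, -, h2, -⟩ := hts.nl_act (l.map e) γ
    set n := nl C x (l.map e) with hn
    have e1 : n * (x θ s * x γ t) * n⁻¹ = x (wl C (l.map e) θ) (φ s) * x (wl C (l.map e) γ) (ψ t) := by
      rw [← h1 s hs, ← h2 t ht]; group
    have hU : n * (x θ s * x γ t) * n⁻¹ ∈ UU C K x := by
      rw [e1]
      refine mul_mem (x_mem_UU ?_ ?_) (x_mem_UU ?_ ?_)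
      · rw [hf.ht_cv, hf.cv_wl, hθ]; exact hl1
      · rw [hts.K_wl]; exact hφ s hs
      · rw [hf.ht_cv, hf.cv_wl]; exact hl2
      · rw [hts.K_wl]; exact hψ t ht
    have h3 := U_sq hts r hr hU (by
      have : n * (x θ s * x γ t) * n⁻¹ * (n * (x θ s * x γ t) * n⁻¹) =
        n * ((x θ s * x γ t) * (x θ s * x γ t)) * n⁻¹ := by group
      rw [this, hst, mul_one, mul_inv_cancel])
    rw [mul_inv_eq_one, mul_eq_left] at h3
    exact h3

lemma map_list (h : TD F₄ 2 C e K₀ K x) {l : List ι} (hl : ∀ i ∈ l, C.simp i) :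
    ∃ l' : List (Fin 4), l = l'.map e := by
  induction l with
  | nil => exact ⟨[], rfl⟩
  | cons i l ih =>
    obtain ⟨l', rfl⟩ := ih (fun j hj => hl j (by simp [hj]))
    obtain ⟨k, rfl⟩ := (h.simp i).1 (hl i (by simp))
    exact ⟨k :: l', rfl⟩

/-- elementary abelian 2-subgroups normalized by the highest root subgroup -/
theorem centralize (h : TD F₄ 2 C e K₀ K x) (hf : FC F₄ C e co)
    (hZ : ∀ g : L, (∀ y, g * y = y * g) → g = 1) (hr : r ≠ 2) {θ : ι}
    (hθ : cv co θ = (2, 3, 4, 2)) {E : Subgroup L} (hE : ∀ g ∈ E, g * g = 1)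
    (hN : ∀ c ∈ K θ, ∀ g ∈ E, x θ c * g * (x θ c)⁻¹ ∈ E) :
    ∀ c ∈ K θ, ∀ g ∈ E, x θ c * g = g * x θ c := by
  intro c hc g hg
  have hts := h.ts
  have hsb : SB r (BB C K x) (NN C K x) (UU C K x) (SS C x) := (splitBN hts hZ r).toSB
  have hBn := BB_norm hts (ideal1 h hf hθ)
  have hX : ∀ b ∈ BB C K x, ∀ u ∈ K θ, ∃ v, v ∈ K θ ∧ b * x θ u * b⁻¹ = x θ v := by
    intro b hb u hu
    have h1 := (mem_normalizer_iff.1 (hBn hb) (x θ u)).1 (x_mem_gr (p := fun j => j = θ) rfl hu)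
    obtain ⟨v, hv, hv'⟩ := mem_gr_one hts h1
    exact ⟨v, hv, hv'⟩
  obtain ⟨n, hn, a, ha, b, hb, hgd⟩ := hsb.bruhat g
  obtain ⟨t, ht, l, hl, rfl⟩ := hts.mem_NN hn
  obtain ⟨l', rfl⟩ := map_list h hl
  obtain ⟨v, hv, hv'⟩ := hX b hb (-c) (neg_mem hc)
  obtain ⟨φ, hφ, -, h1, -⟩ := hts.nl_act (l'.map e) θ
  set γ := wl C (l'.map e) θ with hγ
  obtain ⟨d, hdK, -, h2⟩ := hts.T_act ht γ
  obtain ⟨w, hw, hw'⟩ := hX a⁻¹ (inv_mem ha) c hc
  have hKγ : K γ = K θ := by rw [hγ, hts.K_wl]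
  set y := x θ c * g * (x θ c)⁻¹ * g⁻¹ with hy
  have hyE : y ∈ E := mul_mem (hN c hc g hg) (inv_mem hg)
  have hyy := hE y hyE
  have hφv : φ v ∈ K γ := by rw [hKγ]; exact hφ v hv
  have e1 : a⁻¹ * y * a = x θ w * x γ (d * φ v) := by
    have e2 : y = x θ c * (a * (t * (nl C x (l'.map e) * (b * x θ (-c) * b⁻¹) *
        (nl C x (l'.map e))⁻¹) * t⁻¹) * a⁻¹) := by
      rw [hy, hgd, hts.x_neg θ hc]; group
    rw [e2, hv', h1 v hv, h2 _ hφv, ← hw']
    group
  have e3 : x θ w * x γ (d * φ v) = 1 := by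
    apply sq_roots h hf hZ hr hθ (γ := γ) ?_ hw (mul_mem hdK hφv)
    · rw [← e1]
      have : a⁻¹ * y * a * (a⁻¹ * y * a) = a⁻¹ * (y * y) * a := by group
      rw [this, hyy, mul_one, inv_mul_cancel]
    · rw [hγ, hf.cv_wl, hθ]
      exact FC.wl_LL l' (by decide)
  have e4 : y = 1 := by
    have : y = a * (a⁻¹ * y * a) * a⁻¹ := by group
    rw [this, e1, e3, mul_one, mul_inv_cancel]
  have e5 : x θ c * g = y * (g * x θ c) := by rw [hy]; group
  rw [e5, e4, one_mul]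

end

end Vale.Agent.P240.R2.N402
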