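import Vale.Agent.P240.R2.N402.A3

/-!
`2E6(q)`, `q` odd: elementary abelian 2-subgroups normalized by two root subgroups.
-/

set_option autoImplicit false

namespace Vale.Agent.P240.R2.N402

open Subgroup Vale.Agent.P240.K Vale.Agent.P240.H195 CartanMatrix
open Vale.Agent.P240.R2.H165.XC Vale.Agent.P240.R2.H945 Vale.Agent.P240.R2.H945.W
open Vale.Agent.P240.R2.H945.W.TS
open Vale.Agent.P240.R2.H986.X (RC nn nl wl SS wl_nil wl_cons wl_append wl_neg nl_nil nl_cons wl_rev'
  wl_rev)

universe u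

section
variable {ι : Type} {F : Type} [Field F] {L : Type u} [Group L]
  {C : RC ι} {e : Fin 4 → ι} {K₀ : Subfield F} {K : ι → Subfield F} {x : ι → F → L}
  {co : ι → Fin 4 → ℤ}

/-- a root element outside the group of an ideal -/
lemma not_mem_gr (h : TD F₄ 2 C e K₀ K x) (hf : FC F₄ C e co) (l : List (Fin 4)) {p : ι → Prop}
    (hp : ∀ j, p j → 0 < hv (wf l (cv co j))) {j : ι} (hj : hv (wf l (cv co j)) < 0) {t : F}
    (ht : t ∈ K j) (ht0 : t ≠ 0) : x j t ∉ gr K x p := by
  intro hm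
  have hts := h.ts
  have h1 := hts.nl_conj_gr (p := p) (q := fun j => 0 < C.ht j) (l := l.map e) (fun i hi => by
    rw [hf.ht_cv, hf.cv_wl]; exact hp i hi) hm
  obtain ⟨φ, hφ, hφ0, h2, -⟩ := hts.nl_act (l.map e) j
  rw [h2 t ht] at h1
  refine hφ0 t ht ht0 (hts.x_not_mem ?_ (by rw [hts.K_wl]; exact hφ t ht) h1)
  rw [hf.ht_cv, hf.cv_wl]
  exact hj

/-- generators that do not normalize the group of an ideal -/
lemma not_norm (h : TD F₄ 2 C e K₀ K x) (hf : FC F₄ C e co) (l : List (Fin 4)) {p : ι → Prop}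
    (hp : ∀ j, p j → 0 < hv (wf l (cv co j))) (k : Fin 4) {j : ι} (hpj : p j)
    (hj : hv (wf l (rf k (cv co j))) < 0) :
    nn C.neg x (e k) 1 ∉ normalizer (gr K x p : Set L) := by
  intro hm
  have hts := h.ts
  have h1 := (mem_normalizer_iff.1 hm (x j 1)).1 (x_mem_gr hpj (one_mem _))
  obtain ⟨φ, hφ, hφ0, h2, -⟩ := hts.nn_act (e k) j (one_mem (K (e k))) one_ne_zero
  rw [h2 1 (one_mem _)] at h1
  refine not_mem_gr h hf l hp (j := C.s (e k) j) ?_ (by rw [hts.K_s]; exact hφ 1 (one_mem _))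
    (hφ0 1 (one_mem _) one_ne_zero) h1
  rw [hf.cv_s]
  exact hj

end

/-- subgroups that centralize a set of root subgroups normalize the group they generate -/
lemma norm_of_comm {ι : Type*} {F : Type*} [Field F] {L : Type*} [Group L] {K : ι → Subfield F}
    {x : ι → F → L} {p : ι → Prop} {E : Subgroup L}
    (hcen : ∀ j, p j → ∀ c ∈ K j, ∀ g ∈ E, x j c * g = g * x j c) :
    E ≤ normalizer (gr K x p : Set L) := by
  have h0 : ∀ g ∈ E, ∀ y ∈ gr K x p, g * y * g⁻¹ = y := by
    intro g hg y hy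
    induction hy using closure_induction with
    | mem y hy =>
      obtain ⟨j, t, hj, ht, rfl⟩ := hy
      rw [← hcen j hj t ht g hg, mul_inv_cancel_right]
    | one => group
    | mul a b _ _ ha hb =>
      have : g * (a * b) * g⁻¹ = (g * a * g⁻¹) * (g * b * g⁻¹) := by group
      rw [this, ha, hb]
    | inv a _ ha =>
      have : g * a⁻¹ * g⁻¹ = (g * a * g⁻¹)⁻¹ := by group
      rw [this, ha]
  intro g hg
  rw [mem_normalizer_iff]
  intro y
  constructor
  · intro hy
    rw [h0 g hg y hy]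
    exact hy
  · intro hy
    have h1 := h0 g⁻¹ (inv_mem hg) _ hy
    have h2 : g⁻¹ * (g * y * g⁻¹) * g⁻¹⁻¹ = y := by group
    rw [h2] at h1
    rw [h1]
    exact hy

/-- **T2a.2** -/
theorem stmtLemA : StmtLemA.{u} := by
  intro ι _ F _ _ L _ _ r _ _ C e K₀ K x co h hf hZ hr θ θ' hθ hθ' E hE hN hN'
  have hts := h.ts
  have hsb : SB r (BB C K x) (NN C K x) (UU C K x) (SS C x) := (splitBN hts hZ r).toSB
  have hcen := centralize h hf hZ hr hθ hE hN
  -- `E` and `B` normalize the highest root subgroup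
  have hEn : E ≤ normalizer (gr K x (fun j => j = θ) : Set L) :=
    norm_of_comm (p := fun j => j = θ) (by rintro j rfl; exact hcen)
  have hBn := BB_norm hts (ideal1 h hf hθ)
  have hS0 : ∀ s ∈ SS C x, ∃ k : Fin 4, s = nn C.neg x (e k) 1 := by
    rintro s ⟨i, hi, rfl⟩
    obtain ⟨k, rfl⟩ := (h.simp i).1 hi
    exact ⟨k, rfl⟩
  have hn0 : nn C.neg x (e 0) 1 ∉ normalizer (gr K x (fun j => j = θ) : Set L) := by
    refine not_norm h hf [1, 2, 3, 0, 1, 2, 1] (p := fun j => j = θ) ?_ 0 (j := θ) rfl ?_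
    · rintro j rfl
      rw [hθ]
      decide
    · rw [hθ]
      decide
  -- the radical
  have hQB := BB_norm hts (ideal3 h hf)
  have hQn : ∀ k : Fin 4, k ≠ 0 → nn C.neg x (e k) 1 ∈
      normalizer (gr K x (fun j => 0 < (cv co j).1) : Set L) := by
    intro k hk
    have hst : ∀ i, 0 < (cv co i).1 → 0 < (cv co (C.s (e k) i)).1 := by
      intro i hi
      rw [hf.cv_s]
      fin_cases k
      · exact absurd rfl hk
      all_goals exact hi
    rw [mem_normalizer_iff]
    intro y
    constructor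
    · intro hy
      have h1 := hts.nl_conj_gr (p := fun j => 0 < (cv co j).1) (q := fun j => 0 < (cv co j).1)
        (l := [e k]) (fun i hi => by rw [wl_cons, wl_nil]; exact hst i hi) hy
      rwa [nl_cons, nl_nil, mul_one] at h1
    · intro hy
      have h1 := hts.nl_inv_conj_gr (p := fun j => 0 < (cv co j).1)
        (q := fun j => 0 < (cv co j).1)
        (l := [e k]) (fun i hi => by
          rw [List.reverse_singleton, wl_cons, wl_nil]; exact hst i hi) hy
      rw [nl_cons, nl_nil, mul_one] at h1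
      have h2 : (nn C.neg x (e k) 1)⁻¹ * (nn C.neg x (e k) 1 * y * (nn C.neg x (e k) 1)⁻¹) *
        nn C.neg x (e k) 1 = y := by group
      rwa [h2] at h1
  have hEQ : E ≤ normalizer (gr K x (fun j => 0 < (cv co j).1) : Set L) := by
    refine hEn.trans ?_
    rw [← hsb.toBN0.closure_eq_of hsb.bruhat hBn, closure_le]
    rintro s (hs | ⟨hs, hs'⟩)
    · exact hQB hs
    · obtain ⟨k, rfl⟩ := hS0 s hs
      apply hQn
      rintro rfl
      exact hn0 hs'
  have hcen' : ∀ c ∈ K θ', ∀ g ∈ E, x θ' c * g = g * x θ' c := by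
    intro c hc g hg
    set y := x θ' c * g * (x θ' c)⁻¹ * g⁻¹ with hy
    have hyE : y ∈ E := mul_mem (hN' c hc g hg) (inv_mem hg)
    have hm : x θ' c ∈ gr K x (fun j => 0 < (cv co j).1) :=
      x_mem_gr (p := fun j => 0 < (cv co j).1) (by rw [hθ']; decide) hc
    have hyQ : y ∈ gr K x (fun j => 0 < (cv co j).1) := by
      have h1 := (mem_normalizer_iff.1 (hEQ hg) (x θ' c)⁻¹).1 (inv_mem hm)
      have h2 : y = x θ' c * (g * (x θ' c)⁻¹ * g⁻¹) := by rw [hy]; group
      rw [h2]
      exact mul_mem hm h1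
    have hyU : y ∈ UU C K x := (gr_mono (ideal3 h hf).1) hyQ
    have e4 := U_sq hts r hr hyU (hE y hyE)
    have e5 : x θ' c * g = y * (g * x θ' c) := by rw [hy]; group
    rw [e5, e4, one_mul]
  refine ⟨?_, hcen, hcen'⟩
  -- the two highest roots
  have hB2 := BB_norm hts (ideal2 h hf hθ hθ')
  have hE2 : E ≤ normalizer (gr K x (fun j => j = θ ∨ j = θ') : Set L) :=
    norm_of_comm (p := fun j => j = θ ∨ j = θ') (by
      rintro j (rfl | rfl)
      · exact hcen
      · exact hcen')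
  have hn1 : nn C.neg x (e 1) 1 ∉ normalizer (gr K x (fun j => j = θ ∨ j = θ') : Set L) := by
    refine not_norm h hf [1, 2, 3, 0, 1, 2] (p := fun j => j = θ ∨ j = θ') ?_ 1 (j := θ')
      (Or.inr rfl) ?_
    · rintro j (rfl | rfl)
      · rw [hθ]
        decide
      · rw [hθ']
        decide
    · rw [hθ']
      decide
  have hH : BB C K x ≤ normalizer (gr K x (fun j => j = θ) : Set L) ⊓
    normalizer (gr K x (fun j => j = θ ∨ j = θ') : Set L) := le_inf hBn hB2
  refine (le_inf hEn hE2).trans ?_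
  rw [← hsb.toBN0.closure_eq_of hsb.bruhat hH, closure_le]
  rintro s (hs | ⟨hs, hs1, hs2⟩)
  · exact subset_closure (Or.inl hs)
  · obtain ⟨k, rfl⟩ := hS0 s hs
    refine Subgroup.subset_closure ?_
    right
    fin_cases k
    · exact absurd hs1 hn0
    · exact absurd hs2 hn1
    · left; rfl
    · right; rfl

end Vale.Agent.P240.R2.N402
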