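import Vale.Agent.P240.R2.N402.PI

/-!
`²E₆(q)`, `q` odd: the action on the points of automorphisms that fix `B` and the opposite chamber in
the residue.
-/

set_option autoImplicit false

namespace Vale.Agent.P240.R2.N402

open Subgroup Vale.Agent.P240.K Vale.Agent.P240.H195 CartanMatrix
open Vale.Agent.P240.R2.H165.XC Vale.Agent.P240.R2.H945 Vale.Agent.P240.R2.H945.W
open Vale.Agent.P240.R2.H945.W.TS
open Vale.Agent.P240.R2.H986.X (RC nn nl wl SS wl_nil wl_cons wl_append wl_neg nl_nil nl_cons nl_append)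

universe u

section
variable {ι : Type} {F : Type} [Field F] {L : Type u} [Group L] {C : RC ι} {e : Fin 4 → ι}
  {K₀ : Subfield F} {K : ι → Subfield F} {x : ι → F → L} {co : ι → Fin 4 → ℤ} {r : ℕ}
  [Finite ι] [Finite F] [Finite L] [Fact r.Prime] [CharP F r]

/-- the stabilizer of a point -/
abbrev P3 (C : RC ι) (e : Fin 4 → ι) (K : ι → Subfield F) (x : ι → F → L) : Subgroup L :=
  Par (BB C K x) (nu C e x 3)

/-- the longest element of `H` -/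
abbrev w23 (C : RC ι) (e : Fin 4 → ι) (x : ι → F → L) : L := nu C e x 2 * nu C e x 3 * nu C e x 2

omit [Finite ι] [Finite F] [Finite L] [Fact r.Prime] [CharP F r] in
lemma cosetT {t g : L} (ht : t ∈ TT C K x) : cj (g * t) (P3 C e K x) = cj g (P3 C e K x) := by
  rw [cj_mul, cj_self (le_Par (TT_le_BB ht))]

omit [Finite ι] [Finite F] [Finite L] [Fact r.Prime] [CharP F r] in
/-- moving elements of `T` to the right -/
lemma coset_mv {t g n : L} (ht : n⁻¹ * t * n ∈ TT C K x) :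
    cj (g * (t * n)) (P3 C e K x) = cj (g * n) (P3 C e K x) := by
  have e1 : g * (t * n) = g * n * (n⁻¹ * t * n) := by group
  rw [e1, cosetT ht]

namespace Sit
variable (h : Sit r C e K₀ K x co)
include h

omit [Finite ι] [Finite F] [Finite L] [Fact r.Prime] [CharP F r] in
lemma T_x {k : Fin 4} (hk : k = 2 ∨ k = 3) {t : L} (ht : t ∈ TT C K x) :
    ∃ c : F, c ≠ 0 ∧ ∀ s, t * x (e k) s = x (e k) (c * s) * t := by
  obtain ⟨c, -, hc, h1⟩ := h.ts.T_act ht (e k)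
  refine ⟨c, hc, fun s => ?_⟩
  rw [← h1 s (h.Ktop hk s)]
  group

/-- the action of `t ∈ T` on the points -/
lemma actT {t : L} (ht : t ∈ TT C K x) : ∃ c₁ c₂ c₃ : F, c₁ ≠ 0 ∧ c₂ ≠ 0 ∧ c₃ ≠ 0 ∧
    (∀ s, t * x (e 2) s = x (e 2) (c₁ * s) * t) ∧ (∀ s, t * x (e 3) s = x (e 3) (c₃ * s) * t) ∧
    (∀ s, cj t (cj (x (e 2) s * nu C e x 2) (P3 C e K x)) =
      cj (x (e 2) (c₁ * s) * nu C e x 2) (P3 C e K x)) ∧
    ∀ s s', cj t (cj (x (e 3) s * nu C e x 3 * (x (e 2) s' * nu C e x 2)) (P3 C e K x)) =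
      cj (x (e 3) (c₃ * s) * nu C e x 3 * (x (e 2) (c₂ * s') * nu C e x 2)) (P3 C e K x) := by
  obtain ⟨c₁, hc₁, h1⟩ := h.T_x (k := 2) (Or.inl rfl) ht
  obtain ⟨c₃, hc₃, h3⟩ := h.T_x (k := 3) (Or.inr rfl) ht
  have ht' := T_conj_n' h.ts (i := e 3) ht
  obtain ⟨c₂, hc₂, h2⟩ := h.T_x (k := 2) (Or.inl rfl) ht'
  refine ⟨c₁, c₂, c₃, hc₁, hc₂, hc₃, h1, h3, fun s => ?_, fun s s' => ?_⟩
  · rw [← cj_mul, ← mul_assoc, h1, mul_assoc]
    exact coset_mv (T_conj_n' h.ts ht)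
  · rw [← cj_mul]
    have e1 : t * (x (e 3) s * nu C e x 3 * (x (e 2) s' * nu C e x 2)) =
        x (e 3) (c₃ * s) * nu C e x 3 * x (e 2) (c₂ * s') *
          (((nu C e x 3)⁻¹ * t * nu C e x 3) * nu C e x 2) := by
      calc t * (x (e 3) s * nu C e x 3 * (x (e 2) s' * nu C e x 2))
          = (t * x (e 3) s) * nu C e x 3 * (x (e 2) s' * nu C e x 2) := by group
        _ = x (e 3) (c₃ * s) * nu C e x 3 * (((nu C e x 3)⁻¹ * t * nu C e x 3) * x (e 2) s') *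
            nu C e x 2 := by rw [h3]; group
        _ = _ := by rw [h2]; group
    rw [e1, coset_mv (T_conj_n' h.ts ht')]
    congr 1
    group

/-- elements of `B` that stay in `B` under conjugation by the longest element of `H` -/
lemma BwB {z : L} (hz : z ∈ BB C K x) (hz' : (w23 C e x)⁻¹ * z * w23 C e x ∈ BB C K x) :
    ∃ ρ ∈ rd (UU C K x) (H23 C e K x), ∃ t ∈ TT C K x, z = ρ * t := by
  obtain ⟨ρ, hρ, t, ht, rfl⟩ := h.ts.mem_BB hz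
  have hwN : w23 C e x ∈ NN C K x := mul_mem (mul_mem (h.nu_N 2) (h.nu_N 3)) (h.nu_N 2)
  have ht' : (w23 C e x)⁻¹ * t * w23 C e x ∈ TT C K x := by
    have := N_conj_T h.ts (inv_mem hwN) ht
    rwa [inv_inv] at this
  have h1 : (w23 C e x)⁻¹ * ρ * w23 C e x ∈ BB C K x := by
    have e1 : (w23 C e x)⁻¹ * ρ * w23 C e x = ((w23 C e x)⁻¹ * (ρ * t) * w23 C e x) *
        ((w23 C e x)⁻¹ * t * w23 C e x)⁻¹ := by group
    rw [e1]
    exact mul_mem hz' (inv_mem (TT_le_BB ht'))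
  have h2 := h.sb.conj_U' Fact.out hρ h1
  exact ⟨ρ, stmtLongRad L r _ _ _ _ h.sb _ B_le_HH _ h.long23 ρ hρ h2, t, ht, rfl⟩

omit [Finite ι] [Finite F] [Finite L] [Fact r.Prime] [CharP F r] h in
/-- the radical fixes the points -/
lemma rd_Om {ρ : L} (hρ : ρ ∈ rd (UU C K x) (H23 C e K x)) {Q : Subgroup L}
    (hQ : Q ∈ Om (BB C K x) (nu C e x 2) (nu C e x 3)) : cj ρ Q = Q := by
  obtain ⟨y, hy, rfl⟩ := hQ
  have h1 : y⁻¹ * ρ * y ∈ Par (BB C K x) (nu C e x 3) := le_Par (UU_le (hρ y hy))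
  have e1 : ρ * y = y * (y⁻¹ * ρ * y) := by group
  rw [← cj_mul, e1, cj_mul, cj_self h1]

section
variable {ε : MulAut L} {σ : F ≃+* F} {c : ι → F} (hA : AlT C K x ε σ c)
include hA

omit [Finite ι] [Finite F] [Finite L] [Fact r.Prime] [CharP F r] in
/-- `ε(n_k) ∈ n_k T` -/
lemma al_nu (k : Fin 4) : (nu C e x k)⁻¹ * ε (nu C e x k) ∈ TT C K x := by
  obtain ⟨hcK, hc0, h1⟩ := hA (e k) (h.simp k)
  have e1 : ε (nu C e x k) = nn C.neg x (e k) (c (e k)) := by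
    have h2 := h1 1 (one_mem _)
    have h3 := h1 (-1⁻¹) (neg_mem (inv_mem (one_mem _)))
    change ε (x (e k) 1 * x (C.neg (e k)) (-1⁻¹) * x (e k) 1) = _
    rw [map_mul, map_mul, h2.2.1, h3.2.2, nn]
    congr 3
    · simp
    · simp
    · simp
  rw [e1]
  exact h.ts.nn_inv_nn (one_mem _) one_ne_zero hcK hc0

/-- the action of an automorphism on the points -/
lemma actA (hP : am ε (P3 C e K x) = P3 C e K x) : ∃ c₂ : F, c₂ ≠ 0 ∧
    (∀ s, am ε (cj (x (e 2) s * nu C e x 2) (P3 C e K x)) =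
      cj (x (e 2) (c (e 2) * σ s) * nu C e x 2) (P3 C e K x)) ∧
    ∀ s s', am ε (cj (x (e 3) s * nu C e x 3 * (x (e 2) s' * nu C e x 2)) (P3 C e K x)) =
      cj (x (e 3) (c (e 3) * σ s) * nu C e x 3 * (x (e 2) (c₂ * σ s') * nu C e x 2))
        (P3 C e K x) := by
  have h2 := h.al_nu hA 2
  have h3 := h.al_nu hA 3
  obtain ⟨τ₂, hτ₂⟩ : ∃ τ, τ = (nu C e x 2)⁻¹ * ε (nu C e x 2) := ⟨_, rfl⟩
  obtain ⟨τ₃, hτ₃⟩ : ∃ τ, τ = (nu C e x 3)⁻¹ * ε (nu C e x 3) := ⟨_, rfl⟩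
  rw [← hτ₂] at h2
  rw [← hτ₃] at h3
  have e2 : ε (nu C e x 2) = nu C e x 2 * τ₂ := by rw [hτ₂]; group
  have e3 : ε (nu C e x 3) = nu C e x 3 * τ₃ := by rw [hτ₃]; group
  have x2 : ∀ s, ε (x (e 2) s) = x (e 2) (c (e 2) * σ s) := fun s =>
    ((hA (e 2) (h.simp 2)).2.2 s (h.Ktop (Or.inl rfl) s)).2.1
  have x3 : ∀ s, ε (x (e 3) s) = x (e 3) (c (e 3) * σ s) := fun s =>
    ((hA (e 3) (h.simp 3)).2.2 s (h.Ktop (Or.inr rfl) s)).2.1
  obtain ⟨κ, hκ, h4⟩ := h.T_x (k := 2) (Or.inl rfl) h3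
  refine ⟨κ * c (e 2), mul_ne_zero hκ (hA (e 2) (h.simp 2)).2.1, fun s => ?_, fun s s' => ?_⟩
  · rw [am_cj, hP, map_mul, x2, e2, ← mul_assoc, cosetT h2]
  · rw [am_cj, hP, map_mul, map_mul, map_mul, x2, x3, e2, e3]
    have e5 : x (e 3) (c (e 3) * σ s) * (nu C e x 3 * τ₃) *
        (x (e 2) (c (e 2) * σ s') * (nu C e x 2 * τ₂)) =
        x (e 3) (c (e 3) * σ s) * nu C e x 3 * (x (e 2) (κ * (c (e 2) * σ s'))) *
          (τ₃ * nu C e x 2) * τ₂ := by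
      calc _ = x (e 3) (c (e 3) * σ s) * nu C e x 3 * (τ₃ * x (e 2) (c (e 2) * σ s')) *
            nu C e x 2 * τ₂ := by group
        _ = _ := by rw [h4]; group
    rw [e5, cosetT h2, coset_mv (T_conj_n' h.ts h3), mul_assoc (x (e 3) _ * _), mul_assoc κ]

/-- the action on the points of `conj z * ε` -/
theorem act (hP : am ε (P3 C e K x) = P3 C e K x) {ρ t : L}
    (hρ : ρ ∈ rd (UU C K x) (H23 C e K x)) (ht : t ∈ TT C K x) :
    ∃ c₁ c₂ c₃ : F, c₁ ≠ 0 ∧ c₂ ≠ 0 ∧ c₃ ≠ 0 ∧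
    (∀ s, t * ε (x (e 2) s) * t⁻¹ = x (e 2) (c₁ * σ s)) ∧
    (∀ s, t * ε (x (e 3) s) * t⁻¹ = x (e 3) (c₃ * σ s)) ∧
    am (MulAut.conj (ρ * t) * ε) (P3 C e K x) = P3 C e K x ∧
    (∀ s, am (MulAut.conj (ρ * t) * ε) (cj (x (e 2) s * nu C e x 2) (P3 C e K x)) =
      cj (x (e 2) (c₁ * σ s) * nu C e x 2) (P3 C e K x)) ∧
    ∀ s s', am (MulAut.conj (ρ * t) * ε)
      (cj (x (e 3) s * nu C e x 3 * (x (e 2) s' * nu C e x 2)) (P3 C e K x)) =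
      cj (x (e 3) (c₃ * σ s) * nu C e x 3 * (x (e 2) (c₂ * σ s') * nu C e x 2)) (P3 C e K x) := by
  obtain ⟨c₂, hc₂, h1, h2⟩ := h.actA hA hP
  obtain ⟨d₁, d₂, d₃, hd₁, hd₂, hd₃, k1, k3, h3, h4⟩ := h.actT ht
  have x2 : ∀ s, ε (x (e 2) s) = x (e 2) (c (e 2) * σ s) := fun s =>
    ((hA (e 2) (h.simp 2)).2.2 s (h.Ktop (Or.inl rfl) s)).2.1
  have x3 : ∀ s, ε (x (e 3) s) = x (e 3) (c (e 3) * σ s) := fun s =>
    ((hA (e 3) (h.simp 3)).2.2 s (h.Ktop (Or.inr rfl) s)).2.1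
  have hX := h.crd (k := 2) (Or.inl rfl)
  have hY := h.crd (k := 3) (Or.inr rfl)
  refine ⟨d₁ * c (e 2), d₂ * c₂, d₃ * c (e 3), mul_ne_zero hd₁ (hA (e 2) (h.simp 2)).2.1,
    mul_ne_zero hd₂ hc₂, mul_ne_zero hd₃ (hA (e 3) (h.simp 3)).2.1, fun s => ?_, fun s => ?_, ?_,
    fun s => ?_, fun s s' => ?_⟩
  · rw [x2, k1, mul_assoc, mul_inv_cancel, mul_one, mul_assoc]
  · rw [x3, k3, mul_assoc, mul_inv_cancel, mul_one, mul_assoc]
  · rw [am_mul, hP, am_conj, cj_mul, cj_self (le_Par (TT_le_BB ht))]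
    exact rd_Om hρ (Ph_mem (Y := x (e 3)) hX hY (.inl ()))
  · rw [am_mul, h1, am_conj, cj_mul, h3, mul_assoc d₁]
    exact rd_Om hρ (Ph_mem hX hY (.inr (.inl _)))
  · rw [am_mul, h2, am_conj, cj_mul, h4, mul_assoc d₂, mul_assoc d₃]
    exact rd_Om hρ (Ph_mem hX hY (.inr (.inr (_, _))))

end

end Sit

end

end Vale.Agent.P240.R2.N402
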