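import Vale.Agent.P240.R2.N402.SkB

/-!
BN-pairs: double coset representatives, exchange, lengths (task T2b).
-/

set_option autoImplicit false

namespace Vale.Agent.P240.R2.N402

open Subgroup Vale.Agent.P240.K Vale.Agent.P240.H195

universe u

section
variable {L : Type u} [Group L] {B N : Subgroup L} {S : Set L}

/-- T2b.1 -/
theorem stmtDC0 : StmtDC0.{u} := by
  classical
  intro L _ B N S h hbr H hBH g
  have hex : ∃ k, ∃ m ∈ N, Wd B N S k m ∧ ∃ h₁ ∈ H, ∃ h₂ ∈ H, g = h₁ * m * h₂ := by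
    obtain ⟨n, hn, a, ha, c, hc, rfl⟩ := hbr g
    obtain ⟨k, hk⟩ := h.exists_wd hn
    exact ⟨k, n, hn, hk, a, hBH ha, c, hBH hc, rfl⟩
  obtain ⟨m, hm, hk, h₁, hh₁, h₂, hh₂, he⟩ := Nat.find_spec hex
  have hmin := fun {j : ℕ} (hj : j < Nat.find hex) => Nat.find_min hex hj
  refine ⟨h₁, hh₁, m, hm, h₂, hh₂, he, ?_, ?_⟩
  · rw [h.pr_iff hbr hm hBH]
    intro s hs hsH
    by_contra hcon
    obtain ⟨j, hj, hw⟩ := h.exch hk hs hcon
    refine hmin (j := j) (by omega) ⟨m * s, mul_mem hm (h.sub s hs), hw, h₁, hh₁, s⁻¹ * h₂,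
      mul_mem (inv_mem hsH) hh₂, ?_⟩
    rw [he]; group
  · rw [h.pr_iff hbr (inv_mem hm) hBH]
    intro s hs hsH
    by_contra hcon
    obtain ⟨j, hj, hw⟩ := h.exch (h.wd_inv hk) hs hcon
    have h1 := h.wd_inv hw
    refine hmin (j := j) (by omega) ⟨(m⁻¹ * s)⁻¹, inv_mem (mul_mem (inv_mem hm) (h.sub s hs)), h1,
      h₁ * s, mul_mem hh₁ hsH, h₂, hh₂, ?_⟩
    rw [he]; group

/-- exchange with words in `N ⊓ H` -/
lemma exch2H (h : BN0 B N S) {H : Subgroup L} (hBH : B ≤ H) {k : ℕ} {x m s : L}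
    (hx : Wd B (N ⊓ H) (S ∩ H) k x) (hm : m ∈ N) (hs : s ∈ S) (hr : RG B m s) :
    ¬ RG B (x * m) s → ∃ y ∈ H, y ∈ N ∧ (y * (m * s))⁻¹ * (x * m) ∈ B := by
  induction hx with
  | @zero t h1 h2 => exact fun hr' => absurd (BN0.rg_left hr h1) hr'
  | @succ t y k ht hy ih =>
    intro hr'
    have htN := h.sub t ht.1
    have hyN := ((h.sub_bn hBH).wd_mem hy)
    by_cases hr'' : RG B (y * m) s
    · have h1 := h.rg_step (mul_mem hyN.1 hm) hs ht.1 hr'' (by rwa [← mul_assoc])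
      refine ⟨y, hyN.2, hyN.1, ?_⟩
      have h2 := inv_mem h1
      have : ((t * (y * m))⁻¹ * (y * m * s))⁻¹ = (y * (m * s))⁻¹ * (t * y * m) := by group
      rwa [this] at h2
    · obtain ⟨z, hz, hzN, hzy⟩ := ih hr''
      refine ⟨t * z, mul_mem ht.2 hz, mul_mem htN hzN, ?_⟩
      have : (t * z * (m * s))⁻¹ * (t * y * m) = (z * (m * s))⁻¹ * (y * m) := by group
      rwa [this]

/-- T2b.2 -/
theorem stmtDC1 : StmtDC1.{u} := by
  intro L _ B N S h hbr H hBH n hn hp hp' z hz hzH z' hz' hz'H hd s hs hsH hzs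
  have hsN := h.sub s hs
  -- `(zn)⁻¹ (nz') ∈ B`
  have h1 := h.inj (mul_mem hz hn) (mul_mem hn hz') hd
  set b := (z * n)⁻¹ * (n * z') with hb
  have hbN : b ∈ N := mul_mem (inv_mem (mul_mem hz hn)) (mul_mem hn hz')
  have e1 : z'⁻¹ * n⁻¹ = b⁻¹ * (n⁻¹ * z⁻¹) := by rw [hb]; group
  have hr : RG B n⁻¹ s := h.rg_of_pr hBH (inv_mem hn) hs hsH hp'
  have hzs' : RG B (z⁻¹ * s) s := (h.rg_or (inv_mem hz) hs).resolve_left hzs
  have h2 : RG B (n⁻¹ * (z⁻¹ * s)) s :=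
    h.rg_mul_of_pr (inv_mem hn) (mul_mem (inv_mem hz) hsN) (mul_mem (inv_mem hzH) hsH) hs hsH hBH
      hp' hzs'
  have h3 : ¬ RG B (z'⁻¹ * n⁻¹) s := by
    intro hcon
    rw [e1] at hcon
    have h4 := BN0.rg_left hcon h1
    rw [mul_inv_cancel_left] at h4
    refine h.not_both (mul_mem (inv_mem hn) (inv_mem hz)) hs h4 ?_
    rwa [mul_assoc]
  obtain ⟨k, hk⟩ := (h.sub_bn hBH).exists_wd (n := z'⁻¹) ⟨N.inv_mem hz', H.inv_mem hz'H⟩
  obtain ⟨y, hyH, hyN, h4⟩ := exch2H h hBH hk (inv_mem hn) hs hr h3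
  set c := (y * (n⁻¹ * s))⁻¹ * (z'⁻¹ * n⁻¹) with hc
  have hcN : c ∈ N := N.mul_mem (N.inv_mem (N.mul_mem hyN (N.mul_mem (N.inv_mem hn) hsN)))
    (N.mul_mem (N.inv_mem hz') (N.inv_mem hn))
  have e2 : n⁻¹ * s * n = y⁻¹ * z'⁻¹ * (n⁻¹ * c⁻¹ * n) := by rw [hc]; group
  rw [e2]
  exact H.mul_mem (H.mul_mem (H.inv_mem hyH) (H.inv_mem hz'H))
    (hBH (h.norm' hn (B.inv_mem h4) (N.inv_mem hcN)))

/-! ### lengths -/

lemma wd_mul (h : BN0 B N S) {i j : ℕ} {u v : L} (hu : Wd B N S i u) (hv : Wd B N S j v) :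
    Wd B N S (i + j) (u * v) := by
  induction hu with
  | @zero t h1 h2 =>
    rw [zero_add]
    exact h.wd_left hv _ h1 h2
  | @succ s n k hs hn ih =>
    rw [mul_assoc, add_right_comm]
    exact Wd.succ hs ih

lemma len_inv (h : BN0 B N S) {k : ℕ} {n : L} (hn : h.Len k n) : h.Len k n⁻¹ := by
  refine ⟨h.wd_inv hn.1, fun j hj hw => hn.2 j hj ?_⟩
  have := h.wd_inv hw
  rwa [inv_inv] at this

lemma len_of_mem (h : BN0 B N S) {k : ℕ} {n : L} (hn : h.Len k n) (hB : n ∈ B) : k = 0 := by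
  by_contra hk
  exact hn.2 0 (Nat.pos_of_ne_zero hk) (Wd.zero hB (h.wd_mem hn.1))

/-- lengths add for projections -/
lemma len_pr (h : BN0 B N S) {H : Subgroup L} (hBH : B ≤ H) {k : ℕ} {n : L} (hn : h.Len k n)
    (hp : Pr B n H) : ∀ (i : ℕ) (y : L), h.Len i y → y ∈ H → h.Len (k + i) (n * y) := by
  intro i
  induction i using Nat.strong_induction_on with
  | _ i ih =>
    intro y hy hyH
    have hnN := h.wd_mem hn.1
    have hyN := h.wd_mem hy.1
    by_cases hyB : y ∈ B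
    · have h1 := len_of_mem h hy hyB
      subst h1
      refine h.len_congr hn (mul_mem hnN hyN) ?_
      rwa [inv_mul_cancel_left]
    · obtain ⟨s, hs, m, hm, hi0, hr, hms⟩ := h.exists_desc_len hy hyB
      have hmN := h.wd_mem hm.1
      obtain ⟨hsH, hmH⟩ := h.desc_mem hBH hyH hs hr hms
      have h1 := ih (i - 1) (by omega) m hm hmH
      have h2 := h.len_mul h1 hs (h.rg_mul_of_pr hnN hmN hmH hs hsH hBH hp hr)
      have e : k + (i - 1) + 1 = k + i := by omega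
      rw [e] at h2
      refine h.len_congr h2 (mul_mem hnN hyN) ?_
      have : (n * m * s)⁻¹ * (n * y) = (m * s)⁻¹ * y := by group
      rwa [this]

/-- lengths in `H` -/
lemma len_sub (h : BN0 B N S) {H : Subgroup L} (hBH : B ≤ H) : ∀ (k : ℕ) (n : L), h.Len k n →
    n ∈ H → (h.sub_bn hBH).Len k n := by
  have hmono : ∀ {k : ℕ} {n : L}, Wd B (N ⊓ H) (S ∩ H) k n → Wd B N S k n := by
    intro k n hn
    induction hn with
    | zero h1 h2 => exact Wd.zero h1 h2.1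
    | succ hs _ ih => exact Wd.succ hs.1 ih
  intro k n hn hnH
  refine ⟨?_, fun j hj hw => hn.2 j hj (hmono hw)⟩
  induction k using Nat.strong_induction_on generalizing n with
  | _ k ih =>
    have hnN := h.wd_mem hn.1
    by_cases hnB : n ∈ B
    · have h1 := len_of_mem h hn hnB
      subst h1
      exact Wd.zero hnB ⟨hnN, hnH⟩
    · obtain ⟨s, hs, m, hm, hk0, hr, hms⟩ := h.exists_desc_len hn hnB
      obtain ⟨hsH, hmH⟩ := h.desc_mem hBH hnH hs hr hms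
      have h1 := ih (k - 1) (by omega) m hm hmH
      have h2 := (h.sub_bn hBH).wd_mul_right h1 (s := s) ⟨hs, hsH⟩
      have e : k - 1 + 1 = k := by omega
      rw [e] at h2
      exact (h.sub_bn hBH).wd_congr h2 ⟨hnN, hnH⟩ hms

/-- the longest element is longer than the others -/
lemma long_lt (h : BN0 B N S) {H : Subgroup L} (hBH : B ≤ H) {w : L}
    (hw : (h.sub_bn hBH).Long w) {l : ℕ} (hl : h.Len l w) {i : ℕ} {v : L} (hv : h.Len i v)
    (hvH : v ∈ H) (hne : w⁻¹ * v ∉ B) : i < l := by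
  have hwN : w ∈ N := hw.1.1
  have hwH : w ∈ H := hw.1.2
  have hvN := h.wd_mem hv.1
  obtain ⟨j, hj, x, hx, hxw⟩ := (h.sub_bn hBH).suffix hw (len_sub h hBH l w hl hwH) i v
    (len_sub h hBH i v hv hvH)
  have hj0 : j ≠ 0 := by
    rintro rfl
    have hxB : x ∈ B ∧ x ∈ N := by
      cases hx with
      | zero h1 h2 => exact ⟨h1, h2.1⟩
    apply hne
    have e : w⁻¹ * v = ((x * v)⁻¹ * w)⁻¹ * (v⁻¹ * x⁻¹ * v) := by group
    rw [e]
    exact mul_mem (inv_mem hxw) (h.norm' hvN (inv_mem hxB.1) (inv_mem hxB.2))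
  omega

end

end Vale.Agent.P240.R2.N402
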