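import Vale.Agent.P240.R2.N402.B1

/-!
BN-pairs: radicals as intersections (task T2b).
-/

set_option autoImplicit false

namespace Vale.Agent.P240.R2.N402

open Subgroup Vale.Agent.P240.K Vale.Agent.P240.H195

universe u

/-- T2b.3 -/
theorem stmtLongRad : StmtLongRad.{u} := by
  intro L _ _ r hrf B N U S h H hBH w hw v hv hwv y hy
  have hr : r.Prime := hrf.out
  have hw' := (h.toBN0.sub_bn hBH).long_inv hw
  have hwN : w ∈ N := hw.1.1
  have hwH : w ∈ H := hw.1.2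
  let Vs : Set L := {z | ∃ b ∈ B, b⁻¹ * z * b ∈ U ∧ w⁻¹ * (b⁻¹ * z * b) * w ∈ U}
  have hVU : ∀ z ∈ Vs, z ∈ U := by
    rintro z ⟨b, hb, h1, -⟩
    have := h.normal b hb _ h1
    have e : b * (b⁻¹ * z * b) * b⁻¹ = z := by group
    rwa [e] at this
  -- conjugation by `B`
  have hconjB : ∀ c ∈ B, ∀ z ∈ Vs, c * z * c⁻¹ ∈ Vs := by
    rintro c hc z ⟨b, hb, h1, h2⟩
    have e : (c * b)⁻¹ * (c * z * c⁻¹) * (c * b) = b⁻¹ * z * b := by group
    exact ⟨c * b, mul_mem hc hb, by rwa [e], by rwa [e]⟩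
  have hconjS : ∀ t ∈ S ∩ (H : Set L), ∀ z ∈ Vs, t⁻¹ * z * t ∈ Vs := by
    rintro t ht z ⟨b, hb, h1, h2⟩
    have htN := h.sub t ht.1
    obtain ⟨u, hu, τ, hτB, hτN, rfl⟩ := h.split b hb
    obtain ⟨v, hv⟩ : ∃ v, v = u⁻¹ * z * u := ⟨_, rfl⟩
    have ez : z = u * v * u⁻¹ := by rw [hv]; group
    have e1 : (u * τ)⁻¹ * z * (u * τ) = τ⁻¹ * v * τ := by rw [hv]; group
    rw [e1] at h1 h2
    have hvU : v ∈ U := by
      have := h.normal τ hτB _ h1
      have e : τ * (τ⁻¹ * v * τ) * τ⁻¹ = v := by group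
      rwa [e] at this
    have hwvU : w⁻¹ * v * w ∈ U := by
      have := h.normal _ (h.norm' hwN hτB hτN) _ h2
      have e : w⁻¹ * τ * w * (w⁻¹ * (τ⁻¹ * v * τ) * w) * (w⁻¹ * τ * w)⁻¹ = w⁻¹ * v * w := by group
      rwa [e] at this
    have hcv := h.conv hr hBH hw ht hvU hwvU
    have hvK : v ∈ Kg U t := by
      refine mem_Kg.2 ⟨hvU, ?_⟩
      have := h.normal _ (h.sq t ht.1) _ hcv
      have e : t * t * (t⁻¹ * v * t) * (t * t)⁻¹ = t * v * t⁻¹ := by group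
      rwa [e] at this
    have hzK : z ∈ Kg U t := by
      rw [ez]
      exact h.Kg_conj ht.1 (le_Par (h.le hu)) hvK
    have hzU : t⁻¹ * z * t ∈ U := (h.Kg_conj' ht.1 self_mem_Par hzK).1
    set w₁ := t⁻¹ * w with hw₁
    have hw₁N : w₁ ∈ N := mul_mem (inv_mem htN) hwN
    have e0 : w₁⁻¹ = w⁻¹ * t := by rw [hw₁]; group
    have e00 : t * w₁ = w := by rw [hw₁]; group
    by_cases hut : t⁻¹ * u * t ∈ B
    · have hutU := h.conj_U' hr hu hut
      obtain ⟨s', hs', hβ⟩ := (h.toBN0.sub_bn hBH).long_conj hw ht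
      have hs'N := h.sub s' hs'.1
      have h3 : w⁻¹ * v * w ∈ U := hwvU
      have h4 : s'⁻¹ * (w⁻¹ * v * w) * s' ∈ U := by
        refine h.conv hr hBH hw' hs' h3 ?_
        have e : w⁻¹⁻¹ * (w⁻¹ * v * w) * w⁻¹ = v := by group
        rwa [e]
      have h5 := h.normal _ hβ _ h4
      have e5 : (t * w)⁻¹ * (w * s') * (s'⁻¹ * (w⁻¹ * v * w) * s') *
          ((t * w)⁻¹ * (w * s'))⁻¹ = w⁻¹ * (t⁻¹ * v * t) * w := by group
      rw [e5] at h5
      refine ⟨t⁻¹ * u * t, hut, ?_, ?_⟩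
      · have e : (t⁻¹ * u * t)⁻¹ * (t⁻¹ * z * t) * (t⁻¹ * u * t) = t⁻¹ * v * t := by
          rw [hv]; group
        rw [e]
        exact hcv
      · have e : (t⁻¹ * u * t)⁻¹ * (t⁻¹ * z * t) * (t⁻¹ * u * t) = t⁻¹ * v * t := by
          rw [hv]; group
        rw [e]
        exact h5
    · have h6 : t⁻¹ * u * t ∈ Par B t :=
        mul_mem (mul_mem (inv_mem self_mem_Par) (le_Par (h.le hu))) self_mem_Par
      obtain ⟨c, hc, d, hd, hcd⟩ := ((h.mem_Par ht.1).1 h6).resolve_left hut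
      have h1' : RG B (w⁻¹ * t) t := (h.rg_or (inv_mem hwN) ht.1).resolve_left (hw'.2 t ht)
      have h7 : DC B w (t * d * w₁) := by
        have := h.rg_inv ht.1 (n := w₁) (by rw [e0]; exact h1') hd
        rwa [e00] at this
      obtain ⟨b₃, hb₃, b₄, hb₄, hb⟩ := h7.left hc
      have e8 : t⁻¹ * u * w = b₃ * w * b₄ := by
        rw [← hb]
        have : t⁻¹ * u * w = (t⁻¹ * u * t) * w₁ := by rw [hw₁]; group
        rw [this, hcd]
        group
      refine ⟨b₃, hb₃, h.norm_U' hb₃ hzU, ?_⟩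
      have e9 : w⁻¹ * (b₃⁻¹ * (t⁻¹ * z * t) * b₃) * w =
          b₄ * (w⁻¹ * v * w) * b₄⁻¹ := by
        have e10 : b₃ * w = t⁻¹ * u * w * b₄⁻¹ := by rw [e8]; group
        calc w⁻¹ * (b₃⁻¹ * (t⁻¹ * z * t) * b₃) * w
            = (b₃ * w)⁻¹ * (t⁻¹ * z * t) * (b₃ * w) := by group
          _ = (t⁻¹ * u * w * b₄⁻¹)⁻¹ * (t⁻¹ * z * t) * (t⁻¹ * u * w * b₄⁻¹) := by rw [e10]
          _ = _ := by rw [hv]; group
      rw [e9]
      exact h.normal b₄ hb₄ _ hwvU
  have hnorm : ∀ g : L, (∀ z ∈ Vs, g * z * g⁻¹ ∈ Vs) → (∀ z ∈ Vs, g⁻¹ * z * g ∈ Vs) →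
      g ∈ normalizer (closure Vs : Set L) := by
    intro g h1 h2
    have aux : ∀ g : L, (∀ z ∈ Vs, g * z * g⁻¹ ∈ Vs) → ∀ z ∈ closure Vs,
        g * z * g⁻¹ ∈ closure Vs := by
      intro g h1 z hz
      induction hz using Subgroup.closure_induction with
      | mem z hz => exact subset_closure (h1 z hz)
      | one => rw [mul_one, mul_inv_cancel]; exact one_mem _
      | mul x y _ _ hx hy =>
        have e : g * (x * y) * g⁻¹ = (g * x * g⁻¹) * (g * y * g⁻¹) := by group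
        rw [e]
        exact mul_mem hx hy
      | inv x _ hx =>
        have e : g * x⁻¹ * g⁻¹ = (g * x * g⁻¹)⁻¹ := by group
        rw [e]
        exact inv_mem hx
    rw [mem_normalizer_iff]
    intro z
    refine ⟨aux g h1 z, fun h3 => ?_⟩
    have h4 := aux g⁻¹ (by intro z hz; rw [inv_inv]; exact h2 z hz) _ h3
    have e : g⁻¹ * (g * z * g⁻¹) * g⁻¹⁻¹ = z := by group
    rwa [e] at h4
  have hHn : H ≤ normalizer (closure Vs : Set L) := by
    rw [← h.toBN0.closure_eq_of h.bruhat hBH, closure_le]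
    rintro g (hg | hg)
    · refine hnorm g (hconjB g hg) ?_
      intro z hz
      have := hconjB g⁻¹ (inv_mem hg) z hz
      rwa [inv_inv] at this
    · refine hnorm g ?_ (hconjS g hg)
      intro z hz
      have h1 := hconjB _ (h.sq g hg.1) _ (hconjS g hg z hz)
      have e : g * g * (g⁻¹ * z * g) * (g * g)⁻¹ = g * z * g⁻¹ := by group
      rwa [e] at h1
  have hvV : v ∈ closure Vs := by
    refine subset_closure ⟨1, one_mem _, ?_, ?_⟩
    · have e : (1 : L)⁻¹ * v * 1 = v := by group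
      rwa [e]
    · have e : w⁻¹ * ((1 : L)⁻¹ * v * 1) * w = w⁻¹ * v * w := by group
      rwa [e]
  have h1 := (mem_normalizer_iff.1 (hHn (inv_mem hy)) v).1 hvV
  rw [inv_inv] at h1
  exact (closure_le U).2 (fun z hz => hVU z hz) h1

/-- T2b.4 -/
theorem stmtDC2 : StmtDC2.{u} := by
  intro L _ _ r hrf B N U S h hbr H hBH w hw n hn hp hp' hJ s₀ hs₀ hns₀ hgen v hv hnv y hy
  have h0 := h.toBN0
  have hwN : w ∈ N := hw.1.1
  have hwH : w ∈ H := hw.1.2
  have hw' := (h0.sub_bn hBH).long_inv hw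
  have hBP : B ≤ H ⊔ zpowers s₀ := hBH.trans le_sup_left
  have hxN : n * w ∈ N := mul_mem hn hwN
  -- lengths
  obtain ⟨k, hk⟩ := h0.exists_len hn
  obtain ⟨l, hl⟩ := h0.exists_len hwN
  have hkl := len_pr h0 hBH hk hp l w hl hwH
  have hkl' := len_inv h0 hkl
  -- descents
  have hdesc : ∀ s ∈ S, s ∈ H ⊔ zpowers s₀ → ¬ RG B (n * w)⁻¹ s := by
    intro s hs hsP hrg
    have hsN := h0.sub s hs
    have h1 := h0.len_mul hkl' hs hrg
    rcases hgen s hs hsP with hsH | rfl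
    · -- `s ∈ H`
      have hs'H := hJ s hs hsH
      have hs'N : n⁻¹ * s * n ∈ N := mul_mem (mul_mem (inv_mem hn) hsN) hn
      have hs'B : n⁻¹ * s * n ∉ B := by
        intro hcon
        apply h0.not_mem hs
        have h2 := h0.norm n hn _ hcon hs'N
        have e : n * (n⁻¹ * s * n) * n⁻¹ = s := by group
        rwa [e] at h2
      obtain ⟨i, hi⟩ := h0.exists_len (mul_mem (inv_mem hwN) hs'N)
      have h2 : i < l := by
        refine long_lt h0 hBH hw' (len_inv h0 hl) hi (mul_mem (inv_mem hwH) hs'H) ?_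
        intro hcon
        have e : w⁻¹⁻¹ * (w⁻¹ * (n⁻¹ * s * n)) = n⁻¹ * s * n := by group
        rw [e] at hcon
        exact hs'B hcon
      have h3 := wd_mul h0 hi.1 (h0.wd_inv hk.1)
      have e : w⁻¹ * (n⁻¹ * s * n) * n⁻¹ = (n * w)⁻¹ * s := by group
      rw [e] at h3
      exact h1.2 _ (by omega) h3
    · -- `s = s₀`
      obtain ⟨j, hj, hw2⟩ := h0.exch (h0.wd_inv hk.1) hs hns₀
      have h3 := wd_mul h0 (h0.wd_inv hl.1) hw2
      have e : w⁻¹ * (n⁻¹ * s) = (n * w)⁻¹ * s := by group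
      rw [e] at h3
      exact h1.2 _ (by omega) h3
  -- the projection
  obtain ⟨z, hzN, hzP, hpz⟩ := h0.exists_pr_N hbr (inv_mem hxN) hBP
  have hlong : (h0.sub_bn hBP).Long z⁻¹ := by
    refine ⟨⟨N.inv_mem hzN, Subgroup.inv_mem _ hzP⟩, fun s hs hrg => ?_⟩
    apply hdesc s hs.1 hs.2
    have h1 := h0.rg_mul_of_pr (mul_mem (inv_mem hxN) hzN) (inv_mem hzN) (inv_mem hzP) hs.1 hs.2
      hBP hpz hrg
    have e : (n * w)⁻¹ * z * z⁻¹ = (n * w)⁻¹ := by group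
    rwa [e] at h1
  have hlong' := (h0.sub_bn hBP).long_inv hlong
  rw [inv_inv] at hlong'
  have hz1 : z⁻¹ * v * z ∈ U := by
    have h1 := hpz _ (h.le hnv)
    have e : ((n * w)⁻¹ * z)⁻¹ * ((n * w)⁻¹ * v * (n * w)) * ((n * w)⁻¹ * z) = z⁻¹ * v * z := by
      group
    rw [e] at h1
    exact h.conj_U' hrf.out hv (h1 (mul_mem (mul_mem (inv_mem hzP) (hBP (h.le hv))) hzP))
  exact stmtLongRad L r B N U S h _ hBP z hlong' v hv hz1 y hy

end Vale.Agent.P240.R2.N402
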