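import Vale.Agent.P240.R2.H945.W.Tw

/-!
Coordinates of the roots with respect to the base, for the twisted groups.
-/

set_option autoImplicit false

namespace Vale.Agent.P240.R2.N402

open Subgroup Vale.Agent.P240.K Vale.Agent.P240.H195 CartanMatrix
open Vale.Agent.P240.R2.H165.XC Vale.Agent.P240.R2.H945 Vale.Agent.P240.R2.H945.W
open Vale.Agent.P240.R2.H986.X (RC nn nl wl SS)

universe u v

/-- the coordinates `co j` of the roots `j` with respect to the simple roots `e k` -/
structure FC {ι : Type*} {n : ℕ} (A : Matrix (Fin n) (Fin n) ℤ) (C : RC ι) (e : Fin n → ι)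
    (co : ι → Fin n → ℤ) : Prop where
  inj : Function.Injective co
  simp : ∀ k, co (e k) = Pi.single k 1
  neg : ∀ j, co (C.neg j) = - co j
  s : ∀ i j, co (C.s (e i) j) = co j - (C.pr j (e i)) • Pi.single i 1
  pr : ∀ i j, C.pr j (e i) = ∑ k, co j k * A k i
  ht : ∀ j, C.ht j = ∑ k, co j k
  cone : ∀ i j k, C.cone i j k → ∃ m n : ℕ, 0 < m ∧ 0 < n ∧ co k = m • co i + n • co j

section
variable {n : ℕ} {A : Matrix (Fin n) (Fin n) ℤ} {m : ℕ} {F : Type} [Field F] {L : Type u} [Group L]

/-- everything exposed, with coordinates -/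
theorem IsTw.data' (h : IsTw A m F L) (hA : Conn A) (hab : ∃ x y : L, x * y ≠ y * x) :
    ∃ (ι : Type) (_ : Finite ι) (C : RC ι) (e : Fin n → ι) (K₀ : Subfield F)
      (K : ι → Subfield F) (x : ι → F → L) (co : ι → Fin n → ℤ),
      TD A m C e K₀ K x ∧ FC A C e co := by
  classical
  obtain ⟨ι, hι, P, _, _, b, e, K₀, K, x, hb, he, hx, hcard, hK, hrel⟩ := h
  have h0 : ∀ i, e i ∈ b.support := fun i => by
    rw [hb, Finset.mem_map]
    exact ⟨i, Finset.mem_univ i, rfl⟩
  let f : Fin n → b.support := fun i => ⟨e i, h0 i⟩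
  have hf : Function.Bijective f := by
    constructor
    · intro i j hij
      exact e.injective (congrArg Subtype.val hij)
    · rintro ⟨k, hk⟩
      have hk' := hk
      rw [hb, Finset.mem_map] at hk'
      obtain ⟨i, -, hi⟩ := hk'
      exact ⟨i, Subtype.ext hi⟩
  let e' : b.support ≃ Fin n := (Equiv.ofBijective f hf).symm
  have he' : ∀ i j, b.cartanMatrix i j = A (e' i) (e' j) := by
    intro i j
    obtain ⟨i, rfl⟩ := e'.symm.surjective i
    obtain ⟨j, rfl⟩ := e'.symm.surjective j
    rw [e'.apply_symm_apply, e'.apply_symm_apply, ← he]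
    rfl
  have hB : Conn b.cartanMatrix := hA.transport e' he'
  have hne : b.support.Nonempty := by
    have : Nonempty ι := by
      by_contra hne
      rw [not_nonempty_iff] at hne
      have h1 : (⊤ : Subgroup L) ≤ ⊥ := by
        rw [← hx.gen, grK, closure_le]
        rintro _ ⟨i, -⟩
        exact (hne.false i).elim
      obtain ⟨a, c, hac⟩ := hab
      have h2 := mem_bot.1 (h1 (mem_top a))
      exact hac (by rw [h2, one_mul, mul_one])
    exact b.support_nonempty
  obtain ⟨C, hht, hneg, hsr, hsimp, hpr, hc⟩ := H281X1.stmtX1 ι _ _ P b hne (by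
      intro p ⟨i, hi, hpi⟩ hst j hj
      exact hB (fun k => p k.1) ⟨⟨i, hi⟩, hpi⟩
        (fun i j hi hij => hst i.1 j.1 i.2 j.2 hi hij) ⟨j, hj⟩)
  have hTS := ts_of_twChev hx hht hneg hsr hc
  have hneg' : C.neg = fun i => P.reflectionPerm i i := funext hneg
  -- coordinates
  have hex : ∀ j : ι, ∃ c : Fin n → ℤ, P.root j = ∑ k, c k • P.root (e k) := by
    intro j
    obtain ⟨g, -, -, hg⟩ := b.exists_root_eq_sum_int j
    refine ⟨fun k => g (e k), ?_⟩
    rw [hg, hb, Finset.sum_map]
  choose co hco using hex
  have hind : ∀ c d : Fin n → ℤ, ∑ k, c k • P.root (e k) = ∑ k, d k • P.root (e k) → c = d := by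
    intro c d hcd
    have hli : LinearIndependent ℚ (fun k : Fin n => P.root (e k)) := by
      have h1 := b.linearIndepOn_root
      have h2 : LinearIndependent ℚ (fun i : b.support => P.root i) := h1
      exact h2.comp f hf.injective
    have h3 : ∑ k, ((c k : ℚ) - (d k : ℚ)) • P.root (e k) = 0 := by
      simp only [sub_smul, Finset.sum_sub_distrib, Int.cast_smul_eq_zsmul]
      rw [hcd, sub_self]
    funext k
    have h4 := Fintype.linearIndependent_iff.1 hli _ h3 k
    have h5 : (c k : ℚ) = d k := sub_eq_zero.1 h4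
    exact_mod_cast h5
  have hFC : FC A C e co := by
    refine ⟨?_, ?_, ?_, ?_, ?_, ?_, ?_⟩
    · intro i j hij
      apply P.root.injective
      rw [hco i, hco j, hij]
    · intro k
      apply hind
      rw [← hco, Finset.sum_eq_single k]
      · simp
      · intro l _ hl
        simp [hl]
      · simp
    · intro j
      apply hind
      rw [← hco, hneg, RootPairing.root_reflectionPerm, RootPairing.reflection_apply_self, hco j]
      simp [Finset.sum_neg_distrib]
    · intro i j
      apply hind
      rw [← hco, hsr, RootPairing.root_reflectionPerm, RootPairing.reflection_apply_root, hpr,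
        ← P.algebraMap_pairingIn ℤ]
      simp only [Pi.sub_apply, Pi.smul_apply, sub_smul, Finset.sum_sub_distrib]
      rw [← hco, Finset.sum_eq_single i]
      · rw [Pi.single_eq_same, smul_eq_mul, mul_one]
        congr 1
      · intro l _ hl
        rw [Pi.single_eq_of_ne hl, smul_zero, zero_smul]
      · intro hi
        exact absurd (Finset.mem_univ i) hi
    · intro i j
      rw [hpr]
      have h1 : P.pairing j (e i) = ∑ k, (co j k : ℚ) * P.pairing (e k) (e i) := by
        rw [← P.root_coroot'_eq_pairing, hco j, map_sum]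
        refine Finset.sum_congr rfl fun k _ => ?_
        rw [map_zsmul, P.root_coroot'_eq_pairing, zsmul_eq_mul]
      have h2 : ((P.pairingIn ℤ j (e i) : ℤ) : ℚ) = ((∑ k, co j k * A k i : ℤ) : ℚ) := by
        rw [show ((P.pairingIn ℤ j (e i) : ℤ) : ℚ) = P.pairing j (e i) from
          P.algebraMap_pairingIn ℤ j (e i), h1]
        push_cast
        refine Finset.sum_congr rfl fun k _ => ?_
        rw [← he k i]
        congr 1
        exact (P.algebraMap_pairingIn ℤ (e k) (e i)).symm
      exact_mod_cast h2
    · intro j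
      rw [hht]
      have h1 : P.root j = ∑ i ∈ b.support, (Function.extend e (co j) 0) i • P.root i := by
        rw [hb, Finset.sum_map, hco j]
        refine Finset.sum_congr rfl fun k _ => ?_
        rw [e.injective.extend_apply]
      rw [RootPairing.Base.height_eq_sum h1, hb, Finset.sum_map]
      refine Finset.sum_congr rfl fun k _ => ?_
      rw [e.injective.extend_apply]
    · intro i j k hk
      obtain ⟨m, n, hm, hn, h1⟩ := (hc i j k).1 hk
      refine ⟨m, n, hm, hn, ?_⟩
      apply hind
      rw [← hco, h1, hco i, hco j]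
      simp only [Pi.add_apply, Pi.smul_apply, add_smul, Finset.sum_add_distrib, Finset.smul_sum]
      congr 1
      · exact Finset.sum_congr rfl fun l _ => (smul_assoc m (co i l) _).symm
      · exact Finset.sum_congr rfl fun l _ => (smul_assoc n (co j l) _).symm
  refine ⟨ι, hι, C, e, K₀, K, x, co, ⟨hTS, e.injective, ?_, ?_, hcard, fun i j hij => (hK i j hij).1,
    fun i j hij => (hK i j hij).2, ?_, ?_⟩, hFC⟩
  · intro i
    rw [hsimp, hb, Finset.mem_map]
    constructor
    · rintro ⟨k, -, rfl⟩
      exact ⟨k, rfl⟩
    · rintro ⟨k, rfl⟩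
      exact ⟨k, Finset.mem_univ k, rfl⟩
  · intro i j
    rw [hpr]
    exact he i j
  · intro i j hij hji
    have h1 : P.pairing (e i) (e j) = -1 := by
      rw [← P.algebraMap_pairingIn ℤ, he, hij]
      simp
    have h2 : P.pairing (e j) (e i) = -1 := by
      rw [← P.algebraMap_pairingIn ℤ, he, hji]
      simp
    have h3 : P.reflectionPerm (e i) (P.reflectionPerm (e j) (e i)) = e j := by
      apply P.root.injective
      rw [RootPairing.root_reflectionPerm, RootPairing.root_reflectionPerm,
        RootPairing.reflection_apply_root, h1, map_sub, map_smul,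
        RootPairing.reflection_apply_self, RootPairing.reflection_apply_root, h2]
      module
    rw [← h3, hx.field, hx.field]
  · intro i j hij t u ht ht0 hu
    have h1 := hrel i j hij t u ht ht0 hu
    rw [hh, hneg']
    exact h1

end

end Vale.Agent.P240.R2.N402
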