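import Vale.Agent.P240.R2.N402.LRad

/-!
Double cosets of a parabolic subgroup in a BN-pair.
-/

set_option autoImplicit false

namespace Vale.Agent.P240.R2.N402

open Subgroup Vale.Agent.P240.K Vale.Agent.P240.H195

universe u

theorem stmtDC0 : StmtDC0.{u} := by
  intro L _ B N S h hbr H hBH g
  classical
  have hex : ∃ k, ∃ n ∈ N, Wd B N S k n ∧ ∃ h₁ ∈ H, ∃ h₂ ∈ H, g = h₁ * n * h₂ := by
    obtain ⟨n, hn, a, ha, c, hc, he⟩ := hbr g
    obtain ⟨k, hk⟩ := h.exists_wd hn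
    exact ⟨k, n, hn, hk, a, hBH ha, c, hBH hc, he⟩
  obtain ⟨n, hn, hk, h₁, hh₁, h₂, hh₂, he⟩ := Nat.find_spec hex
  have hmin := fun {j : ℕ} (hj : j < Nat.find hex) => Nat.find_min hex hj
  refine ⟨h₁, hh₁, n, hn, h₂, hh₂, he, ?_, ?_⟩
  · rw [h.pr_iff hbr hn hBH]
    intro s hs hsH
    by_contra hcon
    obtain ⟨j, hj, hw⟩ := h.exch hk hs hcon
    refine hmin (j := j) (by omega) ⟨n * s, mul_mem hn (h.sub s hs), hw, h₁, hh₁, s⁻¹ * h₂,
      mul_mem (inv_mem hsH) hh₂, ?_⟩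
    rw [he]
    group
  · rw [h.pr_iff hbr (inv_mem hn) hBH]
    intro s hs hsH
    by_contra hcon
    obtain ⟨j, hj, hw⟩ := h.exch (h.wd_inv hk) hs hcon
    have hw' := h.wd_inv hw
    have e1 : (n⁻¹ * s)⁻¹ = s⁻¹ * n := by group
    rw [e1] at hw'
    refine hmin (j := j) (by omega) ⟨s⁻¹ * n, mul_mem (inv_mem (h.sub s hs)) hn, hw', h₁ * s,
      mul_mem hh₁ hsH, h₂, hh₂, ?_⟩
    rw [he]
    group

section
variable {L : Type u} [Group L] {B N : Subgroup L} {S : Set L}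

/-- exchange, second form, for words in `N ∩ H` -/
lemma exch2' (h : BN0 B N S) {H : Subgroup L} {k : ℕ} {x m s : L}
    (hx : Wd B (N ⊓ H : Subgroup L) (S ∩ H) k x) (hm : m ∈ N) (hs : s ∈ S) (hr : RG B m s) :
    ¬ RG B (x * m) s → ∃ y ∈ N, y ∈ H ∧ (y * (m * s))⁻¹ * (x * m) ∈ B := by
  induction hx with
  | @zero t h1 h2 => exact fun hr' => absurd (BN0.rg_left hr h1) hr'
  | @succ t y k ht hy ih =>
    intro hr'
    have htN := h.sub t ht.1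
    have hyN : y ∈ N ⊓ H := by
      clear hr' ih
      induction hy with
      | zero _ h2 => exact h2
      | succ hs' _ ih => exact mul_mem ⟨h.sub _ hs'.1, hs'.2⟩ ih
    by_cases hr'' : RG B (y * m) s
    · have h1 := h.rg_step (mul_mem hyN.1 hm) hs ht.1 hr'' (by rwa [← mul_assoc])
      refine ⟨y, hyN.1, hyN.2, ?_⟩
      have h2 := inv_mem h1
      have : ((t * (y * m))⁻¹ * (y * m * s))⁻¹ = (y * (m * s))⁻¹ * (t * y * m) := by group
      rwa [this] at h2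
    · obtain ⟨z, hzN, hz, hzy⟩ := ih hr''
      refine ⟨t * z, mul_mem htN hzN, mul_mem ht.2 hz, ?_⟩
      have : (t * z * (m * s))⁻¹ * (t * y * m) = (z * (m * s))⁻¹ * (y * m) := by group
      rwa [this]

lemma wd_mul (h : BN0 B N S) {i j : ℕ} {x y : L} (hx : Wd B N S i x) (hy : Wd B N S j y) :
    Wd B N S (i + j) (x * y) := by
  induction hx with
  | @zero t h1 h2 =>
    rw [zero_add]
    exact h.wd_left hy t h1 h2
  | @succ t x k ht _ ih =>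
    rw [mul_assoc, add_right_comm]
    exact Wd.succ ht ih

lemma wd_sub {H : Subgroup L} {k : ℕ} {x : L} (hx : Wd B (N ⊓ H : Subgroup L) (S ∩ H) k x) :
    Wd B N S k x := by
  induction hx with
  | zero h1 h2 => exact Wd.zero h1 h2.1
  | succ ht _ ih => exact Wd.succ ht.1 ih

lemma len_inv (h : BN0 B N S) {k : ℕ} {n : L} (hn : h.Len k n) : h.Len k n⁻¹ := by
  refine ⟨h.wd_inv hn.1, fun j hj hw => hn.2 j hj ?_⟩
  have := h.wd_inv hw
  rwa [inv_inv] at this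

/-- lengths add -/
lemma len_add (h : BN0 B N S) {H : Subgroup L} (hBH : B ≤ H) {A : ℕ} {n : L} (hn : h.Len A n)
    (hp : Pr B n H) : ∀ (k : ℕ) (y : L), (h.sub_bn hBH).Len k y → h.Len (A + k) (n * y) := by
  intro k
  induction k with
  | zero =>
    intro y hy
    have hnN := h.wd_mem hn.1
    have hyB : y ∈ B ∧ y ∈ N := by
      cases hy.1 with
      | zero h1 h2 => exact ⟨h1, h2.1⟩
    refine h.len_congr hn (mul_mem hnN hyB.2) ?_
    rw [inv_mul_cancel_left]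
    exact hyB.1
  | succ k ih =>
    intro y hy
    have hnN := h.wd_mem hn.1
    have hyN := (h.sub_bn hBH).wd_mem hy.1
    have hyB : y ∉ B := fun hcon => hy.2 0 (Nat.succ_pos k) (Wd.zero hcon hyN)
    obtain ⟨s, hs, m, hm, -, hr, hms⟩ := (h.sub_bn hBH).exists_desc_len hy hyB
    rw [Nat.add_sub_cancel] at hm
    have hmN := (h.sub_bn hBH).wd_mem hm.1
    have h1 := ih m hm
    have h2 := h.rg_mul_of_pr hnN hmN.1 hmN.2 hs.1 hs.2 hBH hp hr
    have h3 := h.len_mul h1 hs.1 h2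
    refine h.len_congr h3 (mul_mem hnN hyN.1) ?_
    have e : (n * m * s)⁻¹ * (n * y) = (m * s)⁻¹ * y := by group
    rw [e]
    exact hms

end

theorem stmtDC1 : StmtDC1.{u} := by
  intro L _ B N S h hbr H hBH n hn hp hp' z hz hzH z' hz' hzH' hd s hs hsH hr
  have hsN := h.sub s hs
  have h1 := h.inj (mul_mem hz hn) (mul_mem hn hz') hd
  -- `¬ RG B (n⁻¹ z⁻¹) s`
  have h2 : ¬ RG B (n⁻¹ * z⁻¹) s := by
    intro h3
    have h4 : RG B (z⁻¹ * s) s := (h.rg_or (inv_mem hz) hs).resolve_left hr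
    have h5 := h.rg_mul_of_pr (inv_mem hn) (mul_mem (inv_mem hz) hsN)
      (mul_mem (inv_mem hzH) hsH) hs hsH hBH hp' h4
    rw [← mul_assoc] at h5
    exact h.not_both (mul_mem (inv_mem hn) (inv_mem hz)) hs h3 h5
  have h3 : ¬ RG B (z'⁻¹ * n⁻¹) s := by
    intro h4
    apply h2
    have h5 := BN0.rg_left h4 h1
    have e : (z * n)⁻¹ * (n * z') * (z'⁻¹ * n⁻¹) = n⁻¹ * z⁻¹ := by group
    rwa [e] at h5
  have hzi : z'⁻¹ ∈ N ⊓ H := mem_inf.2 ⟨inv_mem hz', inv_mem hzH'⟩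
  obtain ⟨k, hk⟩ := (h.sub_bn hBH).exists_wd hzi
  have h4 := h.rg_of_pr hBH (inv_mem hn) hs hsH hp'
  obtain ⟨y, hyN, hy, hβ⟩ := exch2' h hk (inv_mem hn) hs h4 h3
  obtain ⟨β, hβe⟩ : ∃ β, β = (y * (n⁻¹ * s))⁻¹ * (z'⁻¹ * n⁻¹) := ⟨_, rfl⟩
  rw [← hβe] at hβ
  have hβN : β ∈ N := by
    rw [hβe]
    exact mul_mem (inv_mem (mul_mem hyN (mul_mem (inv_mem hn) hsN)))
      (mul_mem (inv_mem hz') (inv_mem hn))
  have h6 : n⁻¹ * β⁻¹ * n ∈ B := by
    have := h.norm n⁻¹ (inv_mem hn) β⁻¹ (inv_mem hβ) (inv_mem hβN)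
    rwa [inv_inv] at this
  have e1 : n⁻¹ * s * n = y⁻¹ * z'⁻¹ * (n⁻¹ * β⁻¹ * n) := by rw [hβe]; group
  rw [e1]
  exact mul_mem (mul_mem (inv_mem hy) (inv_mem hzH')) (hBH h6)

theorem stmtDC2 : StmtDC2.{u} := by
  intro L _ _ r _ B N U S h hbr H hBH w hw n hn hp hp' hJ s₀ hs₀ hr₀ hgen v hvU hv
  obtain ⟨P, hP⟩ : ∃ P, P = H ⊔ zpowers s₀ := ⟨_, rfl⟩
  have hHP : H ≤ P := by rw [hP]; exact le_sup_left
  have hBP : B ≤ P := hBH.trans hHP
  have hwN : w ∈ N := hw.1.1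
  have hwH : w ∈ H := hw.1.2
  obtain ⟨A, hA⟩ := h.exists_len hn
  obtain ⟨b, hb⟩ := (h.toBN0.sub_bn hBH).exists_len hw.1
  have hlen := len_inv h.toBN0 (len_add h.toBN0 hBH hA hp b w hb)
  have hbw := (h.toBN0.sub_bn hBH).long_inv hw
  have hbinv := len_inv (h.toBN0.sub_bn hBH) hb
  have h1 : ∀ s ∈ S, s ∈ P → ¬ RG B (n * w)⁻¹ s := by
    intro s hs hsP hr
    have h2 := h.len_mul hlen hs hr
    rw [hP] at hsP
    rcases hgen s hs hsP with hsH | rfl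
    · have hz := hJ s hs hsH
      have hzN : n⁻¹ * s * n ∈ N := mul_mem (mul_mem (inv_mem hn) (h.sub s hs)) hn
      have hy : w⁻¹ * (n⁻¹ * s * n) ∈ N ⊓ H :=
        mem_inf.2 ⟨mul_mem (inv_mem hwN) hzN, mul_mem (inv_mem hwH) hz⟩
      obtain ⟨c, hc⟩ := (h.toBN0.sub_bn hBH).exists_len hy
      obtain ⟨j, hj, -⟩ := (h.toBN0.sub_bn hBH).suffix hbw hbinv c _ hc
      have h3 := wd_mul h.toBN0 (wd_sub hc.1) (h.wd_inv hA.1)
      have e : w⁻¹ * (n⁻¹ * s * n) * n⁻¹ = (n * w)⁻¹ * s := by group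
      rw [e] at h3
      exact h2.2 _ (by omega) h3
    · obtain ⟨j, hj, h3⟩ := h.exch (h.wd_inv hA.1) hs₀ hr₀
      have h4 := wd_mul h.toBN0 (wd_sub hbinv.1) h3
      have e : w⁻¹ * (n⁻¹ * s) = (n * w)⁻¹ * s := by group
      rw [e] at h4
      exact h2.2 _ (by omega) h4
  have haN : (n * w)⁻¹ ∈ N := inv_mem (mul_mem hn hwN)
  obtain ⟨y, hyN, hyP, hpy⟩ := h.exists_pr_N hbr haN hBP
  have hlong : (h.toBN0.sub_bn hBP).Long y⁻¹ := by
    refine ⟨mem_inf.2 ⟨inv_mem hyN, inv_mem hyP⟩, fun s hs hr => h1 s hs.1 hs.2 ?_⟩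
    have h2 := h.rg_mul_of_pr (mul_mem haN hyN) (inv_mem hyN) (inv_mem hyP) hs.1 hs.2 hBP hpy hr
    rwa [mul_inv_cancel_right] at h2
  have hlong' := (h.toBN0.sub_bn hBP).long_inv hlong
  rw [inv_inv] at hlong'
  have hr : r.Prime := Fact.out
  have hyB : y⁻¹ * v * y ∈ B := by
    have h2 := hpy _ (h.le hv) (by
      have e : ((n * w)⁻¹ * y)⁻¹ * ((n * w)⁻¹ * v * (n * w)) * ((n * w)⁻¹ * y) = y⁻¹ * v * y := by
        group
      rw [e]
      exact mul_mem (mul_mem (inv_mem hyP) (hBP (h.le hvU))) hyP)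
    have e : ((n * w)⁻¹ * y)⁻¹ * ((n * w)⁻¹ * v * (n * w)) * ((n * w)⁻¹ * y) = y⁻¹ * v * y := by
      group
    rwa [e] at h2
  have hyU := h.conj_U' hr hvU hyB
  rw [← hP]
  exact stmtLongRad L r B N U S h P hBP y hlong' v hvU hyU

end Vale.Agent.P240.R2.N402
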