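import Vale.Agent.P240.R2.N402.Co

/-!
The root system of type `F₄` in coordinates.
-/

set_option autoImplicit false

namespace Vale.Agent.P240.R2.N402

open Subgroup Vale.Agent.P240.K Vale.Agent.P240.H195 CartanMatrix
open Vale.Agent.P240.R2.H165.XC Vale.Agent.P240.R2.H945 Vale.Agent.P240.R2.H945.W
open Vale.Agent.P240.R2.H986.X (RC nn nl wl SS wl_nil wl_cons wl_append wl_neg)

universe u v

/-- coordinate vectors -/
abbrev V4 := ℤ × ℤ × ℤ × ℤ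

/-- the simple reflections -/
def rf : Fin 4 → V4 → V4
  | 0, (a, b, c, d) => (b - a, b, c, d)
  | 1, (a, b, c, d) => (a, a - b + c, c, d)
  | 2, (a, b, c, d) => (a, b, 2 * b - c + d, d)
  | 3, (a, b, c, d) => (a, b, c, c - d)

/-- the numbers `⟨v, a_i^∨⟩` -/
def pv : Fin 4 → V4 → ℤ
  | 0, (a, b, _, _) => 2 * a - b
  | 1, (a, b, c, _) => - a + 2 * b - c
  | 2, (_, b, c, d) => - 2 * b + 2 * c - d
  | 3, (_, _, c, d) => - c + 2 * d

/-- words -/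
def wf (l : List (Fin 4)) (v : V4) : V4 := l.foldr rf v

/-- height -/
def hv : V4 → ℤ
  | (a, b, c, d) => a + b + c + d

/-- simple roots -/
def sv : Fin 4 → V4
  | 0 => (1, 0, 0, 0)
  | 1 => (0, 1, 0, 0)
  | 2 => (0, 0, 1, 0)
  | 3 => (0, 0, 0, 1)

/-- the roots -/
def RL : List V4 :=
  [(2, 3, 4, 2), (1, 3, 4, 2), (1, 2, 4, 2), (1, 2, 3, 2), (1, 2, 2, 2), (1, 2, 3, 1), (1, 1, 2, 2),
    (1, 2, 2, 1), (0, 1, 2, 2), (1, 1, 2, 1), (1, 2, 2, 0), (0, 1, 2, 1), (1, 1, 1, 1), (1, 1, 2, 0),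
    (0, 1, 1, 1), (0, 1, 2, 0), (1, 1, 1, 0), (0, 0, 1, 1), (0, 1, 1, 0), (1, 1, 0, 0), (0, 0, 0, 1),
    (0, 0, 1, 0), (0, 1, 0, 0), (1, 0, 0, 0), (-1, 0, 0, 0), (0, -1, 0, 0), (0, 0, -1, 0),
    (0, 0, 0, -1), (-1, -1, 0, 0), (0, -1, -1, 0), (0, 0, -1, -1), (-1, -1, -1, 0), (0, -1, -2, 0),
    (0, -1, -1, -1), (-1, -1, -2, 0), (-1, -1, -1, -1), (0, -1, -2, -1), (-1, -2, -2, 0),
    (-1, -1, -2, -1), (0, -1, -2, -2), (-1, -2, -2, -1), (-1, -1, -2, -2), (-1, -2, -3, -1),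
    (-1, -2, -2, -2), (-1, -2, -3, -2), (-1, -2, -4, -2), (-1, -3, -4, -2), (-2, -3, -4, -2)]

/-- the long roots -/
def LL : List V4 :=
  [(2, 3, 4, 2), (1, 3, 4, 2), (1, 2, 4, 2), (1, 2, 2, 2), (1, 1, 2, 2), (0, 1, 2, 2), (1, 2, 2, 0),
    (1, 1, 2, 0), (0, 1, 2, 0), (1, 1, 0, 0), (0, 1, 0, 0), (1, 0, 0, 0), (-1, 0, 0, 0),
    (0, -1, 0, 0), (-1, -1, 0, 0), (0, -1, -2, 0), (-1, -1, -2, 0), (-1, -2, -2, 0), (0, -1, -2, -2),
    (-1, -1, -2, -2), (-1, -2, -2, -2), (-1, -2, -4, -2), (-1, -3, -4, -2), (-2, -3, -4, -2)]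

/-- coordinates -/
def cv {ι : Type*} (co : ι → Fin 4 → ℤ) (j : ι) : V4 := (co j 0, co j 1, co j 2, co j 3)

theorem RL_rf : ∀ v ∈ RL, ∀ i : Fin 4, rf i v ∈ RL := by decide +kernel

theorem sv_RL : ∀ k : Fin 4, sv k ∈ RL := by decide +kernel

theorem LL_rf : ∀ v ∈ LL, ∀ i : Fin 4, rf i v ∈ LL := by decide +kernel

namespace FC
variable {ι : Type*} {C : RC ι} {e : Fin 4 → ι} {co : ι → Fin 4 → ℤ} (h : FC F₄ C e co)
include h

lemma cv_inj {i j : ι} (hij : cv co i = cv co j) : i = j := by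
  apply h.inj
  simp only [cv, Prod.mk.injEq] at hij
  funext k
  fin_cases k
  exacts [hij.1, hij.2.1, hij.2.2.1, hij.2.2.2]

lemma cv_simp (k : Fin 4) : cv co (e k) = sv k := by
  rw [cv, h.simp]
  fin_cases k <;> rfl

lemma cv_neg (j : ι) : cv co (C.neg j) = - cv co j := by
  rw [cv, h.neg]
  rfl

lemma pr_cv (i : Fin 4) (j : ι) : C.pr j (e i) = pv i (cv co j) := by
  rw [h.pr, Fin.sum_univ_four]
  fin_cases i
  all_goals
    simp [pv, cv, F₄]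
    try ring

lemma cv_s (i : Fin 4) (j : ι) : cv co (C.s (e i) j) = rf i (cv co j) := by
  have h1 := h.s i j
  rw [h.pr_cv] at h1
  rw [cv, h1, cv]
  fin_cases i
  all_goals
    simp [rf, pv, Prod.ext_iff]
    try ring

lemma cv_wl (l : List (Fin 4)) (j : ι) : cv co (wl C (l.map e) j) = wf l (cv co j) := by
  induction l with
  | nil => rfl
  | cons i l ih => rw [List.map_cons, wl_cons, h.cv_s, ih]; rfl

lemma ht_cv (j : ι) : C.ht j = hv (cv co j) := by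
  rw [h.ht, Fin.sum_univ_four]
  rfl

lemma mem_RL (hs : ∀ i, C.simp i → ∃ k, i = e k) (j : ι) : cv co j ∈ RL := by
  refine C.gen (fun j => cv co j ∈ RL) ?_ ?_ j
  · intro i hi
    obtain ⟨k, rfl⟩ := hs i hi
    change cv co (e k) ∈ RL
    rw [h.cv_simp]
    exact sv_RL k
  · intro i j hi hj
    obtain ⟨k, rfl⟩ := hs i hi
    change cv co (C.s (e k) j) ∈ RL
    rw [h.cv_s]
    exact RL_rf _ hj k

omit h in
lemma wl_LL (l : List (Fin 4)) {v : V4} (hv' : v ∈ LL) : wf l v ∈ LL := by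
  induction l with
  | nil => exact hv'
  | cons i l ih => exact LL_rf _ ih i

lemma cone_cv {i j k : ι} (hc : C.cone i j k) : ∃ m n : ℤ, 0 < m ∧ 0 < n ∧
    cv co k = (m * (cv co i).1 + n * (cv co j).1, m * (cv co i).2.1 + n * (cv co j).2.1,
      m * (cv co i).2.2.1 + n * (cv co j).2.2.1, m * (cv co i).2.2.2 + n * (cv co j).2.2.2) := by
  obtain ⟨m, n, hm, hn, h1⟩ := h.cone i j k hc
  refine ⟨m, n, by exact_mod_cast hm, by exact_mod_cast hn, ?_⟩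
  rw [cv, h1]
  simp [cv]

end FC

/-- for a long root `γ ≠ -θ` there is a word that maps `θ` and `γ` to positive roots -/
theorem both_pos : ∀ v ∈ LL, v ≠ (-2, -3, -4, -2) → ∃ l ∈ ([[], [0], [1], [1, 0], [1, 2], [1, 2, 0],
    [1, 2, 0, 1], [1, 2, 3], [1, 2, 3, 0], [1, 2, 3, 0, 1], [1, 2, 3, 0, 1, 2],
    [1, 2, 3, 0, 1, 2, 1]] : List (List (Fin 4))), 0 < hv (wf l (2, 3, 4, 2)) ∧ 0 < hv (wf l v) := by
  decide +kernel

end Vale.Agent.P240.R2.N402
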