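import Vale.Agent.P240.R2.N402.SkB

/-!
Radicals of parabolic subgroups: the intersection `U ∩ wUw⁻¹`, `w` longest.
-/

set_option autoImplicit false

namespace Vale.Agent.P240.R2.N402

open Subgroup Vale.Agent.P240.K Vale.Agent.P240.H195

universe u

theorem stmtLongRad : StmtLongRad.{u} := by
  intro L _ _ r _ B N U S h H hBH w hw v hvU hwvU y hy
  have hr : r.Prime := Fact.out
  have h' := h.toBN0.sub_bn hBH
  have hw' := (h.toBN0.sub_bn hBH).long_inv hw
  have hwN : w ∈ N := hw.1.1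
  have hwH : w ∈ H := hw.1.2
  have hcv0 := hwvU
  let Vs : Set L := {z | ∃ b ∈ B, b⁻¹ * z * b ∈ U ∧ w⁻¹ * (b⁻¹ * z * b) * w ∈ U}
  have hVU : ∀ z ∈ Vs, z ∈ U := by
    rintro z ⟨b, hb, h1, -⟩
    have := h.normal b hb _ h1
    have e : b * (b⁻¹ * z * b) * b⁻¹ = z := by group
    rwa [e] at this
  -- conjugation by `B`
  have hconjB : ∀ c ∈ B, ∀ z ∈ Vs, c * z * c⁻¹ ∈ Vs := by
    rintro c hc z ⟨b, hb, h1, h2⟩
    have e : (c * b)⁻¹ * (c * z * c⁻¹) * (c * b) = b⁻¹ * z * b := by group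
    exact ⟨c * b, mul_mem hc hb, by rwa [e], by rwa [e]⟩
  have hconjS : ∀ t ∈ S ∩ (H : Set L), ∀ z ∈ Vs, t⁻¹ * z * t ∈ Vs := by
    rintro t ht z ⟨b, hb, h1, h2⟩
    have htN := h.sub t ht.1
    obtain ⟨u, hu, τ, hτB, hτN, rfl⟩ := h.split b hb
    obtain ⟨v, hv⟩ : ∃ v, v = u⁻¹ * z * u := ⟨_, rfl⟩
    have ez : z = u * v * u⁻¹ := by rw [hv]; group
    have e1 : (u * τ)⁻¹ * z * (u * τ) = τ⁻¹ * v * τ := by rw [hv]; group
    rw [e1] at h1 h2
    have hvU : v ∈ U := by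
      have := h.normal τ hτB _ h1
      have e : τ * (τ⁻¹ * v * τ) * τ⁻¹ = v := by group
      rwa [e] at this
    have hwvU : w⁻¹ * v * w ∈ U := by
      have := h.normal _ (h.norm' hwN hτB hτN) _ h2
      have e : w⁻¹ * τ * w * (w⁻¹ * (τ⁻¹ * v * τ) * w) * (w⁻¹ * τ * w)⁻¹ = w⁻¹ * v * w := by group
      rwa [e] at this
    have hcv := h.conv hr hBH hw ht hvU hwvU
    have hvK : v ∈ Kg U t := by
      refine mem_Kg.2 ⟨hvU, ?_⟩
      have := h.normal _ (h.sq t ht.1) _ hcv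
      have e : t * t * (t⁻¹ * v * t) * (t * t)⁻¹ = t * v * t⁻¹ := by group
      rwa [e] at this
    have hzK : z ∈ Kg U t := by
      rw [ez]
      exact h.Kg_conj ht.1 (le_Par (h.le hu)) hvK
    have hzU : t⁻¹ * z * t ∈ U := (h.Kg_conj' ht.1 self_mem_Par hzK).1
    set w₁ := t⁻¹ * w with hw₁
    have hw₁N : w₁ ∈ N := mul_mem (inv_mem htN) hwN
    have e0 : w₁⁻¹ = w⁻¹ * t := by rw [hw₁]; group
    have e00 : t * w₁ = w := by rw [hw₁]; group
    by_cases hut : t⁻¹ * u * t ∈ B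
    · have hutU := h.conj_U' hr hu hut
      obtain ⟨s', hs', hβ⟩ := (h.toBN0.sub_bn hBH).long_conj hw ht
      have hs'N := h.sub s' hs'.1
      have h3 : w⁻¹ * v * w ∈ U := hwvU
      have h4 : s'⁻¹ * (w⁻¹ * v * w) * s' ∈ U := by
        refine h.conv hr hBH hw' hs' h3 ?_
        have e : w⁻¹⁻¹ * (w⁻¹ * v * w) * w⁻¹ = v := by group
        rwa [e]
      have h5 := h.normal _ hβ _ h4
      have e5 : (t * w)⁻¹ * (w * s') * (s'⁻¹ * (w⁻¹ * v * w) * s') *
          ((t * w)⁻¹ * (w * s'))⁻¹ = w⁻¹ * (t⁻¹ * v * t) * w := by group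
      rw [e5] at h5
      refine ⟨t⁻¹ * u * t, hut, ?_, ?_⟩
      · have e : (t⁻¹ * u * t)⁻¹ * (t⁻¹ * z * t) * (t⁻¹ * u * t) = t⁻¹ * v * t := by
          rw [hv]; group
        rw [e]
        exact hcv
      · have e : (t⁻¹ * u * t)⁻¹ * (t⁻¹ * z * t) * (t⁻¹ * u * t) = t⁻¹ * v * t := by
          rw [hv]; group
        rw [e]
        exact h5
    · have h6 : t⁻¹ * u * t ∈ Par B t :=
        mul_mem (mul_mem (inv_mem self_mem_Par) (le_Par (h.le hu))) self_mem_Par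
      obtain ⟨c, hc, d, hd, hcd⟩ := ((h.mem_Par ht.1).1 h6).resolve_left hut
      have h1' : RG B (w⁻¹ * t) t := (h.rg_or (inv_mem hwN) ht.1).resolve_left (hw'.2 t ht)
      have h7 : DC B w (t * d * w₁) := by
        have := h.rg_inv ht.1 (n := w₁) (by rw [e0]; exact h1') hd
        rwa [e00] at this
      obtain ⟨b₃, hb₃, b₄, hb₄, hb⟩ := h7.left hc
      have e8 : t⁻¹ * u * w = b₃ * w * b₄ := by
        rw [← hb]
        have : t⁻¹ * u * w = (t⁻¹ * u * t) * w₁ := by rw [hw₁]; group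
        rw [this, hcd]
        group
      refine ⟨b₃, hb₃, h.norm_U' hb₃ hzU, ?_⟩
      have e9 : w⁻¹ * (b₃⁻¹ * (t⁻¹ * z * t) * b₃) * w =
          b₄ * (w⁻¹ * v * w) * b₄⁻¹ := by
        have e10 : b₃ * w = t⁻¹ * u * w * b₄⁻¹ := by rw [e8]; group
        calc w⁻¹ * (b₃⁻¹ * (t⁻¹ * z * t) * b₃) * w
            = (b₃ * w)⁻¹ * (t⁻¹ * z * t) * (b₃ * w) := by group
          _ = (t⁻¹ * u * w * b₄⁻¹)⁻¹ * (t⁻¹ * z * t) * (t⁻¹ * u * w * b₄⁻¹) := by rw [e10]
          _ = _ := by rw [hv]; group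
      rw [e9]
      exact h.normal b₄ hb₄ _ hwvU
  have key : ∀ g ∈ H, ∀ z ∈ Vs, g⁻¹ * z * g ∈ Vs := by
    intro g hg
    rw [← h.toBN0.closure_eq_of h.bruhat hBH] at hg
    induction hg using Subgroup.closure_induction with
    | one => intro z hz; rwa [inv_one, one_mul, mul_one]
    | mem x hx =>
      intro z hz
      rcases hx with hx | hx
      · have := hconjB x⁻¹ (inv_mem hx) z hz
        rwa [inv_inv] at this
      · exact hconjS x hx z hz
    | mul x y _ _ hx hy =>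
      intro z hz
      have := hy _ (hx z hz)
      have e : y⁻¹ * (x⁻¹ * z * x) * y = (x * y)⁻¹ * z * (x * y) := by group
      rwa [e] at this
    | inv x hx' hx =>
      -- use finiteness
      intro z hz
      have h1 : ∀ n : ℕ, (x ^ n)⁻¹ * z * x ^ n ∈ Vs := by
        intro n
        induction n with
        | zero => simpa using hz
        | succ n ih =>
          have := hx _ ih
          have e : x⁻¹ * ((x ^ n)⁻¹ * z * x ^ n) * x = (x ^ (n + 1))⁻¹ * z * x ^ (n + 1) := by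
            rw [pow_succ]; group
          rwa [e] at this
      have h2 := h1 (orderOf x - 1)
      have h3 : x ^ (orderOf x - 1) = x⁻¹ := by
        rw [eq_comm, inv_eq_iff_mul_eq_one, ← pow_succ', Nat.sub_add_cancel (orderOf_pos x),
          pow_orderOf_eq_one]
      rw [h3] at h2
      exact h2
  exact hVU _ (key y hy v ⟨1, one_mem _, by simpa using hvU, by simpa using hwvU⟩)

end Vale.Agent.P240.R2.N402
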