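import Mathlib

/-!
A prime divisor of `q² - q + 1`.
-/

set_option autoImplicit false

namespace Vale.Agent.P240.R2.N402

/-- the properties of the prime `l` -/
structure Nm (q l : ℕ) : Prop where
  prime : l.Prime
  two : l ≠ 2
  nq : ¬ l ∣ q
  sub : ¬ l ∣ q ^ 2 - 1
  add : ¬ l ∣ q ^ 2 + 1
  pts : l ∣ 1 + (q ^ 2 + q ^ 2 * q ^ 2)
  nine : l ∣ q ^ 9 + 1
  sm : ¬ l ∣ 1 + (q + q * q)
  val : ∀ A A' A'' : ℕ, A = 1 ∨ A = q ^ 2 → A' = 1 ∨ A' = q ^ 2 → A'' = 1 ∨ A'' = q ^ 2 →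
    l ∣ 1 + (A + A' * A'') → A = q ^ 2 ∧ A' = q ^ 2 ∧ A'' = q ^ 2

theorem exists_nm {q : ℕ} (hq : 3 ≤ q) : ∃ l, Nm q l := by
  obtain ⟨p, rfl⟩ : ∃ p, q = p + 3 := ⟨q - 3, by omega⟩
  -- `q² - q + 1 = (p + 3) (p + 2) + 1`
  obtain ⟨M, hM⟩ : ∃ M, M = (p + 3) * (p + 2) + 1 := ⟨_, rfl⟩
  have h9 : ¬ 9 ∣ M := by
    intro h
    have h1 : M % 9 = 0 := Nat.mod_eq_zero_of_dvd h
    rw [hM] at h1
    have h2 : p % 9 < 9 := Nat.mod_lt _ (by norm_num)
    have h3 : ((p + 3) * (p + 2) + 1) % 9 = ((p % 9 + 3) * (p % 9 + 2) + 1) % 9 := by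
      simp [Nat.add_mod, Nat.mul_mod]
    rw [h3] at h1
    interval_cases p % 9 <;> omega
  have hl : ∃ l, l.Prime ∧ l ∣ M ∧ l ≠ 3 := by
    by_contra hcon
    push Not at hcon
    have h1 : M = 3 ^ M.primeFactorsList.length :=
      Nat.eq_prime_pow_of_unique_prime_dvd (by omega) fun {d} hd hdM => hcon d hd hdM
    rcases Nat.lt_or_ge M.primeFactorsList.length 2 with h2 | h2
    · interval_cases hk : M.primeFactorsList.length
      · rw [h1] at hM
        have : 6 ≤ (p + 3) * (p + 2) := Nat.mul_le_mul (by omega : 3 ≤ p + 3) (by omega : 2 ≤ p + 2)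
        omega
      · rw [h1] at hM
        have : 6 ≤ (p + 3) * (p + 2) := Nat.mul_le_mul (by omega : 3 ≤ p + 3) (by omega : 2 ≤ p + 2)
        omega
    · apply h9
      rw [h1]
      exact pow_dvd_pow 3 h2
  obtain ⟨l, hlp, hlM, hl3⟩ := hl
  have hF : Fact l.Prime := ⟨hlp⟩
  have hodd : M % 2 = 1 := by
    rw [hM]
    have h1 : (p + 3) * (p + 2) % 2 = 0 := by
      rcases Nat.even_or_odd p with h | h
      · exact Nat.even_iff.1 (Even.mul_left (by simpa [Nat.even_add] using h) _)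
      · exact Nat.even_iff.1 (Even.mul_right (by
          rw [Nat.even_add]
          simp only [Nat.not_even_iff_odd.2 h, false_iff]
          decide) _)
    omega
  have h2 : l ≠ 2 := by
    rintro rfl
    omega
  -- in the field `ZMod l`
  obtain ⟨z, hz⟩ : ∃ z : ZMod l, z = ((p + 3 : ℕ) : ZMod l) := ⟨_, rfl⟩
  have hzM : z ^ 2 - z + 1 = 0 := by
    have h1 : ((M : ℕ) : ZMod l) = 0 := (ZMod.natCast_eq_zero_iff _ _).2 hlM
    rw [hM] at h1
    push_cast at h1
    rw [hz]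
    push_cast
    linear_combination h1
  have t3 : (3 : ZMod l) ≠ 0 := by
    intro h1
    have h4 : ((3 : ℕ) : ZMod l) = 0 := by exact_mod_cast h1
    rw [ZMod.natCast_eq_zero_iff] at h4
    exact hl3 ((Nat.prime_dvd_prime_iff_eq hlp Nat.prime_three).1 h4)
  have t2 : (2 : ZMod l) ≠ 0 := by
    intro h1
    have h4 : ((2 : ℕ) : ZMod l) = 0 := by exact_mod_cast h1
    rw [ZMod.natCast_eq_zero_iff] at h4
    exact h2 ((Nat.prime_dvd_prime_iff_eq hlp Nat.prime_two).1 h4)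
  have hz0 : z ≠ 0 := by
    intro h1
    rw [h1] at hzM
    simp at hzM
  have cast : ∀ n : ℕ, l ∣ n ↔ ((n : ℕ) : ZMod l) = 0 := fun n => (ZMod.natCast_eq_zero_iff _ _).symm
  have c1 : ¬ l ∣ (p + 3) ^ 2 - 1 := by
    rw [cast, Nat.cast_sub (Nat.one_le_pow _ _ (by omega)), Nat.cast_pow, ← hz, Nat.cast_one]
    intro h1
    apply t3
    linear_combination (-(z + 1)) * h1 + (z + 2) * hzM
  have v3 : ¬ l ∣ 1 + (1 + 1 * 1) := by
    rw [cast]
    push_cast
    intro h1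
    apply t3
    linear_combination h1
  have vQ2 : ¬ l ∣ 1 + (1 + (p + 3) ^ 2) := by
    rw [cast]
    push_cast
    have hz' : ((p : ZMod l) + 3) = z := by rw [hz]; push_cast; rfl
    rw [hz']
    intro h1
    -- `z² + 2 = 0`, `z² = z - 1`: `z = -1`
    apply t3
    linear_combination (2 - z) * h1 + (z - 1) * hzM
  have v2Q : ¬ l ∣ 1 + ((p + 3) ^ 2 + (p + 3) ^ 2) := by
    rw [cast]
    push_cast
    have hz' : ((p : ZMod l) + 3) = z := by rw [hz]; push_cast; rfl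
    rw [hz']
    intro h1
    apply t3
    have h5 : 2 * z - 1 = 0 := by linear_combination h1 - 2 * hzM
    linear_combination 4 * hzM - (2 * z - 1) * h5
  have vQQ : ¬ l ∣ 1 + (1 + (p + 3) ^ 2 * (p + 3) ^ 2) := by
    rw [cast]
    push_cast
    have hz' : ((p : ZMod l) + 3) = z := by rw [hz]; push_cast; rfl
    rw [hz']
    intro h1
    apply t3
    have h5 : 2 - z = 0 := by linear_combination h1 - (z ^ 2 + z) * hzM
    linear_combination hzM + (z + 1) * h5
  refine ⟨l, hlp, h2, ?_, c1, ?_, ?_, ?_, ?_, ?_⟩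
  · rw [cast, ← hz]
    exact hz0
  · rw [cast, Nat.cast_add, Nat.cast_pow, ← hz, Nat.cast_one]
    intro h1
    apply hz0
    linear_combination h1 - hzM
  · rw [cast]
    push_cast
    have hz' : ((p : ZMod l) + 3) = z := by rw [hz]; push_cast; rfl
    rw [hz']
    linear_combination (z ^ 2 + z + 1) * hzM
  · rw [cast, Nat.cast_add, Nat.cast_pow, ← hz, Nat.cast_one]
    linear_combination ((z + 1) * (z ^ 6 - z ^ 3 + 1)) * hzM
  · rw [cast]
    push_cast
    have hz' : ((p : ZMod l) + 3) = z := by rw [hz]; push_cast; rfl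
    rw [hz']
    intro h1
    have h5 : 2 * z = 0 := by linear_combination h1 - hzM
    rcases mul_eq_zero.1 h5 with h6 | h6
    exacts [t2 h6, hz0 h6]
  · rintro A A' A'' (rfl | rfl) (rfl | rfl) (rfl | rfl) h1
    · exact (v3 h1).elim
    · rw [one_mul] at h1
      exact (vQ2 h1).elim
    · rw [mul_one] at h1
      exact (vQ2 h1).elim
    · exact (vQQ h1).elim
    · rw [mul_one, add_comm _ 1] at h1
      exact (vQ2 h1).elim
    · rw [one_mul] at h1
      exact (v2Q h1).elim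
    · rw [mul_one] at h1
      exact (v2Q h1).elim
    · exact ⟨rfl, rfl, rfl⟩

end Vale.Agent.P240.R2.N402
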