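import Vale.Agent.P240.R2.N402.VU
import Vale.Agent.P240.R2.N402.DCo

/-!
`²E₆(q)`, `q` odd: the parabolic subgroups of type `⟨B, n₂, n₃⟩` that contain `s = vu`.
-/

set_option autoImplicit false

namespace Vale.Agent.P240.R2.N402

open Subgroup Vale.Agent.P240.K Vale.Agent.P240.H195 CartanMatrix
open Vale.Agent.P240.R2.H165.XC Vale.Agent.P240.R2.H945 Vale.Agent.P240.R2.H945.W
open Vale.Agent.P240.R2.H945.W.TS
open Vale.Agent.P240.R2.H986.X (RC nn nl wl SS wl_nil wl_cons wl_append wl_neg nl_nil nl_cons nl_append)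

universe u

/-- commuting elements of coprime orders -/
lemma mem_of_commute {L : Type u} [Group L] {Q : Subgroup L} {a b : L} {m n : ℕ} (hab : a * b = b * a)
    (ha : a ^ m = 1) (hb : b ^ n = 1) (hmn : Nat.Coprime m n) (h : a * b ∈ Q) : a ∈ Q ∧ b ∈ Q := by
  have key : ∀ (a b : L) (m n : ℕ), a * b = b * a → a ^ m = 1 → b ^ n = 1 → Nat.Coprime m n →
      a * b ∈ Q → a ∈ Q := by
    intro a b m n hab ha hb hmn h
    have h1 : (a * b) ^ n = a ^ n := by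
      rw [(show Commute a b from hab).mul_pow, hb, mul_one]
    have h2 : a ^ n ∈ Q := by
      rw [← h1]
      exact pow_mem h n
    have h3 := Nat.gcd_eq_gcd_ab n m
    rw [hmn.symm.gcd_eq_one] at h3
    have h4 : a = (a ^ n) ^ (n.gcdA m) := by
      have h5 : a ^ (1 : ℤ) = a ^ ((n : ℤ) * n.gcdA m + (m : ℤ) * n.gcdB m) := by
        rw [← h3]
        simp
      rw [zpow_one, zpow_add, zpow_mul, zpow_mul, zpow_natCast, zpow_natCast, ha, one_zpow,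
        mul_one] at h5
      exact h5
    rw [h4]
    exact zpow_mem h2 _
  exact ⟨key a b m n hab ha hb hmn h, key b a n m hab.symm hb ha hmn.symm (by rwa [← hab])⟩

namespace PL
variable {L : Type u} [Group L] {B N : Subgroup L} {S : Set L} {a b : L} (h : PL B N S a b)
include h

lemma desc_ab : ¬ RG B (a * b)⁻¹ a := by
  intro h1
  have h2 : RG B (b⁻¹) a := h.bn.rg_congr h.bN (inv_mem h.bN) h.ha (h.bn.inv_mul h.hb) h.rba
  refine h.bn.not_both (inv_mem (mul_mem h.aN h.bN)) h.ha h1 ?_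
  have e : (a * b)⁻¹ * a = b⁻¹ := by group
  rwa [e]

lemma desc_aba : ¬ RG B (a * b * a)⁻¹ a := by
  intro h1
  have h2 : RG B (a⁻¹ * b⁻¹) a := by
    refine h.bn.rg_congr (mul_mem h.aN h.bN) (mul_mem (inv_mem h.aN) (inv_mem h.bN)) h.ha ?_ h.raba
    have e : (a * b)⁻¹ * (a⁻¹ * b⁻¹) = (b⁻¹ * (a⁻¹ * a⁻¹) * b) * (b⁻¹ * b⁻¹) := by group
    rw [e]
    exact mul_mem (h.bn.norm' h.bN (h.bn.inv_mul h.ha) (mul_mem (inv_mem h.aN) (inv_mem h.aN)))
      (h.bn.inv_mul h.hb)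
  refine h.bn.not_both (inv_mem (mul_mem (mul_mem h.aN h.bN) h.aN)) h.ha h1 ?_
  have e : (a * b * a)⁻¹ * a = a⁻¹ * b⁻¹ := by group
  rwa [e]

lemma desc_aba' : ¬ RG B (a * b * a)⁻¹ b := by
  intro h1
  apply h.symm.desc_aba
  have h2 := BN0.rg_left h1 (inv_mem h.br)
  have e : ((a * b * a)⁻¹ * (b * a * b))⁻¹ * (a * b * a)⁻¹ = (b * a * b)⁻¹ := by group
  rwa [e] at h2

/-- the representatives of the elements outside the two parabolics -/
lemma off' {g : L} (hg : NF B a b g) : ∃ z, (z = a * b ∨ z = b * a ∨ z = a * b * a) ∧ DC B z g := by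
  have h1 := hg.2 1 (one_mem _)
  rw [inv_one, one_mul, mul_one] at h1
  rcases h.off hg.1 h1.1 h1.2 with h2 | h2 | h2
  exacts [⟨_, Or.inl rfl, h2⟩, ⟨_, Or.inr (Or.inl rfl), h2⟩, ⟨_, Or.inr (Or.inr rfl), h2⟩]

lemma z_mem {z : L} (hz : z = a * b ∨ z = b * a ∨ z = a * b * a) : z ∈ N ∧ z ∈ HH B a b := by
  rcases hz with rfl | rfl | rfl
  · exact ⟨mul_mem h.aN h.bN, mul_mem a_HH b_HH⟩
  · exact ⟨mul_mem h.bN h.aN, mul_mem b_HH a_HH⟩
  · exact ⟨mul_mem (mul_mem h.aN h.bN) h.aN, mul_mem (mul_mem a_HH b_HH) a_HH⟩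

/-- if `n` maps an element without fixed points to such an element, it normalizes `H` -/
theorem norm_gens (hbr : ∀ x : L, ∃ n ∈ N, DC B n x) {n v : L} (hn : n ∈ N)
    (hp : Pr B n (HH B a b)) (hp' : Pr B n⁻¹ (HH B a b)) (hv : NF B a b v)
    (hv' : NF B a b (n⁻¹ * v * n)) :
    n⁻¹ * a * n ∈ HH B a b ∧ n⁻¹ * b * n ∈ HH B a b := by
  obtain ⟨z, hz, c, hc, d, hd, he⟩ := h.off' hv
  obtain ⟨z', hz', c', hc', d', hd', he'⟩ := h.off' hv'
  obtain ⟨hzN, hzH⟩ := h.z_mem hz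
  obtain ⟨hzN', hzH'⟩ := h.z_mem hz'
  have hd1 : DC B (z * n) (v * n) := by
    have h1 := (h.bn.dc_of_pr (inv_mem hn) B_le_HH hp' z⁻¹ (inv_mem hzN) (inv_mem hzH) d⁻¹
      (inv_mem hd)).inv
    have e1 : (n⁻¹ * z⁻¹)⁻¹ = z * n := by group
    have e2 : (n⁻¹ * d⁻¹ * z⁻¹)⁻¹ = z * d * n := by group
    rw [e1, e2] at h1
    have e3 : v * n = c * (z * d * n) := by rw [he]; group
    rw [e3]
    exact h1.left hc
  have hd2 : DC B (n * z') (v * n) := by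
    have h1 := h.bn.dc_of_pr hn B_le_HH hp z' hzN' hzH' c' hc'
    have e3 : v * n = n * c' * z' * d' := by
      have : v * n = n * (n⁻¹ * v * n) := by group
      rw [this, he']
      group
    rw [e3]
    exact h1.right hd'
  have hd3 : DC B (z * n) (n * z') := hd1.trans hd2.symm
  have hinj := h.bn.inj (mul_mem hzN hn) (mul_mem hn hzN') hd3
  have hzn : n⁻¹ * z * n ∈ HH B a b := by
    have e : n⁻¹ * z * n = z' * ((z * n)⁻¹ * (n * z'))⁻¹ := by group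
    rw [e]
    exact mul_mem hzH' (B_le_HH (inv_mem hinj))
  have key := fun s hs hsH => stmtDC1 L B N S h.bn hbr (HH B a b) B_le_HH n hn hp hp' z hzN hzH z'
    hzN' hzH' hd3 s hs hsH
  rcases hz with rfl | rfl | rfl
  · have h1 := key a h.ha a_HH h.desc_ab
    refine ⟨h1, ?_⟩
    have e : n⁻¹ * b * n = (n⁻¹ * a * n)⁻¹ * (n⁻¹ * (a * b) * n) := by group
    rw [e]
    exact mul_mem (inv_mem h1) hzn
  · have h1 := key b h.hb b_HH h.symm.desc_ab
    refine ⟨?_, h1⟩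
    have e : n⁻¹ * a * n = (n⁻¹ * b * n)⁻¹ * (n⁻¹ * (b * a) * n) := by group
    rw [e]
    exact mul_mem (inv_mem h1) hzn
  · exact ⟨key a h.ha a_HH h.desc_aba, key b h.hb b_HH h.desc_aba'⟩

end PL

section
variable {ι : Type} {F : Type} [Field F] {L : Type u} [Group L] {C : RC ι} {e : Fin 4 → ι}
  {K₀ : Subfield F} {K : ι → Subfield F} {x : ι → F → L} {co : ι → Fin 4 → ℤ} {r : ℕ}
  [Finite ι] [Finite F] [Finite L] [Fact r.Prime] [CharP F r]

namespace Sit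
variable (h : Sit r C e K₀ K x co)
include h

/-- the longest element of `H` -/
lemma long23 : (h.sb.toBN0.sub_bn (B_le_HH (B := BB C K x) (a := nu C e x 2)
    (b := nu C e x 3))).Long (nu C e x 2 * nu C e x 3 * nu C e x 2) := by
  have h1 := h.long (J := {2, 3}) (l := [2, 3, 2]) (by simp) (by
      intro k hk
      rcases hk with rfl | rfl <;> decide)
  have e1 : nl C x (([2, 3, 2] : List (Fin 4)).map e) =
      nu C e x 2 * nu C e x 3 * nu C e x 2 := by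
    simp only [List.map_cons, List.map_nil, nl_cons, nl_nil, mul_one, mul_assoc]
  rw [e1] at h1
  have h2 : PJ C e K x {2, 3} = HH (BB C K x) (nu C e x 2) (nu C e x 3) := H23_eq.symm
  refine ⟨?_, fun s hs => h1.2 s ?_⟩
  · rw [← h2]
    exact h1.1
  · rw [h2]
    exact hs

/-- the number of points is prime to `r` -/
lemma not_dvd_Om : ¬ r ∣ Nat.card (Om (BB C K x) (nu C e x 2) (nu C e x 3)) := by
  rw [card_Om h.sb Fact.out h.pl (h.crd (k := 2) (Or.inl rfl)) (h.crd (k := 3) (Or.inr rfl)),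
    h.card_F]
  intro h1
  have h2 : r ∣ Nat.card K₀ := dvd_card_sub K₀
  have h3 : r ∣ Nat.card K₀ ^ 2 + Nat.card K₀ ^ 2 * Nat.card K₀ ^ 2 :=
    dvd_add (dvd_pow h2 two_ne_zero) ((dvd_pow h2 two_ne_zero).mul_left _)
  have h4 : r ∣ 1 := (Nat.dvd_add_left h3).1 h1
  exact (Fact.out : r.Prime).one_lt.ne' (Nat.dvd_one.1 h4)

/-- inner automorphisms from `H` preserve types -/
lemma TP_conj {g : L} (hg : g ∈ H23 C e K x) :
    TP (BB C K x) (nu C e x 2) (nu C e x 3) (MulAut.conj g) := ⟨g, hg, rfl, rfl, rfl⟩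

/-- **`r`-elements of `H` that commute with an element without fixed points lie in the radical** -/
theorem rad_of_comm {v y : L} (hv : NF (BB C K x) (nu C e x 2) (nu C e x 3) v)
    (hy : y ∈ H23 C e K x) {k : ℕ} (hyk : y ^ r ^ k = 1) (hvy : v * y = y * v) :
    y ∈ rd (UU C K x) (H23 C e K x) := by
  have hr : r.Prime := Fact.out
  obtain ⟨D, hD⟩ : ∃ D : Subgroup (MulAut L), D = zpowers (MulAut.conj y) := ⟨_, rfl⟩
  have hDp : IsPGroup r D := by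
    rintro ⟨d, hd⟩
    rw [hD] at hd
    obtain ⟨m, rfl⟩ := mem_zpowers_iff.1 hd
    refine ⟨k, Subtype.ext ?_⟩
    change ((MulAut.conj y) ^ m) ^ r ^ k = 1
    rw [← zpow_natCast, ← zpow_mul, mul_comm, zpow_mul, zpow_natCast, ← map_pow, hyk, map_one,
      one_zpow]
  have hDm : ∀ d ∈ D, ∃ m : ℤ, d = MulAut.conj (y ^ m) := by
    intro d hd
    rw [hD] at hd
    obtain ⟨m, rfl⟩ := mem_zpowers_iff.1 hd
    exact ⟨m, (map_zpow _ _ _).symm⟩
  have hTP : ∀ d ∈ D, TP (BB C K x) (nu C e x 2) (nu C e x 3) d := by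
    intro d hd
    obtain ⟨m, rfl⟩ := hDm d hd
    exact h.TP_conj (zpow_mem hy m)
  have hDv : ∀ d ∈ D, (MulAut.conj v)⁻¹ * d * MulAut.conj v ∈ D := by
    intro d hd
    obtain ⟨m, rfl⟩ := hDm d hd
    have e1 : (MulAut.conj v)⁻¹ * MulAut.conj (y ^ m) * MulAut.conj v = MulAut.conj (y ^ m) := by
      rw [← map_inv, ← map_mul, ← map_mul]
      congr 1
      have h1 : Commute v (y ^ m) := (show Commute v y from hvy).zpow_right m
      rw [mul_assoc, ← h1.eq]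
      group
    rw [e1]
    exact hd
  obtain ⟨x₀, hx₀, hfix⟩ := exists_fix (p := r) hDp (fun d hd Q hQ => by
    obtain ⟨m, rfl⟩ := hDm d hd
    obtain ⟨g, hg, rfl⟩ := hQ
    exact ⟨y ^ m * g, mul_mem (zpow_mem hy m) hg, by rw [am_conj, cj_mul]⟩) h.not_dvd_Om
  obtain ⟨g, hg, hfg⟩ := lemN h.sb hr h.pl (D := D) hv hTP hDv hx₀ hfix
  have h1 := hfg (MulAut.conj y) (by rw [hD]; exact mem_zpowers _)
  rw [am_conj, am_conj, ← cj_mul, ← cj_mul] at h1
  have h2 := (cj_eq_iff' h.sb hr le_rfl).1 h1.1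
  have h3 := (cj_eq_iff' h.sb hr le_rfl).1 h1.2
  have hpow : ∀ g : L, (g⁻¹ * y * g) ^ r ^ k = 1 := by
    intro g
    have h4 := conj_pow (i := r ^ k) (a := g⁻¹) (b := y)
    rw [inv_inv] at h4
    rw [h4, hyk, mul_one, inv_mul_cancel]
  have h4 : g⁻¹ * y * g ∈ UU C K x := by
    refine h.sb.mem_U hr ?_ (hpow g)
    have e1 : g⁻¹ * y * g = ((y * g)⁻¹ * g)⁻¹ * 1 := by group
    have e2 : g⁻¹ * y * g = ((y * g)⁻¹ * g)⁻¹ := by group
    rw [e2]
    exact inv_mem h2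
  obtain ⟨w, hw⟩ : ∃ w, w = nu C e x 2 * nu C e x 3 * nu C e x 2 := ⟨_, rfl⟩
  rw [← hw] at h3
  have h5 : w⁻¹ * (g⁻¹ * y * g) * w ∈ UU C K x := by
    have e2 : w⁻¹ * (g⁻¹ * y * g) * w = (g * w)⁻¹ * y * (g * w) := by group
    have e3 : (g * w)⁻¹ * y * (g * w) = ((y * (g * w))⁻¹ * (g * w))⁻¹ := by group
    rw [e2]
    refine h.sb.mem_U hr ?_ (hpow _)
    rw [e3]
    exact inv_mem h3
  have h6 : g⁻¹ * y * g ∈ rd (UU C K x) (H23 C e K x) :=
    stmtLongRad L r _ _ _ _ h.sb _ B_le_HH w (by rw [hw]; exact h.long23) _ h4 h5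
  have h7 := rd_conj' h6 hg
  have e1 : g * (g⁻¹ * y * g) * g⁻¹ = y := by group
  rwa [e1] at h7

/-- `⟨H, n_k⟩` -/
lemma sup_le_PJ (k : Fin 4) : H23 C e K x ⊔ zpowers (nu C e x k) ≤ PJ C e K x {k, 2, 3} := by
  rw [H23_eq]
  exact sup_le (PJ_mono (by intro j hj; exact Or.inr hj)) (by
    rw [zpowers_le]; exact nu_PJ (by simp))

/-- **the conjugates of `H` that contain `vu`** -/
theorem mem_H {l : ℕ} (hl : Nm (Nat.card K₀) l) {v u : L} (hvl : v ^ l = 1)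
    (hv : NF (BB C K x) (nu C e x 2) (nu C e x 3) v) (hu : u ∈ rd (UU C K x) (H23 C e K x))
    (hvu : v * u = u * v)
    (huk : ∀ k, k = 0 ∨ k = 1 → u ∉ rd (UU C K x) (H23 C e K x ⊔ zpowers (nu C e x k))) {g : L}
    (hg : g⁻¹ * (v * u) * g ∈ H23 C e K x) : g ∈ H23 C e K x := by
  have hr : r.Prime := Fact.out
  have : Fact l.Prime := ⟨hl.prime⟩
  obtain ⟨h₁, hh₁, n, hn, h₂, hh₂, he, hp, hp'⟩ := stmtDC0 L _ _ _ h.sb.toBN0 h.sb.bruhat
    (H23 C e K x) B_le_HH g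
  suffices hnH : n ∈ H23 C e K x by
    rw [he]
    exact mul_mem (mul_mem hh₁ hnH) hh₂
  by_contra hnH
  obtain ⟨v', hv'⟩ : ∃ v', v' = h₁⁻¹ * v * h₁ := ⟨_, rfl⟩
  obtain ⟨u', hu'⟩ : ∃ u', u' = h₁⁻¹ * u * h₁ := ⟨_, rfl⟩
  have hv1 : NF (BB C K x) (nu C e x 2) (nu C e x 3) v' := by rw [hv']; exact hv.conj hh₁
  have hu1 : u' ∈ rd (UU C K x) (H23 C e K x) := by rw [hu']; exact rd_conj hu hh₁
  obtain ⟨k, hk⟩ := h.sb.exists_pow (rd_le hu)
  have hpow : ∀ (z y : L) (m : ℕ), y ^ m = 1 → (z⁻¹ * y * z) ^ m = 1 := by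
    intro z y m hy
    have h4 := conj_pow (i := m) (a := z⁻¹) (b := y)
    rw [inv_inv] at h4
    rw [h4, hy, mul_one, inv_mul_cancel]
  have hlr : l ≠ r := by
    rintro rfl
    exact hl.nq (dvd_card_sub K₀)
  have hcop : Nat.Coprime l (r ^ k) :=
    Nat.Coprime.pow_right k ((Nat.coprime_primes hl.prime hr).2 hlr)
  -- `n⁻¹ v' n` and `n⁻¹ u' n` lie in `H`
  have h1 : (n⁻¹ * v' * n) * (n⁻¹ * u' * n) ∈ H23 C e K x := by
    have e1 : (n⁻¹ * v' * n) * (n⁻¹ * u' * n) = h₂ * (g⁻¹ * (v * u) * g) * h₂⁻¹ := by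
      rw [hv', hu', he]; group
    rw [e1]
    exact mul_mem (mul_mem hh₂ hg) (inv_mem hh₂)
  have hcomm : (n⁻¹ * v' * n) * (n⁻¹ * u' * n) = (n⁻¹ * u' * n) * (n⁻¹ * v' * n) := by
    have e1 : (n⁻¹ * v' * n) * (n⁻¹ * u' * n) = (h₁ * n)⁻¹ * (v * u) * (h₁ * n) := by
      rw [hv', hu']; group
    have e2 : (n⁻¹ * u' * n) * (n⁻¹ * v' * n) = (h₁ * n)⁻¹ * (u * v) * (h₁ * n) := by
      rw [hv', hu']; group
    rw [e1, e2, hvu]
  have hvn : (n⁻¹ * v' * n) ^ l = 1 := hpow _ _ _ (by rw [hv']; exact hpow _ _ _ hvl)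
  have hun : (n⁻¹ * u' * n) ^ r ^ k = 1 := hpow _ _ _ (by rw [hu']; exact hpow _ _ _ hk)
  obtain ⟨h2, h3⟩ := mem_of_commute hcomm hvn hun hcop h1
  have hv2 : NF (BB C K x) (nu C e x 2) (nu C e x 3) (n⁻¹ * v' * n) := by
    refine NF_of h.pl (h.crd (k := 2) (Or.inl rfl)) (h.crd (k := 3) (Or.inr rfl)) (l := l)
      (h.not_dvd_B hl.prime hl.nq hl.sub) ?_ h2 hvn ?_
    · rw [h.card_F]
      exact hl.add
    · intro h4
      apply (hv1.2 1 (one_mem _)).1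
      have e1 : v' = n * (n⁻¹ * v' * n) * n⁻¹ := by group
      rw [e1, h4]
      simp
  obtain ⟨ha, hb⟩ := h.pl.norm_gens h.sb.bruhat hn hp hp' hv1 hv2
  have hu2 := h.rad_of_comm hv2 h3 hun hcomm
  -- a left descent
  have hn' : n⁻¹ ∉ BB C K x := fun hcon => hnH (by
    have := B_le_HH (a := nu C e x 2) (b := nu C e x 3) (inv_mem hcon)
    rwa [inv_inv] at this)
  obtain ⟨s, hs, m, hm, hrm, hms⟩ := h.sb.toBN0.exists_desc (inv_mem hn) hn'
  have hrs : ¬ RG (BB C K x) n⁻¹ s := by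
    intro h4
    have h5 : RG (BB C K x) (m * s) s :=
      h.sb.toBN0.rg_congr (inv_mem hn) (mul_mem hm (h.sb.sub s hs)) hs (by
        have := inv_mem hms
        have e1 : ((m * s)⁻¹ * n⁻¹)⁻¹ = n⁻¹⁻¹ * (m * s) := by group
        rwa [e1] at this) h4
    exact h.sb.toBN0.not_both hm hs hrm h5
  obtain ⟨k', hk'⟩ : ∃ k', s = nu C e x k' := by
    obtain ⟨i, hi, rfl⟩ := hs
    obtain ⟨k', rfl⟩ := (h.hd.simp i).1 hi
    exact ⟨k', rfl⟩
  subst hk'
  have hk01 : k' = 0 ∨ k' = 1 := by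
    have h4 : ¬ (k' = 2 ∨ k' = 3) := fun h4 =>
      hrs (h.sb.toBN0.rg_of_pr B_le_HH (inv_mem hn) hs (h.nu_H h4) hp')
    fin_cases k'
    · exact Or.inl rfl
    · exact Or.inr rfl
    · exact (h4 (Or.inl rfl)).elim
    · exact (h4 (Or.inr rfl)).elim
  apply huk k' hk01
  have h5 : u' ∈ rd (UU C K x) (H23 C e K x ⊔ zpowers (nu C e x k')) := by
    have h4 := stmtDC2 L r _ _ _ _ h.sb h.sb.bruhat (H23 C e K x) B_le_HH
      (nu C e x 2 * nu C e x 3 * nu C e x 2) h.long23 n hn hp hp' ?_ (nu C e x k') hs hrs ?_ u'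
      (rd_le hu1) ?_
    · exact h4
    · intro s hs hsH
      have h5 : s ∈ PJ C e K x {2, 3} := by rw [← H23_eq]; exact hsH
      obtain ⟨j, hj, rfl⟩ := h.gen_mem hs h5
      rcases hj with rfl | rfl
      exacts [ha, hb]
    · intro s hs hsH
      obtain ⟨j, hj, rfl⟩ := h.gen_mem hs (h.sup_le_PJ k' hsH)
      rcases hj with rfl | rfl | rfl
      · exact Or.inr rfl
      · exact Or.inl a_HH
      · exact Or.inl b_HH
    · have h4 := hu2 _ h.long23.1.2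
      have e1 : (n * (nu C e x 2 * nu C e x 3 * nu C e x 2))⁻¹ * u' *
          (n * (nu C e x 2 * nu C e x 3 * nu C e x 2)) =
          (nu C e x 2 * nu C e x 3 * nu C e x 2)⁻¹ * (n⁻¹ * u' * n) *
          (nu C e x 2 * nu C e x 3 * nu C e x 2) := by group
      rw [e1]
      exact h4
  have h6 := rd_conj' h5 (mem_sup_left hh₁)
  have e1 : h₁ * u' * h₁⁻¹ = u := by rw [hu']; group
  rwa [e1] at h6

end Sit

end

end Vale.Agent.P240.R2.N402
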