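import Vale.Agent.P240.R2.N402.Act
import Vale.Agent.P240.R2.N402.A4

/-!
`²E₆(q)`, `q` odd: no elementary abelian 2-subgroups normalized by `v` and the highest root subgroups.
-/

set_option autoImplicit false

namespace Vale.Agent.P240.R2.N402

open Subgroup Vale.Agent.P240.K Vale.Agent.P240.H195 CartanMatrix
open Vale.Agent.P240.R2.H165.XC Vale.Agent.P240.R2.H945 Vale.Agent.P240.R2.H945.W
open Vale.Agent.P240.R2.H945.W.TS
open Vale.Agent.P240.R2.H986.X (RC nn nl wl SS wl_nil wl_cons wl_append wl_neg nl_nil nl_cons nl_append)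

universe u

/-- the solutions of `c_d t = t` -/
lemma card_sc {F D : Type*} [Field F] (S : Set D) (c : D → F) :
    (Nat.card {t : F // ∀ d ∈ S, c d * t = t} = 1 ∨
      Nat.card {t : F // ∀ d ∈ S, c d * t = t} = Nat.card F) ∧
    (Nat.card {t : F // ∀ d ∈ S, c d * t = t} ≠ 1 → ∀ d ∈ S, c d = 1) := by
  by_cases h : ∀ d ∈ S, c d = 1
  · refine ⟨Or.inr (Nat.card_congr (Equiv.subtypeUnivEquiv fun t d hd => ?_)), fun _ => h⟩
    rw [h d hd, one_mul]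
  · push Not at h
    obtain ⟨d, hd, hcd⟩ := h
    have h1 : Nat.card {t : F // ∀ d ∈ S, c d * t = t} = 1 := by
      rw [Nat.card_eq_one_iff_unique]
      refine ⟨⟨?_⟩, ⟨⟨0, fun _ _ => mul_zero _⟩⟩⟩
      rintro ⟨t, ht⟩ ⟨t', ht'⟩
      have key : ∀ t : F, (∀ d ∈ S, c d * t = t) → t = 0 := by
        intro t ht
        have h2 : (c d - 1) * t = 0 := by rw [sub_mul, ht d hd, one_mul, sub_self]
        exact (mul_eq_zero.1 h2).resolve_left (sub_ne_zero.2 hcd)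
      exact Subtype.ext ((key t ht).trans (key t' ht').symm)
    exact ⟨Or.inl h1, fun h2 => (h2 h1).elim⟩

section
variable {ι : Type} {F : Type} [Field F] {L : Type u} [Group L] {C : RC ι} {e : Fin 4 → ι}
  {K₀ : Subfield F} {K : ι → Subfield F} {x : ι → F → L} {co : ι → Fin 4 → ℤ} {r : ℕ}

namespace Sit
variable (h : Sit r C e K₀ K x co)
include h

lemma coord_pos {j : ι} (hj : 0 < C.ht j) : 0 ≤ (cv co j).1 ∧ 0 ≤ (cv co j).2.1 ∧
    0 ≤ (cv co j).2.2.1 ∧ 0 ≤ (cv co j).2.2.2 ∧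
    0 < (cv co j).1 + (cv co j).2.1 + (cv co j).2.2.1 + (cv co j).2.2.2 := by
  rw [h.hc.ht_cv] at hj
  obtain ⟨p1, p2, p3, p4⟩ := RL_pos _ (h.mem_RL j) hj
  exact ⟨p1, p2, p3, p4, hj⟩

/-- the cone of `θ` -/
lemma cone_th {θ j k : ι} (hθ : cv co θ = (2, 3, 4, 2)) (hj : 0 < C.ht j) : ¬ C.cone j θ k := by
  intro hc
  obtain ⟨m, n, hm, hn, hk⟩ := h.hc.cone_cv hc
  obtain ⟨p1, p2, p3, p4, p5⟩ := h.coord_pos hj
  obtain ⟨b1, b2, b3, b4⟩ := RL_bd _ (h.mem_RL k)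
  rw [hk, hθ] at b1 b2 b3 b4
  simp only at b1 b2 b3 b4
  have q1 : 0 ≤ m * (cv co j).1 := mul_nonneg hm.le p1
  have q2 : 0 ≤ m * (cv co j).2.1 := mul_nonneg hm.le p2
  have q3 : 0 ≤ m * (cv co j).2.2.1 := mul_nonneg hm.le p3
  have q4 : 0 ≤ m * (cv co j).2.2.2 := mul_nonneg hm.le p4
  have q5 : 0 < m * ((cv co j).1 + (cv co j).2.1 + (cv co j).2.2.1 + (cv co j).2.2.2) :=
    mul_pos hm p5
  have q6 : m * ((cv co j).1 + (cv co j).2.1 + (cv co j).2.2.1 + (cv co j).2.2.2) =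
    m * (cv co j).1 + m * (cv co j).2.1 + m * (cv co j).2.2.1 + m * (cv co j).2.2.2 := by ring
  rw [q6] at q5
  omega

/-- the cone of `θ'` -/
lemma cone_th' {θ θ' j k : ι} (hθ : cv co θ = (2, 3, 4, 2)) (hθ' : cv co θ' = (1, 3, 4, 2))
    (hj : 0 < C.ht j) (hc : C.cone j θ' k) : k = θ := by
  obtain ⟨m, n, hm, hn, hk⟩ := h.hc.cone_cv hc
  obtain ⟨p1, p2, p3, p4, p5⟩ := h.coord_pos hj
  have q1 : 0 ≤ m * (cv co j).1 := mul_nonneg hm.le p1
  have q2 : 0 ≤ m * (cv co j).2.1 := mul_nonneg hm.le p2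
  have q3 : 0 ≤ m * (cv co j).2.2.1 := mul_nonneg hm.le p3
  have q4 : 0 ≤ m * (cv co j).2.2.2 := mul_nonneg hm.le p4
  have q5 : 0 < m * ((cv co j).1 + (cv co j).2.1 + (cv co j).2.2.1 + (cv co j).2.2.2) :=
    mul_pos hm p5
  have q6 : m * ((cv co j).1 + (cv co j).2.1 + (cv co j).2.2.1 + (cv co j).2.2.2) =
    m * (cv co j).1 + m * (cv co j).2.1 + m * (cv co j).2.2.1 + m * (cv co j).2.2.2 := by ring
  rw [q6] at q5
  have h1 : 2 < (cv co k).2.1 := by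
    rw [hk, hθ']
    simp only
    omega
  rcases RL_th' _ (h.mem_RL k) h1 with h2 | h2
  · exact h.hc.cv_inj (h2.trans hθ.symm)
  · exfalso
    rw [hk, hθ'] at h2
    simp only [Prod.mk.injEq] at h2
    omega

/-- `U` centralizes the highest root subgroup -/
lemma U_th {θ : ι} (hθ : cv co θ = (2, 3, 4, 2)) {y : L} (hy : y ∈ UU C K x) {c : F}
    (hc : c ∈ K θ) : y * x θ c * y⁻¹ = x θ c := by
  have hθp : 0 < C.ht θ := by rw [h.hc.ht_cv, hθ]; decide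
  rw [W.UU, W.gr] at hy
  induction hy using Subgroup.closure_induction with
  | mem y hy =>
    obtain ⟨j, t, hj, ht, rfl⟩ := hy
    by_cases hjθ : j = θ
    · subst hjθ
      rw [x_comm h.ts j ht hc, mul_inv_cancel_right]
    · have h1 := h.ts.comm j θ hjθ (ne_neg hj hθp) t c ht hc
      have h2 : gr K x (C.cone j θ) = ⊥ := by
        rw [gr, closure_eq_bot_iff]
        rintro _ ⟨m, s, hm, -, -⟩
        exact (h.cone_th hθ hj hm).elim
      rw [h2, mem_bot] at h1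
      have h3 : x j t * x θ c * (x j t)⁻¹ = (x j t * x θ c * (x j t)⁻¹ * (x θ c)⁻¹) * x θ c := by
        group
      rw [h3, h1, one_mul]
  | one => simp
  | mul a b _ _ ha hb =>
    have h1 : a * b * x θ c * (a * b)⁻¹ = a * (b * x θ c * b⁻¹) * a⁻¹ := by group
    rw [h1, hb, ha]
  | inv a _ ha =>
    have h1 : a⁻¹ * x θ c * a⁻¹⁻¹ = a⁻¹ * (a * x θ c * a⁻¹) * a := by rw [ha]; group
    rw [h1]
    group

/-- `U` centralizes `X_θ'` modulo `X_θ` -/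
lemma U_th' {θ θ' : ι} (hθ : cv co θ = (2, 3, 4, 2)) (hθ' : cv co θ' = (1, 3, 4, 2)) {y : L}
    (hy : y ∈ UU C K x) {c : F} (hc : c ∈ K θ') :
    y * x θ' c * y⁻¹ * (x θ' c)⁻¹ ∈ gr K x (fun j => j = θ) := by
  have hθp : 0 < C.ht θ' := by rw [h.hc.ht_cv, hθ']; decide
  have hnorm : UU C K x ≤ normalizer (gr K x (fun j => j = θ) : Set L) :=
    UU_le.trans (BB_norm h.ts (ideal1 h.hd h.hc hθ))
  have key : ∀ y ∈ UU C K x, y * x θ' c * y⁻¹ * (x θ' c)⁻¹ ∈ gr K x (fun j => j = θ) := by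
    intro y hy
    rw [W.UU, W.gr] at hy
    refine closure_induction (p := fun y _ => y * x θ' c * y⁻¹ * (x θ' c)⁻¹ ∈
      gr K x (fun j => j = θ)) ?_ ?_ ?_ ?_ hy
    · rintro _ ⟨j, t, hj, ht, rfl⟩
      by_cases hjθ : j = θ'
      · subst hjθ
        rw [x_comm h.ts j ht hc, mul_inv_cancel_right, mul_inv_cancel]
        exact one_mem _
      · have h1 := h.ts.comm j θ' hjθ (ne_neg hj hθp) t c ht hc
        exact gr_mono (fun k hk => h.cone_th' hθ hθ' hj hk) h1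
    · simp
    · intro a b ha hb h1 h2
      have ha' : a ∈ UU C K x := ha
      have e1 : a * b * x θ' c * (a * b)⁻¹ * (x θ' c)⁻¹ =
          (a * (b * x θ' c * b⁻¹ * (x θ' c)⁻¹) * a⁻¹) * (a * x θ' c * a⁻¹ * (x θ' c)⁻¹) := by group
      rw [e1]
      exact mul_mem ((mem_normalizer_iff.1 (hnorm ha') _).1 h2) h1
    · intro a ha h1
      have ha' : a ∈ UU C K x := ha
      have e1 : a⁻¹ * x θ' c * a⁻¹⁻¹ * (x θ' c)⁻¹ =
          a⁻¹ * (a * x θ' c * a⁻¹ * (x θ' c)⁻¹)⁻¹ * a⁻¹⁻¹ := by group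
      rw [e1]
      exact (mem_normalizer_iff.1 (hnorm (inv_mem ha')) _).1 (inv_mem h1)
  exact key y hy

section
variable [Finite ι] [Finite F] [Finite L] [Fact r.Prime] [CharP F r]

/-- elements of the torus part -/
lemma t_one {θ θ' : ι} (hθ : cv co θ = (2, 3, 4, 2)) (hθ' : cv co θ' = (1, 3, 4, 2)) {ρ t : L}
    (hρ : ρ ∈ UU C K x) (ht : t ∈ TT C K x) (hsq : (ρ * t) * (ρ * t) = 1)
    (h2 : ∀ s, t * x (e 2) s * t⁻¹ = x (e 2) s) (h3 : ∀ s, t * x (e 3) s * t⁻¹ = x (e 3) s)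
    (hcθ : ∀ c ∈ K θ, x θ c * (ρ * t) = (ρ * t) * x θ c)
    (hcθ' : ∀ c ∈ K θ', x θ' c * (ρ * t) = (ρ * t) * x θ' c) : t = 1 := by
  have htt : t * t = 1 := by
    have h1 : t * ρ * t⁻¹ ∈ UU C K x := h.sb.normal t (TT_le_BB ht) ρ hρ
    have h4 : t * t = (ρ * (t * ρ * t⁻¹))⁻¹ := by
      refine eq_inv_of_mul_eq_one_right ?_
      rw [← hsq]
      group
    have h5 : t * t ∈ UU C K x := by
      rw [h4]
      exact inv_mem (mul_mem hρ h1)
    obtain ⟨k, hk⟩ := h.sb.exists_pow h5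
    exact T_eq_one h.ts h.hZ r (mul_mem ht ht) hk
  refine stmtSign ι F L r C e K₀ K x co h.hd h.hc h.hZ h.odd θ θ' hθ hθ' t ht htt
    (fun c _ => h2 c) (fun c _ => h3 c) ?_ ?_
  · intro c hc
    obtain ⟨χ, hχK, hχ0, h4⟩ := h.ts.T_act ht θ
    rw [h4 c hc]
    have h5 := h.U_th hθ hρ (mul_mem hχK hc)
    rw [← h5, ← h4 c hc]
    have e1 : ρ * (t * x θ c * t⁻¹) * ρ⁻¹ = (ρ * t) * x θ c * (ρ * t)⁻¹ := by group
    rw [e1, ← hcθ c hc, mul_inv_cancel_right]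
  · intro c hc
    obtain ⟨χ, hχK, hχ0, h4⟩ := h.ts.T_act ht θ'
    rw [h4 c hc]
    have h5 := h.U_th' hθ hθ' hρ (mul_mem hχK hc)
    have e1 : ρ * x θ' (χ * c) * ρ⁻¹ = x θ' c := by
      rw [← h4 c hc]
      have e1 : ρ * (t * x θ' c * t⁻¹) * ρ⁻¹ = (ρ * t) * x θ' c * (ρ * t)⁻¹ := by group
      rw [e1, ← hcθ' c hc, mul_inv_cancel_right]
    rw [e1, ← h.ts.x_neg _ (mul_mem hχK hc), ← h.ts.add _ _ _ hc (neg_mem (mul_mem hχK hc))] at h5
    by_contra hcon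
    refine not_mem_gr h.hd h.hc [1, 2, 3, 0, 1, 2, 1] (p := fun j => j = θ) ?_ (j := θ') ?_
      (add_mem hc (neg_mem (mul_mem hχK hc))) ?_ h5
    · rintro j rfl
      rw [hθ]
      decide
    · rw [hθ']
      decide
    · intro h6
      apply hcon
      have h7 : χ * c = c := by linear_combination -h6
      rw [h7]

/-- **2-groups normalized by `v` and the two highest root subgroups** -/
theorem no_E {l : ℕ} (hl : Nm (Nat.card K₀) l) {v : L} (hvl : v ^ l = 1)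
    (hv : NF (BB C K x) (nu C e x 2) (nu C e x 3) v) {θ θ' : ι} (hθ : cv co θ = (2, 3, 4, 2))
    (hθ' : cv co θ' = (1, 3, 4, 2)) {E : Subgroup L} (hE : ∀ g ∈ E, g * g = 1)
    (hvE : ∀ g ∈ E, v⁻¹ * g * v ∈ E) (hE1 : ∀ c ∈ K θ, ∀ g ∈ E, x θ c * g * (x θ c)⁻¹ ∈ E)
    (hE2 : ∀ c ∈ K θ', ∀ g ∈ E, x θ' c * g * (x θ' c)⁻¹ ∈ E) : E = ⊥ := by
  have hr : r.Prime := Fact.out
  have : Fact l.Prime := ⟨hl.prime⟩
  have hX := h.crd (k := 2) (Or.inl rfl)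
  have hY := h.crd (k := 3) (Or.inr rfl)
  obtain ⟨hEH, hcθ, hcθ'⟩ := stmtLemA ι F L r C e K₀ K x co h.hd h.hc h.hZ h.odd θ θ' hθ hθ' E hE
    hE1 hE2
  have hEH' : ∀ g ∈ E, g ∈ H23 C e K x := fun g hg => hEH hg
  -- a fixed point
  obtain ⟨D, hD⟩ : ∃ D : Subgroup (MulAut L), D = E.map MulAut.conj := ⟨_, rfl⟩
  have hDm : ∀ d ∈ D, ∃ g ∈ E, d = MulAut.conj g := by
    intro d hd
    rw [hD] at hd
    obtain ⟨g, hg, rfl⟩ := hd
    exact ⟨g, hg, rfl⟩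
  have hDp : IsPGroup 2 D := by
    rintro ⟨d, hd⟩
    obtain ⟨g, hg, rfl⟩ := hDm d hd
    refine ⟨1, Subtype.ext ?_⟩
    change MulAut.conj g ^ 2 ^ 1 = 1
    rw [pow_one, pow_two, ← map_mul, hE g hg, map_one]
  have : Fact (Nat.Prime 2) := ⟨Nat.prime_two⟩
  have hodd : ¬ 2 ∣ Nat.card (Om (BB C K x) (nu C e x 2) (nu C e x 3)) := by
    rw [card_Om h.sb hr h.pl hX hY]
    have h1 : 2 ∣ Nat.card F + Nat.card F * Nat.card F := by
      have h2 : Nat.card F + Nat.card F * Nat.card F = Nat.card F * (Nat.card F + 1) := by ring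
      rw [h2]
      exact (Nat.even_mul_succ_self _).two_dvd
    omega
  obtain ⟨x₀, hx₀, hfix⟩ := exists_fix (p := 2) hDp (fun d hd Q hQ => by
    obtain ⟨g, hg, rfl⟩ := hDm d hd
    obtain ⟨y, hy, rfl⟩ := hQ
    exact ⟨g * y, mul_mem (hEH' g hg) hy, by rw [am_conj, cj_mul]⟩) hodd
  have hconjv : ∀ g : L, (MulAut.conj v)⁻¹ * MulAut.conj g * MulAut.conj v =
      MulAut.conj (v⁻¹ * g * v) := by
    intro g
    rw [← map_inv, ← map_mul, ← map_mul]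
  obtain ⟨y, hy, hfy⟩ := lemN h.sb hr h.pl (D := D) hv (fun d hd => by
      obtain ⟨g, hg, rfl⟩ := hDm d hd
      exact h.TP_conj (hEH' g hg)) (fun d hd => by
      obtain ⟨g, hg, rfl⟩ := hDm d hd
      rw [hconjv, hD]
      exact ⟨_, hvE g hg, rfl⟩) hx₀ hfix
  -- the conjugates `z = y⁻¹ g y`
  have hzB : ∀ g ∈ E, ∃ ρ ∈ rd (UU C K x) (H23 C e K x), ∃ t ∈ TT C K x, y⁻¹ * g * y = ρ * t := by
    intro g hg
    obtain ⟨h1, h2⟩ := hfy (MulAut.conj g) (by rw [hD]; exact ⟨g, hg, rfl⟩)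
    rw [am_conj, ← cj_mul] at h1 h2
    have h3 := (h.sb.cj_B_eq_iff hr).1 h1
    have h4 := (h.sb.cj_B_eq_iff hr).1 h2
    refine h.BwB ?_ ?_
    · have e1 : y⁻¹ * g * y = ((g * y)⁻¹ * y)⁻¹ := by group
      rw [e1]
      exact inv_mem h3
    · have e1 : (w23 C e x)⁻¹ * (y⁻¹ * g * y) * w23 C e x =
          ((g * (y * w23 C e x))⁻¹ * (y * w23 C e x))⁻¹ := by group
      rw [e1]
      exact inv_mem h4
  have hA1 : AlT C K x 1 (1 : F ≃+* F) (fun _ => 1) :=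
    fun i _ => ⟨one_mem _, one_ne_zero, fun t ht => by simpa using ht⟩
  have hact : ∀ g ∈ E, ∃ c₁ c₂ c₃ : F, am (MulAut.conj (y⁻¹ * g * y)) (P3 C e K x) = P3 C e K x ∧
      (∀ s, am (MulAut.conj (y⁻¹ * g * y)) (cj (x (e 2) s * nu C e x 2) (P3 C e K x)) =
        cj (x (e 2) (c₁ * s) * nu C e x 2) (P3 C e K x)) ∧
      ∀ s s', am (MulAut.conj (y⁻¹ * g * y))
        (cj (x (e 3) s * nu C e x 3 * (x (e 2) s' * nu C e x 2)) (P3 C e K x)) =
        cj (x (e 3) (c₃ * s) * nu C e x 3 * (x (e 2) (c₂ * s') * nu C e x 2)) (P3 C e K x) := by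
    intro g hg
    obtain ⟨ρ, hρ, t, ht, hz⟩ := hzB g hg
    obtain ⟨c₁, c₂, c₃, -, -, -, -, -, a0, a1, a2⟩ := h.act hA1 (by rw [am_one]) hρ ht
    rw [← hz, mul_one] at a0 a1 a2
    exact ⟨c₁, c₂, c₃, a0, a1, a2⟩
  have hact' : ∀ g : L, ∃ c₁ c₂ c₃ : F, g ∈ E →
      am (MulAut.conj (y⁻¹ * g * y)) (P3 C e K x) = P3 C e K x ∧
      (∀ s, am (MulAut.conj (y⁻¹ * g * y)) (cj (x (e 2) s * nu C e x 2) (P3 C e K x)) =
        cj (x (e 2) (c₁ * s) * nu C e x 2) (P3 C e K x)) ∧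
      ∀ s s', am (MulAut.conj (y⁻¹ * g * y))
        (cj (x (e 3) s * nu C e x 3 * (x (e 2) s' * nu C e x 2)) (P3 C e K x)) =
        cj (x (e 3) (c₃ * s) * nu C e x 3 * (x (e 2) (c₂ * s') * nu C e x 2)) (P3 C e K x) := by
    intro g
    by_cases hg : g ∈ E
    · obtain ⟨c₁, c₂, c₃, h1⟩ := hact g hg
      exact ⟨c₁, c₂, c₃, fun _ => h1⟩
    · exact ⟨0, 0, 0, fun h1 => (hg h1).elim⟩
  choose c₁ c₂ c₃ hc using hact'
  -- the set of automorphisms, indexed by `g`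
  obtain ⟨D', hD'⟩ : ∃ D' : Set (MulAut L), D' = {d | ∃ g ∈ E, d = MulAut.conj (y⁻¹ * g * y)} :=
    ⟨_, rfl⟩
  have hinvd : ∀ d : MulAut L, ∃ g : L, d ∈ D' → g ∈ E ∧ d = MulAut.conj (y⁻¹ * g * y) := by
    intro d
    by_cases hd : d ∈ D'
    · have hd' := hd
      rw [hD'] at hd'
      obtain ⟨g, hg, h1⟩ := hd'
      exact ⟨g, fun _ => ⟨hg, h1⟩⟩
    · exact ⟨1, fun h1 => (hd h1).elim⟩
  choose γ hγ using hinvd
  have hfx := card_Fx h.sb hr h.pl hX hY (D := D')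
    (fun d hd => by
      obtain ⟨h1, h2⟩ := hγ d hd
      rw [h2]
      exact (hc _ h1).1)
    (τ₁ := fun d s => c₁ (γ d) * s) (τ₂ := fun d s => c₂ (γ d) * s)
    (τ₃ := fun d s => c₃ (γ d) * s)
    (fun d hd s => by
      obtain ⟨h1, h2⟩ := hγ d hd
      have h3 := (hc _ h1).2.1 s
      rwa [← h2] at h3)
    (fun d hd s s' => by
      obtain ⟨h1, h2⟩ := hγ d hd
      have h3 := (hc _ h1).2.2 s s'
      rwa [← h2] at h3)
  have hv' := hv.conj hy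
  have hdvd : l ∣ Nat.card (Fx (BB C K x) (nu C e x 2) (nu C e x 3) D') := by
    refine dvd_Fx h.sb hr hv' (v := y⁻¹ * v * y) ?_ ?_
    · have h4 := conj_pow (i := l) (a := y⁻¹) (b := v)
      rw [inv_inv] at h4
      rw [h4, hvl, mul_one, inv_mul_cancel]
    · intro d hd
      rw [hD'] at hd ⊢
      obtain ⟨g, hg, rfl⟩ := hd
      refine ⟨v⁻¹ * g * v, hvE g hg, ?_⟩
      rw [← map_inv, ← map_mul, ← map_mul]
      congr 1
      group
  rw [hfx] at hdvd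
  obtain ⟨s1, k1⟩ := card_sc D' (fun d => c₁ (γ d))
  obtain ⟨s2, k2⟩ := card_sc D' (fun d => c₂ (γ d))
  obtain ⟨s3, k3⟩ := card_sc D' (fun d => c₃ (γ d))
  rw [h.card_F] at s1 s2 s3
  obtain ⟨v1, v3, v2⟩ := hl.val _ _ _ s1 s3 s2 hdvd
  have hq : Nat.card K₀ ^ 2 ≠ 1 := by
    have h3 := h.three_le
    intro h4
    have h5 : 3 ^ 2 ≤ Nat.card K₀ ^ 2 := Nat.pow_le_pow_left h3 2
    omega
  have one1 := k1 (by rw [v1]; exact hq)
  have one2 := k2 (by rw [v2]; exact hq)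
  have one3 := k3 (by rw [v3]; exact hq)
  -- `E` fixes all points
  have hall : ∀ g ∈ E, ∀ Q ∈ Om (BB C K x) (nu C e x 2) (nu C e x 3), cj g Q = Q := by
    intro g hg Q hQ
    have hd : MulAut.conj (y⁻¹ * g * y) ∈ D' := by rw [hD']; exact ⟨g, hg, rfl⟩
    obtain ⟨h1, h2⟩ := hγ _ hd
    have o1 := one1 _ hd
    have o2 := one2 _ hd
    have o3 := one3 _ hd
    obtain ⟨b0, b1, b2⟩ := hc _ h1
    rw [← h2] at b0 b1 b2
    rw [o1] at b1
    rw [o2, o3] at b2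
    have hQ' : cj y⁻¹ Q ∈ Om (BB C K x) (nu C e x 2) (nu C e x 3) := by
      obtain ⟨y', hy', rfl⟩ := hQ
      exact ⟨y⁻¹ * y', mul_mem (inv_mem hy) hy', by rw [cj_mul]⟩
    obtain ⟨i, hi⟩ := Ph_surj h.pl hX hY hQ'
    have h3 : cj (y⁻¹ * g * y) (cj y⁻¹ Q) = cj y⁻¹ Q := by
      rw [← hi]
      rcases i with i | s | ⟨s, s'⟩
      · exact b0
      · have h4 := b1 s
        rw [one_mul] at h4
        exact h4
      · have h4 := b2 s s'
        rw [one_mul, one_mul] at h4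
        exact h4
    have h4 : cj y (cj (y⁻¹ * g * y) (cj y⁻¹ Q)) = cj y (cj y⁻¹ Q) := congrArg (cj y) h3
    rw [← cj_mul, ← cj_mul, ← cj_mul] at h4
    have e1 : y * (y⁻¹ * g * y) * y⁻¹ = g := by group
    rw [e1, mul_inv_cancel, cj_one] at h4
    exact h4
  -- `E` lies in all conjugates of `B` in `H`
  have hallB : ∀ g ∈ E, ∀ y ∈ H23 C e K x, y⁻¹ * g * y ∈ BB C K x := by
    intro g hg y hy
    have key : ∀ y ∈ H23 C e K x, y⁻¹ * g * y ∈ P3 C e K x := by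
      intro y hy
      have h1 := hall g hg (cj y (P3 C e K x)) ⟨y, hy, rfl⟩
      rw [← cj_mul] at h1
      have h2 := (cj_eq_iff' h.sb hr le_Par).1 h1
      have e1 : y⁻¹ * g * y = ((g * y)⁻¹ * y)⁻¹ := by group
      rw [e1]
      exact inv_mem h2
    refine h.pl.inter (key y hy) (key (y * nu C e x 2) (mul_mem hy a_HH)) self_mem_Par ?_
    group
  rw [eq_bot_iff]
  intro g hg
  rw [mem_bot]
  obtain ⟨ρ, hρ, t, ht, hz⟩ := h.BwB (by
    have := hallB g hg 1 (one_mem _)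
    rwa [inv_one, one_mul, mul_one] at this) (hallB g hg _ h.long23.1.2)
  obtain ⟨d₁, d₂, d₃, -, -, -, f1, f3, a0, a1, a2⟩ := h.act hA1 (by rw [am_one]) hρ ht
  rw [← hz, mul_one] at a0 a1 a2
  have hinj := Ph_inj h.sb hr h.pl hX hY
  have g1 : d₁ = 1 := by
    have h1 := a1 1
    have h0 : cj g (cj (x (e 2) 1 * nu C e x 2) (P3 C e K x)) =
        cj (x (e 2) 1 * nu C e x 2) (P3 C e K x) := hall g hg _ (Ph_mem hX hY (.inr (.inl 1)))
    rw [am_conj, h0] at h1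
    have h2 : Ph (BB C K x) (nu C e x 2) (nu C e x 3) (x (e 2)) (x (e 3)) (.inr (.inl 1)) =
      Ph (BB C K x) (nu C e x 2) (nu C e x 3) (x (e 2)) (x (e 3))
        (.inr (.inl (d₁ * (1 : F ≃+* F) 1))) := h1
    have h3 := hinj h2
    simp only [Sum.inr.injEq, Sum.inl.injEq, map_one, mul_one] at h3
    exact h3.symm
  have g3 : d₃ = 1 := by
    have h1 := a2 1 1
    have h0 : cj g (cj (x (e 3) 1 * nu C e x 3 * (x (e 2) 1 * nu C e x 2)) (P3 C e K x)) =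
        cj (x (e 3) 1 * nu C e x 3 * (x (e 2) 1 * nu C e x 2)) (P3 C e K x) :=
      hall g hg _ (Ph_mem hX hY (.inr (.inr (1, 1))))
    rw [am_conj, h0] at h1
    have h2 : Ph (BB C K x) (nu C e x 2) (nu C e x 3) (x (e 2)) (x (e 3)) (.inr (.inr (1, 1))) =
      Ph (BB C K x) (nu C e x 2) (nu C e x 3) (x (e 2)) (x (e 3))
        (.inr (.inr (d₃ * (1 : F ≃+* F) 1, d₂ * (1 : F ≃+* F) 1))) := h1
    have h3 := hinj h2
    simp only [Sum.inr.injEq, Prod.mk.injEq, map_one, mul_one] at h3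
    exact h3.1.symm
  have ht1 : t = 1 := by
    refine h.t_one hθ hθ' (rd_le hρ) ht (by rw [← hz]; exact hE g hg) (fun s => ?_) (fun s => ?_)
      (fun c hc => by rw [← hz]; exact hcθ c hc g hg) (fun c hc => by rw [← hz]; exact hcθ' c hc g hg)
    · have h1 := f1 s
      rw [g1, one_mul] at h1
      exact h1
    · have h1 := f3 s
      rw [g3, one_mul] at h1
      exact h1
  rw [ht1, mul_one] at hz
  rw [hz]
  exact U_sq h.ts r h.odd (rd_le hρ) (by rw [← hz]; exact hE g hg)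

end

end Sit

end

end Vale.Agent.P240.R2.N402
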