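import Vale.Agent.P240.H195.BNGeo

/-!
A parabolic subgroup of rank two with diagram `A₂` in a BN-pair: double cosets.
-/

set_option autoImplicit false

namespace Vale.Agent.P240.R2.N402

open Subgroup Vale.Agent.P240.K Vale.Agent.P240.H195

universe u

section
variable {L : Type u} [Group L]

/-- generators `a`, `b` with `aba = bab` modulo `T` -/
structure PL (B N : Subgroup L) (S : Set L) (a b : L) : Prop where
  bn : BN0 B N S
  ha : a ∈ S
  hb : b ∈ S
  rab : RG B a b
  rba : RG B b a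
  raba : RG B (a * b) a
  rbab : RG B (b * a) b
  br : (a * b * a)⁻¹ * (b * a * b) ∈ B

/-- the group generated by `B`, `a`, `b` -/
def HH (B : Subgroup L) (a b : L) : Subgroup L := closure ((B : Set L) ∪ {a, b})

variable {B N : Subgroup L} {S : Set L} {a b : L}

lemma B_le_HH : B ≤ HH B a b := fun _ hx => subset_closure (Or.inl hx)

lemma a_HH : a ∈ HH B a b := subset_closure (Or.inr (Or.inl rfl))

lemma b_HH : b ∈ HH B a b := subset_closure (Or.inr (Or.inr rfl))

lemma HH_symm : HH B a b = HH B b a := by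
  unfold HH
  rw [Set.pair_comm]

lemma parA_le : Par B a ≤ HH B a b := sup_le B_le_HH (by rw [zpowers_le]; exact a_HH)

lemma parB_le : Par B b ≤ HH B a b := sup_le B_le_HH (by rw [zpowers_le]; exact b_HH)

namespace PL
variable (h : PL B N S a b)
include h

lemma symm : PL B N S b a :=
  ⟨h.bn, h.hb, h.ha, h.rba, h.rab, h.rbab, h.raba, by
    have := inv_mem h.br
    rwa [mul_inv_rev, inv_inv] at this⟩

lemma aN : a ∈ N := h.bn.sub _ h.ha

lemma bN : b ∈ N := h.bn.sub _ h.hb

/-- left multiplication by `a` -/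
lemma step {n g : L} (hn : n ∈ N) (hd : DC B n g) : DC B n (a * g) ∨ DC B (a * n) (a * g) := by
  obtain ⟨c, hc, d, hd, rfl⟩ := hd
  have e1 : a * (c * n * d) = a * c * n * d := by group
  rw [e1]
  rcases h.bn.mul a h.ha c hc n hn with h1 | h1
  · exact Or.inl (h1.right hd)
  · exact Or.inr (h1.right hd)

lemma dc_aa {n g : L} (hd : DC B (a * (a * n)) g) : DC B n g := by
  have e1 : a * (a * n) = (a * a) * n := by group
  rw [e1, DC_left_iff (h.bn.sq a h.ha)] at hd
  exact hd

lemma dc_br {g : L} : DC B (a * b * a) g ↔ DC B (b * a * b) g := by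
  constructor
  · intro h1
    exact (DC_of_inv h.br).symm.trans h1
  · intro h1
    exact (DC_of_inv h.br).trans h1

/-- the six double cosets -/
def Six (B : Subgroup L) (a b g : L) : Prop :=
  DC B 1 g ∨ DC B a g ∨ DC B b g ∨ DC B (a * b) g ∨ DC B (b * a) g ∨ DC B (a * b * a) g

lemma six_symm {g : L} (h1 : Six B a b g) : Six B b a g := by
  rcases h1 with h1 | h1 | h1 | h1 | h1 | h1
  · exact Or.inl h1
  · exact Or.inr (Or.inr (Or.inl h1))
  · exact Or.inr (Or.inl h1)
  · exact Or.inr (Or.inr (Or.inr (Or.inr (Or.inl h1))))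
  · exact Or.inr (Or.inr (Or.inr (Or.inl h1)))
  · exact Or.inr (Or.inr (Or.inr (Or.inr (Or.inr (h.dc_br.1 h1)))))

lemma six_a {g : L} (h1 : Six B a b g) : Six B a b (a * g) := by
  have ha := h.aN
  have hb := h.bN
  rcases h1 with h1 | h1 | h1 | h1 | h1 | h1
  · rcases h.step (one_mem _) h1 with h2 | h2
    · exact Or.inl h2
    · rw [mul_one] at h2
      exact Or.inr (Or.inl h2)
  · rcases h.step ha h1 with h2 | h2
    · exact Or.inr (Or.inl h2)
    · have h3 : DC B (a * (a * 1)) (a * g) := by rwa [mul_one]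
      exact Or.inl (h.dc_aa h3)
  · rcases h.step hb h1 with h2 | h2
    · exact Or.inr (Or.inr (Or.inl h2))
    · exact Or.inr (Or.inr (Or.inr (Or.inl h2)))
  · rcases h.step (mul_mem ha hb) h1 with h2 | h2
    · exact Or.inr (Or.inr (Or.inr (Or.inl h2)))
    · exact Or.inr (Or.inr (Or.inl (h.dc_aa h2)))
  · rcases h.step (mul_mem hb ha) h1 with h2 | h2
    · exact Or.inr (Or.inr (Or.inr (Or.inr (Or.inl h2))))
    · rw [← mul_assoc] at h2
      exact Or.inr (Or.inr (Or.inr (Or.inr (Or.inr h2))))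
  · rcases h.step (mul_mem (mul_mem ha hb) ha) h1 with h2 | h2
    · exact Or.inr (Or.inr (Or.inr (Or.inr (Or.inr h2))))
    · have h3 : DC B (a * (a * (b * a))) (a * g) := by
        rwa [← mul_assoc a b a]
      exact Or.inr (Or.inr (Or.inr (Or.inr (Or.inl (h.dc_aa h3)))))

lemma six_B {g c : L} (hc : c ∈ B) (h1 : Six B a b g) : Six B a b (c * g) := by
  rcases h1 with h1 | h1 | h1 | h1 | h1 | h1
  · exact Or.inl (h1.left hc)
  · exact Or.inr (Or.inl (h1.left hc))
  · exact Or.inr (Or.inr (Or.inl (h1.left hc)))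
  · exact Or.inr (Or.inr (Or.inr (Or.inl (h1.left hc))))
  · exact Or.inr (Or.inr (Or.inr (Or.inr (Or.inl (h1.left hc)))))
  · exact Or.inr (Or.inr (Or.inr (Or.inr (Or.inr (h1.left hc)))))

lemma six_b {g : L} (h1 : Six B a b g) : Six B a b (b * g) :=
  h.symm.six_symm (h.symm.six_a (h.six_symm h1))

/-- the double cosets of `HH B a b` -/
theorem six_of_mem {g : L} (hg : g ∈ HH B a b) : Six B a b g := by
  unfold HH at hg
  induction hg using Subgroup.closure_induction_left with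
  | one => exact Or.inl (DC.refl 1)
  | mul_left t ht y _ ih =>
    rcases ht with ht | rfl | rfl
    · exact h.six_B ht ih
    · exact h.six_a ih
    · exact h.six_b ih
  | inv_mul_cancel t ht y _ ih =>
    rcases ht with ht | rfl | rfl
    · exact h.six_B (inv_mem ht) ih
    · have h1 := h.six_B (h.bn.inv_mul h.ha) (h.six_a ih)
      have e : t⁻¹ * t⁻¹ * (t * y) = t⁻¹ * y := by group
      rwa [e] at h1
    · have h1 := h.six_B (h.bn.inv_mul h.hb) (h.six_b ih)
      have e : t⁻¹ * t⁻¹ * (t * y) = t⁻¹ * y := by group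
      rwa [e] at h1

/-! ### lengths -/

lemma len0 : h.bn.Len 0 1 :=
  ⟨Wd.zero (one_mem _) (one_mem _), fun j hj => absurd hj (Nat.not_lt_zero j)⟩

lemma len_a : h.bn.Len 1 a := by
  have := h.bn.len_mul h.len0 h.ha (BN0.rg_one h.bn h.ha (one_mem _) (one_mem _))
  rwa [one_mul] at this

lemma len_ab : h.bn.Len 2 (a * b) := h.bn.len_mul h.len_a h.hb h.rab

lemma len_aba : h.bn.Len 3 (a * b * a) := h.bn.len_mul h.len_ab h.ha h.raba

lemma not_dc {j k : ℕ} {n m g : L} (hn : h.bn.Len j n) (hm : h.bn.Len k m) (hjk : j ≠ k)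
    (h1 : DC B n g) (h2 : DC B m g) : False := by
  have h3 := h.bn.inj (h.bn.wd_mem hn.1) (h.bn.wd_mem hm.1) (h1.trans h2.symm)
  exact hjk (h.bn.len_unique (h.bn.len_congr hn (h.bn.wd_mem hm.1) h3) hm)

lemma a_ne_b : a⁻¹ * b ∉ B := by
  intro h1
  have h2 : RG B (a * b) b := by
    have e : a * b = (a * a) * (a⁻¹ * b) := by group
    rw [e]
    exact BN0.rg_one h.bn h.hb (mul_mem (h.bn.sq a h.ha) h1)
      (mul_mem (mul_mem h.aN h.aN) (mul_mem (inv_mem h.aN) h.bN))
  exact h.bn.not_both h.aN h.hb h.rab h2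

lemma dc_a_b {g : L} (h1 : DC B a g) (h2 : DC B b g) : False :=
  h.a_ne_b (h.bn.inj h.aN h.bN (h1.trans h2.symm))

lemma dc_ab_ba {g : L} (h1 : DC B (a * b) g) (h2 : DC B (b * a) g) : False := by
  have h3 := h.bn.inj (mul_mem h.aN h.bN) (mul_mem h.bN h.aN) (h1.trans h2.symm)
  exact h.bn.not_both h.bN h.ha h.rba
    (h.bn.rg_congr (mul_mem h.aN h.bN) (mul_mem h.bN h.aN) h.ha h3 h.raba)

/-! ### products of double cosets -/

lemma mem_parA {g : L} : g ∈ Par B a ↔ g ∈ B ∨ DC B a g := h.bn.par_mem_iff h.ha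

lemma mem_parB {g : L} : g ∈ Par B b ↔ g ∈ B ∨ DC B b g := h.bn.par_mem_iff h.hb

lemma inf_par {g : L} (h1 : g ∈ Par B a) (h2 : g ∈ Par B b) : g ∈ B := by
  rcases h.mem_parA.1 h1 with h1 | h1
  · exact h1
  · rcases h.mem_parB.1 h2 with h2 | h2
    · exact h2
    · exact (h.dc_a_b h1 h2).elim

/-- `BaB · BbB = BabB` -/
lemma dc_mul_ab {g g' : L} (h1 : DC B a g) (h2 : DC B b g') : DC B (a * b) (g * g') := by
  obtain ⟨c, hc, d, hd, rfl⟩ := h1
  obtain ⟨c', hc', d', hd', rfl⟩ := h2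
  have e : c * a * d * (c' * b * d') = c * (a * (d * c') * b) * d' := by group
  rw [e]
  exact ((h.rab _ (mul_mem hd hc')).left hc).right hd'

/-- `BabB · BaB = BabaB` -/
lemma dc_mul_aba {g g' : L} (h1 : DC B (a * b) g) (h2 : DC B a g') :
    DC B (a * b * a) (g * g') := by
  obtain ⟨c, hc, d, hd, rfl⟩ := h1
  obtain ⟨c', hc', d', hd', rfl⟩ := h2
  have e : c * (a * b) * d * (c' * a * d') = c * (a * b * (d * c') * a) * d' := by group
  rw [e]
  exact ((h.raba _ (mul_mem hd hc')).left hc).right hd'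

/-- the intersection property -/
lemma inter {y p m : L} (hy : y ∈ Par B b) (hp : p ∈ Par B b) (hm : m ∈ Par B a)
    (he : y * m = a * p) : y ∈ B := by
  have hpB : p ∈ B := by
    by_contra hcon
    have hp' := (h.mem_parB.1 hp).resolve_left hcon
    have h1 : DC B (a * b) (a * p) := h.dc_mul_ab (DC.refl a) hp'
    rw [← he] at h1
    rcases h.mem_parB.1 hy with hy | hy
    · rcases h.mem_parA.1 hm with hm | hm
      · exact h.not_dc h.len_ab h.len0 (by decide) h1 ((DC_mem (one_mem _)).2 (mul_mem hy hm))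
      · exact h.not_dc h.len_ab h.len_a (by decide) h1 (hm.left hy)
    · rcases h.mem_parA.1 hm with hm | hm
      · exact h.not_dc h.len_ab h.symm.len_a (by decide) h1 (hy.right hm)
      · exact h.dc_ab_ba h1 (h.symm.dc_mul_ab hy hm)
  refine h.inf_par ?_ hy
  have : y = a * p * m⁻¹ := by rw [← he]; group
  rw [this]
  exact mul_mem (mul_mem self_mem_Par (le_Par hpB)) (inv_mem hm)

/-- two points: `H = P ∪ PaP` -/
lemma two {g : L} (hg : g ∈ HH B a b) (hgP : g ∉ Par B b) :
    ∃ p ∈ Par B b, ∃ p' ∈ Par B b, g = p * a * p' := by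
  have hb : b ∈ Par B b := self_mem_Par
  rcases h.six_of_mem hg with h1 | h1 | h1 | h1 | h1 | h1
  · exact (hgP (le_Par ((DC_mem (one_mem _)).1 h1))).elim
  · obtain ⟨c, hc, d, hd, rfl⟩ := h1
    exact ⟨c, le_Par hc, d, le_Par hd, rfl⟩
  · obtain ⟨c, hc, d, hd, rfl⟩ := h1
    exact (hgP (mul_mem (mul_mem (le_Par hc) hb) (le_Par hd))).elim
  · obtain ⟨c, hc, d, hd, rfl⟩ := h1
    exact ⟨c, le_Par hc, b * d, mul_mem hb (le_Par hd), by group⟩
  · obtain ⟨c, hc, d, hd, rfl⟩ := h1
    exact ⟨c * b, mul_mem (le_Par hc) hb, d, le_Par hd, by group⟩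
  · obtain ⟨c, hc, d, hd, rfl⟩ := h.dc_br.1 h1
    exact ⟨c * b, mul_mem (le_Par hc) hb, b * d, mul_mem hb (le_Par hd), by group⟩

/-- elements of `H` outside the two parabolics -/
lemma off {g : L} (hg : g ∈ HH B a b) (hA : g ∉ Par B a) (hB : g ∉ Par B b) :
    DC B (a * b) g ∨ DC B (b * a) g ∨ DC B (a * b * a) g := by
  rcases h.six_of_mem hg with h1 | h1 | h1 | h1 | h1 | h1
  · exact (hA (le_Par ((DC_mem (one_mem _)).1 h1))).elim
  · exact (hA (h.mem_parA.2 (Or.inr h1))).elim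
  · exact (hB (h.mem_parB.2 (Or.inr h1))).elim
  · exact Or.inl h1
  · exact Or.inr (Or.inl h1)
  · exact Or.inr (Or.inr h1)

end PL

end

end Vale.Agent.P240.R2.N402
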