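import Vale.Agent.P240.R2.N402.PlA
import Vale.Agent.P240.H195.BNCent

/-!
A parabolic subgroup of rank two with diagram `A₂` in a BN-pair: groups of automorphisms that fix a
point and are normalized by an element without fixed points and lines fix an apartment.
-/

set_option autoImplicit false

namespace Vale.Agent.P240.R2.N402

open Subgroup Vale.Agent.P240.K Vale.Agent.P240.H195

universe u

section
variable {L : Type u} [Group L] {B N U : Subgroup L} {S : Set L} {a b : L} {r : ℕ}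

/-- type-preserving automorphisms -/
def TP (B : Subgroup L) (a b : L) (d : MulAut L) : Prop :=
  ∃ g ∈ HH B a b, am d B = cj g B ∧ am d (Par B b) = cj g (Par B b) ∧
    am d (Par B a) = cj g (Par B a)

/-- elements without fixed points and lines -/
def NF (B : Subgroup L) (a b v : L) : Prop :=
  v ∈ HH B a b ∧ ∀ y ∈ HH B a b, y⁻¹ * v * y ∉ Par B a ∧ y⁻¹ * v * y ∉ Par B b

lemma NF.conj {v y : L} (h : NF B a b v) (hy : y ∈ HH B a b) : NF B a b (y⁻¹ * v * y) := by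
  refine ⟨mul_mem (mul_mem (inv_mem hy) h.1) hy, fun z hz => ?_⟩
  have e : z⁻¹ * (y⁻¹ * v * y) * z = (y * z)⁻¹ * v * (y * z) := by group
  rw [e]
  exact h.2 _ (mul_mem hy hz)

lemma cj_eq_iff' [Finite L] (hs : SB r B N U S) (hr : r.Prime) {Q : Subgroup L} (hQ : B ≤ Q)
    {g g' : L} : cj g Q = cj g' Q ↔ g⁻¹ * g' ∈ Q := by
  constructor
  · intro h1
    refine hs.mem_of_cj_eq hr ⟨1, by rwa [cj_one]⟩ ?_
    rw [cj_mul, ← h1, ← cj_mul, inv_mul_cancel, cj_one]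
  · intro h1
    have e : g' = g * (g⁻¹ * g') := by group
    rw [e, cj_mul, cj_self h1]

/-- fixed subgroups in terms of cosets -/
lemma fix_iff [Finite L] (hs : SB r B N U S) (hr : r.Prime) {Q : Subgroup L} (hQ : B ≤ Q)
    {d : MulAut L} {g y : L} (hd : am d Q = cj g Q) :
    am d (cj y Q) = cj y Q ↔ y⁻¹ * (d y * g) ∈ Q := by
  rw [am_cj, hd, ← cj_mul, eq_comm, cj_eq_iff' hs hr hQ]

/-- the elements of `Q` -/
lemma apply_mem {Q : Subgroup L} {d : MulAut L} {g y : L} (hd : am d Q = cj g Q) (hy : y ∈ Q) :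
    g⁻¹ * d y * g ∈ Q := by
  have h1 : d y ∈ cj g Q := by
    rw [← hd]
    exact apply_mem_am hy
  rwa [mem_cj] at h1

/-- conjugation by an element that normalizes a set of automorphisms -/
lemma fix_conj {D : Set (MulAut L)} {v : L}
    (hv : ∀ d ∈ D, (MulAut.conj v)⁻¹ * d * MulAut.conj v ∈ D) {Q : Subgroup L}
    (hQ : ∀ d ∈ D, am d Q = Q) : ∀ d ∈ D, am d (cj v Q) = cj v Q := by
  intro d hd
  have h1 := hQ _ (hv d hd)
  rw [← am_conj, ← am_mul]
  have e : d * MulAut.conj v = MulAut.conj v * ((MulAut.conj v)⁻¹ * d * MulAut.conj v) := by group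
  rw [e, am_mul, h1]

/-- **Lemma N** -/
theorem lemN [Finite L] (hs : SB r B N U S) (hr : r.Prime) (h : PL B N S a b)
    {D : Set (MulAut L)} {v : L} (hv : NF B a b v) (hD : ∀ d ∈ D, TP B a b d)
    (hDv : ∀ d ∈ D, (MulAut.conj v)⁻¹ * d * MulAut.conj v ∈ D) {x₀ : L} (hx₀ : x₀ ∈ HH B a b)
    (hfix : ∀ d ∈ D, am d (cj x₀ (Par B b)) = cj x₀ (Par B b)) :
    ∃ y ∈ HH B a b, ∀ d ∈ D, am d (cj y B) = cj y B ∧
      am d (cj (y * (a * b * a)) B) = cj (y * (a * b * a)) B := by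
  -- adjacent points
  have key : ∀ y : L, (∀ d ∈ D, am d (cj y (Par B b)) = cj y (Par B b)) →
      (∀ d ∈ D, am d (cj (y * a) (Par B b)) = cj (y * a) (Par B b)) →
      (∀ d ∈ D, am d (cj y B) = cj y B) ∧ ∀ d ∈ D, am d (cj (y * a) B) = cj (y * a) B := by
    intro y h1 h2
    have hall : ∀ d ∈ D, am d (cj y B) = cj y B ∧ am d (cj (y * a) B) = cj (y * a) B := by
      intro d hd
      obtain ⟨g, -, gB, gP, gM⟩ := hD d hd
      have h3 := (fix_iff hs hr le_Par gP).1 (h1 d hd)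
      have h4 := (fix_iff hs hr le_Par gP).1 (h2 d hd)
      have hm := apply_mem gM (self_mem_Par (B := B) (s := a))
      obtain ⟨z, hz⟩ : ∃ z, z = y⁻¹ * (d y * g) := ⟨_, rfl⟩
      obtain ⟨m, hm'⟩ : ∃ m, m = g⁻¹ * d a * g := ⟨_, rfl⟩
      have e1 : (y * a)⁻¹ * (d (y * a) * g) = a⁻¹ * (z * m) := by
        rw [hz, hm', map_mul]; group
      rw [e1] at h4
      rw [← hz] at h3
      rw [← hm'] at hm
      have hzB : z ∈ B := by
        refine h.inter h3 h4 hm ?_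
        group
      constructor
      · rw [fix_iff hs hr le_rfl gB, ← hz]
        exact hzB
      · rw [fix_iff hs hr le_rfl gB, e1]
        exact h.inf_par (mul_mem (inv_mem self_mem_Par) (mul_mem (le_Par hzB) hm)) h4
    exact ⟨fun d hd => (hall d hd).1, fun d hd => (hall d hd).2⟩
  obtain ⟨p, hp, p', hp', he⟩ := h.two (hv.conj hx₀).1 (hv.2 x₀ hx₀).2
  obtain ⟨x₁, hx₁⟩ : ∃ x₁, x₁ = x₀ * p := ⟨_, rfl⟩
  obtain ⟨p₁, hp₁⟩ : ∃ p₁, p₁ = p' * p := ⟨_, rfl⟩
  have hx₁H : x₁ ∈ HH B a b := by rw [hx₁]; exact mul_mem hx₀ (parB_le hp)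
  have hp₁P : p₁ ∈ Par B b := by rw [hp₁]; exact mul_mem hp' hp
  have ev : v * x₁ = x₁ * (a * p₁) := by
    have : v = x₀ * (p * a * p') * x₀⁻¹ := by rw [← he]; group
    rw [this, hx₁, hp₁]
    group
  have e0 : cj x₁ (Par B b) = cj x₀ (Par B b) := by rw [hx₁, cj_mul, cj_self hp]
  have f1 : ∀ d ∈ D, am d (cj x₁ (Par B b)) = cj x₁ (Par B b) := by rw [e0]; exact hfix
  have f2 : ∀ d ∈ D, am d (cj (x₁ * a) (Par B b)) = cj (x₁ * a) (Par B b) := by
    have e1 : cj (x₁ * a) (Par B b) = cj v (cj x₁ (Par B b)) := by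
      rw [← cj_mul, ev, ← mul_assoc, cj_mul (x₁ * a), cj_self hp₁P]
    rw [e1]
    exact fix_conj hDv f1
  obtain ⟨f3, f4⟩ := key x₁ f1 f2
  -- `p₁ ∉ B`
  have hp₁B : p₁ ∉ B := by
    intro hcon
    apply (hv.2 x₁ hx₁H).1
    have : x₁⁻¹ * v * x₁ = a * p₁ := by rw [mul_assoc, ev]; group
    rw [this]
    exact mul_mem self_mem_Par (le_Par hcon)
  have hd1 : DC B b p₁ := (h.mem_parB.1 hp₁P).resolve_left hp₁B
  have hd2 : DC B (a * b * a) (a * p₁ * a) :=
    h.dc_mul_aba (h.dc_mul_ab (DC.refl a) hd1) (DC.refl a)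
  obtain ⟨c, hc, c', hc', he2⟩ := hd2
  have f5 : ∀ d ∈ D, am d (cj (v * (x₁ * a)) B) = cj (v * (x₁ * a)) B := by
    rw [cj_mul]
    exact fix_conj hDv f4
  refine ⟨x₁ * c, mul_mem hx₁H (B_le_HH hc), fun d hd => ⟨?_, ?_⟩⟩
  · rw [cj_mul, cj_self hc]
    exact f3 d hd
  · have e3 : cj (x₁ * c * (a * b * a)) B = cj (v * (x₁ * a)) B := by
      have e4 : v * (x₁ * a) = x₁ * c * (a * b * a) * c' := by
        rw [← mul_assoc, ev]
        calc x₁ * (a * p₁) * a = x₁ * (a * p₁ * a) := by group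
          _ = _ := by rw [he2]; group
      rw [e4, cj_mul _ c', cj_self hc']
    rw [e3]
    exact f5 d hd

end

end Vale.Agent.P240.R2.N402
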