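import Vale.Agent.P240.R2.N402.PlB

/-!
A parabolic subgroup of rank two with diagram `A₂` in a BN-pair: coordinates for the points, counting
fixed points.
-/

set_option autoImplicit false

namespace Vale.Agent.P240.R2.N402

open Subgroup Vale.Agent.P240.K Vale.Agent.P240.H195

universe u

section
variable {L : Type u} [Group L] {B N U : Subgroup L} {S : Set L} {a b : L} {r : ℕ} {F : Type*}

/-- coordinates for `B / (B ∩ aBa⁻¹)` -/
structure Crd (B : Subgroup L) (a : L) (X : F → L) : Prop where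
  mem : ∀ t, X t ∈ B
  dec : ∀ c ∈ B, ∃ t, ∃ c' ∈ B, c = X t * c' ∧ a⁻¹ * c' * a ∈ B
  inj : ∀ t t', a⁻¹ * ((X t)⁻¹ * X t') * a ∈ B → t = t'

/-- the points -/
def Om (B : Subgroup L) (a b : L) : Set (Subgroup L) := {Q | ∃ y ∈ HH B a b, Q = cj y (Par B b)}

/-- coordinates of the points -/
def Ph (B : Subgroup L) (a b : L) (X Y : F → L) : Unit ⊕ (F ⊕ F × F) → Subgroup L
  | .inl _ => Par B b
  | .inr (.inl t) => cj (X t * a) (Par B b)
  | .inr (.inr (s, t)) => cj (Y s * b * (X t * a)) (Par B b)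

variable {X Y : F → L}

lemma Ph_mem (hX : Crd B a X) (hY : Crd B b Y) (i : Unit ⊕ (F ⊕ F × F)) :
    Ph B a b X Y i ∈ Om B a b := by
  rcases i with i | t | ⟨s, t⟩
  · exact ⟨1, one_mem _, (cj_one _).symm⟩
  · exact ⟨_, mul_mem (B_le_HH (hX.mem t)) a_HH, rfl⟩
  · exact ⟨_, mul_mem (mul_mem (B_le_HH (hY.mem s)) b_HH) (mul_mem (B_le_HH (hX.mem t)) a_HH), rfl⟩

/-- the cosets in `B a P` -/
lemma Crd.coset (hX : Crd B a X) {c : L} (hc : c ∈ B) {Q : Subgroup L} (hQ : B ≤ Q) :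
    ∃ t, cj (c * a) Q = cj (X t * a) Q := by
  obtain ⟨t, c', hc', rfl, h1⟩ := hX.dec c hc
  refine ⟨t, ?_⟩
  have e : X t * c' * a = X t * a * (a⁻¹ * c' * a) := by group
  rw [e, cj_mul _ (a⁻¹ * c' * a), cj_self (hQ h1)]

theorem Ph_surj [Finite L] (h : PL B N S a b) (hX : Crd B a X) (hY : Crd B b Y) {Q : Subgroup L}
    (hQ : Q ∈ Om B a b) : ∃ i, Ph B a b X Y i = Q := by
  obtain ⟨g, hg, rfl⟩ := hQ
  have hb : b ∈ Par B b := self_mem_Par
  have hBP : B ≤ Par B b := le_Par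
  -- cosets `c b c' a P`
  have key : ∀ c ∈ B, ∀ c' ∈ B, ∃ i, Ph B a b X Y i = cj (c * b * (c' * a)) (Par B b) := by
    intro c hc c' hc'
    obtain ⟨s, c₁, hc₁, rfl, h1⟩ := hY.dec c hc
    obtain ⟨t, ht⟩ := hX.coset (mul_mem h1 hc') hBP
    refine ⟨.inr (.inr (s, t)), ?_⟩
    change cj (Y s * b * (X t * a)) (Par B b) = _
    rw [cj_mul, ← ht, ← cj_mul]
    congr 1
    group
  rcases h.six_of_mem hg with h1 | h1 | h1 | h1 | h1 | h1
  · refine ⟨.inl (), ?_⟩
    rw [cj_self (hBP ((DC_mem (one_mem _)).1 h1))]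
    rfl
  · obtain ⟨c, hc, d, hd, rfl⟩ := h1
    obtain ⟨t, ht⟩ := hX.coset hc hBP
    refine ⟨.inr (.inl t), ?_⟩
    rw [cj_mul _ d, cj_self (hBP hd), ht]
    rfl
  · obtain ⟨c, hc, d, hd, rfl⟩ := h1
    refine ⟨.inl (), ?_⟩
    rw [cj_self (mul_mem (mul_mem (hBP hc) hb) (hBP hd))]
    rfl
  · obtain ⟨c, hc, d, hd, rfl⟩ := h1
    obtain ⟨t, ht⟩ := hX.coset hc hBP
    refine ⟨.inr (.inl t), ?_⟩
    have e : c * (a * b) * d = c * a * (b * d) := by group
    rw [e, cj_mul _ (b * d), cj_self (mul_mem hb (hBP hd)), ht]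
    rfl
  · obtain ⟨c, hc, d, hd, rfl⟩ := h1
    obtain ⟨i, hi⟩ := key c hc 1 (one_mem _)
    refine ⟨i, ?_⟩
    have e : c * (b * a) * d = c * b * (1 * a) * d := by group
    rw [e, cj_mul _ d, cj_self (hBP hd), hi]
  · obtain ⟨c, hc, d, hd, rfl⟩ := h.dc_br.1 h1
    obtain ⟨i, hi⟩ := key c hc 1 (one_mem _)
    refine ⟨i, ?_⟩
    have e : c * (b * a * b) * d = c * b * (1 * a) * (b * d) := by group
    rw [e, cj_mul _ (b * d), cj_self (mul_mem hb (hBP hd)), hi]

theorem Ph_inj [Finite L] (hs : SB r B N U S) (hr : r.Prime) (h : PL B N S a b) (hX : Crd B a X)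
    (hY : Crd B b Y) : Function.Injective (Ph B a b X Y) := by
  have hb : b ∈ Par B b := self_mem_Par
  have hBP : B ≤ Par B b := le_Par
  -- `c a ∉ P`
  have h0 : ∀ c ∈ B, c * a ∉ Par B b := by
    intro c hc hcon
    have h1 : DC B a (c * a) := (DC.refl a).left hc
    rcases h.mem_parB.1 hcon with h2 | h2
    · exact h.not_dc h.len_a h.len0 (by decide) h1 ((DC_mem (one_mem _)).2 h2)
    · exact h.dc_a_b h1 h2
  -- `c b c' a ∉ P`
  have h0' : ∀ c ∈ B, ∀ c' ∈ B, c * b * (c' * a) ∉ Par B b := by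
    intro c hc c' hc' hcon
    have h1 : DC B (b * a) (c * b * (c' * a)) :=
      h.symm.dc_mul_ab ((DC.refl b).left hc) ((DC.refl a).left hc')
    rcases h.mem_parB.1 hcon with h2 | h2
    · exact h.not_dc h.symm.len_ab h.len0 (by decide) h1 ((DC_mem (one_mem _)).2 h2)
    · exact h.not_dc h.symm.len_ab h.symm.len_a (by decide) h1 h2
  -- `a P` and `b c a P`
  have h00 : ∀ c ∈ B, ∀ c' ∈ B, ∀ p ∈ Par B b, DC B b c' → c' * (c * a) = a * p → False := by
    intro c hc c' hc' p hp hd he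
    exact h.bn.not_mem h.hb ((DC_mem hc').1 hd.symm)
  have h3 : ∀ c d p, c ∈ B → DC B b d → p ∈ Par B b → d * (c * a) = a * p → False := by
    intro c d p hc hd hp he
    have h1 : DC B (b * a) (d * (c * a)) := h.symm.dc_mul_ab hd ((DC.refl a).left hc)
    rw [he] at h1
    rcases h.mem_parB.1 hp with h2 | h2
    · exact h.not_dc h.symm.len_ab h.len_a (by decide) h1 ((DC.refl a).right h2)
    · exact h.dc_ab_ba (h.dc_mul_ab (DC.refl a) h2) h1
  -- equality in `B a P`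
  have h4 : ∀ t t', (X t * a)⁻¹ * (X t' * a) ∈ Par B b → t = t' := by
    intro t t' h5
    apply hX.inj
    have e : (X t * a)⁻¹ * (X t' * a) = a⁻¹ * ((X t)⁻¹ * X t') * a := by group
    rw [e] at h5
    refine h.inf_par ?_ h5
    exact mul_mem (mul_mem (inv_mem self_mem_Par)
      (le_Par (mul_mem (inv_mem (hX.mem t)) (hX.mem t')))) self_mem_Par
  intro i j hij
  have hcj : ∀ g g' : L, cj g (Par B b) = cj g' (Par B b) → g⁻¹ * g' ∈ Par B b := fun g g' h5 =>
    (cj_eq_iff' hs hr hBP).1 h5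
  rcases i with i | t | ⟨s, t⟩ <;> rcases j with j | t' | ⟨s', t'⟩
  · rfl
  · exfalso
    have h5 := hcj 1 _ ((cj_one _).trans hij)
    rw [inv_one, one_mul] at h5
    exact h0 _ (hX.mem t') h5
  · exfalso
    have h5 := hcj 1 _ ((cj_one _).trans hij)
    rw [inv_one, one_mul] at h5
    exact h0' _ (hY.mem s') _ (hX.mem t') h5
  · exfalso
    have h5 := hcj 1 _ ((cj_one _).trans hij.symm)
    rw [inv_one, one_mul] at h5
    exact h0 _ (hX.mem t) h5
  · rw [h4 t t' (hcj _ _ hij)]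
  · exfalso
    have h5 := hcj _ _ hij
    refine h3 (X t') ((X t)⁻¹ * (Y s' * b)) _ (hX.mem t')
      (by
        have e : (X t)⁻¹ * (Y s' * b) = ((X t)⁻¹ * Y s') * b := by group
        rw [e]
        exact (DC.refl b).left (mul_mem (inv_mem (hX.mem t)) (hY.mem s'))) h5 ?_
    group
  · exfalso
    have h5 := hcj 1 _ ((cj_one _).trans hij.symm)
    rw [inv_one, one_mul] at h5
    exact h0' _ (hY.mem s) _ (hX.mem t) h5
  · exfalso
    have h5 := hcj _ _ hij.symm
    refine h3 (X t) ((X t')⁻¹ * (Y s * b)) _ (hX.mem t)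
      (by
        have e : (X t')⁻¹ * (Y s * b) = ((X t')⁻¹ * Y s) * b := by group
        rw [e]
        exact (DC.refl b).left (mul_mem (inv_mem (hX.mem t')) (hY.mem s))) h5 ?_
    group
  · have h5 := hcj _ _ hij
    have h6 : s = s' := by
      apply hY.inj
      by_contra hcon
      have hd : DC B b (b⁻¹ * ((Y s)⁻¹ * Y s') * b) := by
        refine (h.mem_parB.1 ?_).resolve_left hcon
        exact mul_mem (mul_mem (inv_mem hb)
          (hBP (mul_mem (inv_mem (hY.mem s)) (hY.mem s')))) hb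
      refine h3 (X t') ((X t)⁻¹ * (b⁻¹ * ((Y s)⁻¹ * Y s') * b)) _ (hX.mem t')
        (hd.left (inv_mem (hX.mem t))) h5 ?_
      group
    subst h6
    have h7 : t = t' := by
      apply h4
      have e : (Y s * b * (X t * a))⁻¹ * (Y s * b * (X t' * a)) = (X t * a)⁻¹ * (X t' * a) := by
        group
      rwa [e] at h5
    rw [h7]

/-- the number of points -/
theorem card_Om [Finite L] [Finite F] (hs : SB r B N U S) (hr : r.Prime) (h : PL B N S a b)
    (hX : Crd B a X) (hY : Crd B b Y) :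
    Nat.card (Om B a b) = 1 + (Nat.card F + Nat.card F * Nat.card F) := by
  have hf : Function.Bijective (fun i : Unit ⊕ (F ⊕ F × F) =>
      (⟨Ph B a b X Y i, Ph_mem hX hY i⟩ : Om B a b)) := by
    constructor
    · intro i j hij
      exact Ph_inj hs hr h hX hY (congrArg Subtype.val hij)
    · rintro ⟨Q, hQ⟩
      obtain ⟨i, hi⟩ := Ph_surj h hX hY hQ
      exact ⟨i, Subtype.ext hi⟩
  rw [← Nat.card_congr (Equiv.ofBijective _ hf), Nat.card_sum, Nat.card_sum, Nat.card_prod]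
  simp

/-- the points fixed by a set of automorphisms -/
def Fx (B : Subgroup L) (a b : L) (D : Set (MulAut L)) : Set (Subgroup L) :=
  {Q | Q ∈ Om B a b ∧ ∀ d ∈ D, am d Q = Q}

/-- **the number of fixed points** -/
theorem card_Fx [Finite L] [Finite F] (hs : SB r B N U S) (hr : r.Prime) (h : PL B N S a b)
    (hX : Crd B a X) (hY : Crd B b Y) {D : Set (MulAut L)} (h0 : ∀ d ∈ D, am d (Par B b) = Par B b)
    {τ₁ τ₂ τ₃ : MulAut L → F → F}
    (h1 : ∀ d ∈ D, ∀ t, am d (cj (X t * a) (Par B b)) = cj (X (τ₁ d t) * a) (Par B b))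
    (h2 : ∀ d ∈ D, ∀ s t, am d (cj (Y s * b * (X t * a)) (Par B b)) =
      cj (Y (τ₃ d s) * b * (X (τ₂ d t) * a)) (Par B b)) :
    Nat.card (Fx B a b D) = 1 + (Nat.card {t // ∀ d ∈ D, τ₁ d t = t} +
      Nat.card {s // ∀ d ∈ D, τ₃ d s = s} * Nat.card {t // ∀ d ∈ D, τ₂ d t = t}) := by
  have hinj := Ph_inj hs hr h hX hY
  have k1 : ∀ t, (∀ d ∈ D, am d (cj (X t * a) (Par B b)) = cj (X t * a) (Par B b)) ↔
      ∀ d ∈ D, τ₁ d t = t := by
    intro t
    constructor
    · intro h3 d hd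
      have h4 := h3 d hd
      rw [h1 d hd] at h4
      have h5 : Ph B a b X Y (.inr (.inl (τ₁ d t))) = Ph B a b X Y (.inr (.inl t)) := h4
      have h6 := hinj h5
      simpa using h6
    · intro h3 d hd
      rw [h1 d hd, h3 d hd]
  have k2 : ∀ s t, (∀ d ∈ D, am d (cj (Y s * b * (X t * a)) (Par B b)) =
      cj (Y s * b * (X t * a)) (Par B b)) ↔ (∀ d ∈ D, τ₃ d s = s) ∧ ∀ d ∈ D, τ₂ d t = t := by
    intro s t
    constructor
    · intro h3
      have h5 : ∀ d ∈ D, τ₃ d s = s ∧ τ₂ d t = t := by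
        intro d hd
        have h4 := h3 d hd
        rw [h2 d hd] at h4
        have h5 : Ph B a b X Y (.inr (.inr (τ₃ d s, τ₂ d t))) =
          Ph B a b X Y (.inr (.inr (s, t))) := h4
        have h6 := hinj h5
        simpa using h6
      exact ⟨fun d hd => (h5 d hd).1, fun d hd => (h5 d hd).2⟩
    · rintro ⟨h3, h4⟩ d hd
      rw [h2 d hd, h3 d hd, h4 d hd]
  let f : Unit ⊕ ({t // ∀ d ∈ D, τ₁ d t = t} ⊕
      {s // ∀ d ∈ D, τ₃ d s = s} × {t // ∀ d ∈ D, τ₂ d t = t}) → Fx B a b D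
    | .inl _ => ⟨Par B b, Ph_mem hX hY (.inl ()), h0⟩
    | .inr (.inl t) => ⟨cj (X t.1 * a) (Par B b), Ph_mem hX hY (.inr (.inl t.1)), (k1 t.1).2 t.2⟩
    | .inr (.inr (s, t)) => ⟨cj (Y s.1 * b * (X t.1 * a)) (Par B b),
        Ph_mem hX hY (.inr (.inr (s.1, t.1))), (k2 s.1 t.1).2 ⟨s.2, t.2⟩⟩
  have hf : Function.Bijective f := by
    constructor
    · intro i j hij
      have h3 := congrArg Subtype.val hij
      rcases i with i | t | ⟨s, t⟩ <;> rcases j with j | t' | ⟨s', t'⟩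
      · rfl
      · have h4 : Ph B a b X Y (.inl ()) = Ph B a b X Y (.inr (.inl t'.1)) := h3
        have := hinj h4
        simp at this
      · have h4 : Ph B a b X Y (.inl ()) = Ph B a b X Y (.inr (.inr (s'.1, t'.1))) := h3
        have := hinj h4
        simp at this
      · have h4 : Ph B a b X Y (.inr (.inl t.1)) = Ph B a b X Y (.inl ()) := h3
        have := hinj h4
        simp at this
      · have h4 : Ph B a b X Y (.inr (.inl t.1)) = Ph B a b X Y (.inr (.inl t'.1)) := h3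
        have h5 := hinj h4
        simp only [Sum.inr.injEq, Sum.inl.injEq] at h5
        rw [Subtype.ext h5]
      · have h4 : Ph B a b X Y (.inr (.inl t.1)) = Ph B a b X Y (.inr (.inr (s'.1, t'.1))) := h3
        have := hinj h4
        simp at this
      · have h4 : Ph B a b X Y (.inr (.inr (s.1, t.1))) = Ph B a b X Y (.inl ()) := h3
        have := hinj h4
        simp at this
      · have h4 : Ph B a b X Y (.inr (.inr (s.1, t.1))) = Ph B a b X Y (.inr (.inl t'.1)) := h3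
        have := hinj h4
        simp at this
      · have h4 : Ph B a b X Y (.inr (.inr (s.1, t.1))) = Ph B a b X Y (.inr (.inr (s'.1, t'.1))) :=
          h3
        have h5 := hinj h4
        simp only [Sum.inr.injEq, Prod.mk.injEq] at h5
        rw [Subtype.ext h5.1, Subtype.ext h5.2]
    · rintro ⟨Q, hQ, hQD⟩
      obtain ⟨i, hi⟩ := Ph_surj h hX hY hQ
      subst hi
      rcases i with i | t | ⟨s, t⟩
      · exact ⟨.inl (), rfl⟩
      · exact ⟨.inr (.inl ⟨t, (k1 t).1 hQD⟩), rfl⟩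
      · have h3 := (k2 s t).1 hQD
        exact ⟨.inr (.inr (⟨s, h3.1⟩, ⟨t, h3.2⟩)), rfl⟩
  rw [← Nat.card_congr (Equiv.ofBijective _ hf), Nat.card_sum, Nat.card_sum, Nat.card_prod]
  simp

end

end Vale.Agent.P240.R2.N402
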