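import Vale.Agent.P240.R2.N402.PlC

/-!
A parabolic subgroup of rank two with diagram `A₂` in a BN-pair: the element `v`, fixed points.
-/

set_option autoImplicit false

namespace Vale.Agent.P240.R2.N402

open Subgroup Vale.Agent.P240.K Vale.Agent.P240.H195

universe u

section
variable {L : Type u} [Group L] {B N U : Subgroup L} {S : Set L} {a b : L} {r : ℕ} {F : Type*}
  {X Y : F → L}

/-- an element of prime order without fixed points -/
lemma dvd_of_free {α : Type*} [Finite α] {l : ℕ} [Fact l.Prime] (f : α → α)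
    (hf : f^[l] = id) (h0 : ∀ x, f x ≠ x) : l ∣ Nat.card α := by
  classical
  have := Fintype.ofFinite α
  have hl : 0 < l := (Fact.out : l.Prime).pos
  have e1 : l = (l - 1) + 1 := by omega
  let σ : Equiv.Perm α :=
    { toFun := f
      invFun := f^[l - 1]
      left_inv := fun x => by
        have h1 := congrFun hf x
        rw [e1, Function.iterate_succ_apply] at h1
        exact h1
      right_inv := fun x => by
        have h1 := congrFun hf x
        rw [e1, Function.iterate_succ_apply'] at h1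
        exact h1 }
  have h2 : ∀ (k : ℕ) (x : α), (σ ^ k) x = f^[k] x := by
    intro k x
    induction k with
    | zero => rfl
    | succ k ih =>
      rw [pow_succ', Equiv.Perm.mul_apply, ih, Function.iterate_succ_apply']
      rfl
  have h1 : σ ^ l ^ 1 = 1 := by
    ext x
    rw [pow_one, h2, hf]
    rfl
  rw [Nat.card_eq_fintype_card]
  by_contra hcon
  obtain ⟨x, hx⟩ := Equiv.Perm.exists_fixed_point_of_prime hcon h1
  exact h0 x hx

lemma am_conj_iter (v : L) (Q : Subgroup L) (k : ℕ) : (cj v)^[k] Q = cj (v ^ k) Q := by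
  induction k with
  | zero => rw [pow_zero, cj_one]; rfl
  | succ k ih => rw [Function.iterate_succ', Function.comp_apply, ih, ← cj_mul, pow_succ']

/-- **the number of fixed points is divisible by `l`** -/
theorem dvd_Fx [Finite L] (hs : SB r B N U S) (hr : r.Prime) {D : Set (MulAut L)} {v : L} {l : ℕ}
    [Fact l.Prime] (hv : NF B a b v) (hvl : v ^ l = 1)
    (hDv : ∀ d ∈ D, (MulAut.conj v)⁻¹ * d * MulAut.conj v ∈ D) : l ∣ Nat.card (Fx B a b D) := by
  have h1 : ∀ Q ∈ Fx B a b D, cj v Q ∈ Fx B a b D := by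
    intro Q hQ
    refine ⟨?_, fix_conj hDv hQ.2⟩
    obtain ⟨y, hy, rfl⟩ := hQ.1
    exact ⟨v * y, mul_mem hv.1 hy, (cj_mul _ _ _).symm⟩
  have : Finite (Fx B a b D) := Subtype.finite
  refine dvd_of_free (fun Q : Fx B a b D => (⟨cj v Q.1, h1 Q.1 Q.2⟩ : Fx B a b D)) ?_ ?_
  · funext Q
    apply Subtype.ext
    have h2 : ∀ k : ℕ, ((fun Q : Fx B a b D => (⟨cj v Q.1, h1 Q.1 Q.2⟩ : Fx B a b D))^[k] Q).1 =
        (cj v)^[k] Q.1 := by
      intro k
      induction k with
      | zero => rfl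
      | succ k ih => rw [Function.iterate_succ', Function.iterate_succ', Function.comp_apply,
          Function.comp_apply, ← ih]
    rw [h2, am_conj_iter, hvl, cj_one]
    rfl
  · rintro ⟨Q, hQ⟩ h2
    obtain ⟨y, hy, hQy⟩ := hQ.1
    have h3 : cj v Q = Q := congrArg Subtype.val h2
    rw [hQy, ← cj_mul] at h3
    have h4 := (cj_eq_iff' hs hr le_Par).1 h3
    apply (hv.2 y hy).2
    have e : y⁻¹ * v * y = ((v * y)⁻¹ * y)⁻¹ := by group
    rw [e]
    exact inv_mem h4

/-- a fixed point -/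
theorem exists_fix [Finite L] {D : Subgroup (MulAut L)} {p : ℕ} [Fact p.Prime]
    (hp : IsPGroup p D) (hD : ∀ d ∈ D, ∀ Q ∈ Om B a b, am d Q ∈ Om B a b)
    (hcard : ¬ p ∣ Nat.card (Om B a b)) :
    ∃ y ∈ HH B a b, ∀ d ∈ D, am d (cj y (Par B b)) = cj y (Par B b) := by
  let act : MulAction D (Om B a b) :=
    { smul := fun d Q => ⟨am d.1 Q.1, hD _ d.2 _ Q.2⟩
      one_smul := fun Q => Subtype.ext (am_one Q.1)
      mul_smul := fun d d' Q => Subtype.ext (am_mul d.1 d'.1 Q.1) }
  have : Finite (Om B a b) := Subtype.finite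
  obtain ⟨⟨Q, hQ⟩, hfix⟩ := hp.nonempty_fixed_point_of_prime_not_dvd_card (Om B a b) hcard
  obtain ⟨y, hy, rfl⟩ := hQ
  exact ⟨y, hy, fun d hd => congrArg Subtype.val (hfix ⟨d, hd⟩)⟩

/-- the element `v` -/
theorem exists_v [Finite L] (h : PL B N S a b) (hX : Crd B a X) (hY : Crd B b Y)
    {S₂ : Subgroup L} (ha : a ∈ S₂) (hb : b ∈ S₂) (hXS : ∀ t, X t ∈ S₂) (hYS : ∀ t, Y t ∈ S₂)
    (hS : S₂ ≤ HH B a b) {l : ℕ} [Fact l.Prime] (hl : l ∣ Nat.card (Om B a b)) :
    ∃ v ∈ S₂, v ^ l = 1 ∧ v ≠ 1 := by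
  let act : MulAction S₂ (Om B a b) :=
    { smul := fun g Q => ⟨cj g.1 Q.1, by
        obtain ⟨y, hy, hQ⟩ := Q.2
        exact ⟨g.1 * y, mul_mem (hS g.2) hy, by rw [hQ, cj_mul]⟩⟩
      one_smul := fun Q => Subtype.ext (cj_one Q.1)
      mul_smul := fun g g' Q => Subtype.ext (cj_mul g.1 g'.1 Q.1) }
  have htr : ∀ Q : Om B a b, ∃ g : S₂, g • (⟨Par B b, 1, one_mem _, (cj_one _).symm⟩ : Om B a b) =
      Q := by
    rintro ⟨Q, hQ⟩
    obtain ⟨i, hi⟩ := Ph_surj h hX hY hQ
    subst hi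
    rcases i with i | t | ⟨s, t⟩
    · exact ⟨1, Subtype.ext (cj_one _)⟩
    · exact ⟨⟨X t * a, mul_mem (hXS t) ha⟩, rfl⟩
    · exact ⟨⟨Y s * b * (X t * a), mul_mem (mul_mem (hYS s) hb) (mul_mem (hXS t) ha)⟩, rfl⟩
  have hpre : MulAction.IsPretransitive S₂ (Om B a b) := by
    refine ⟨fun Q Q' => ?_⟩
    obtain ⟨g, hg⟩ := htr Q
    obtain ⟨g', hg'⟩ := htr Q'
    exact ⟨g' * g⁻¹, by rw [← hg, ← hg', mul_smul, inv_smul_smul]⟩
  have h1 : Nat.card (Om B a b) ∣ Nat.card S₂ := by
    rw [← MulAction.index_stabilizer_of_transitive S₂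
      (⟨Par B b, 1, one_mem _, (cj_one _).symm⟩ : Om B a b)]
    exact Subgroup.index_dvd_card _
  obtain ⟨v, hv⟩ := exists_prime_orderOf_dvd_card' l (hl.trans h1)
  refine ⟨v.1, v.2, ?_, ?_⟩
  · have := pow_orderOf_eq_one v
    rw [hv] at this
    simpa using congrArg Subtype.val this
  · intro h2
    have h3 : v = 1 := Subtype.ext h2
    rw [h3, orderOf_one] at hv
    exact (Fact.out : l.Prime).one_lt.ne hv

/-- the order of the minimal parabolic subgroup -/
theorem card_Par [Finite L] [Finite F] (h : PL B N S a b) (hX : Crd B a X) :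
    Nat.card (Par B a) = Nat.card B * (Nat.card F + 1) := by
  let f : B × Option F → Par B a
    | (c, none) => ⟨c.1, le_Par c.2⟩
    | (c, some t) => ⟨X t * a * c.1, mul_mem (mul_mem (le_Par (hX.mem t)) self_mem_Par)
        (le_Par c.2)⟩
  have hne : ∀ c ∈ B, ∀ t, X t * a * c ∉ B := by
    intro c hc t hcon
    apply h.bn.not_mem h.ha
    have : a = (X t)⁻¹ * (X t * a * c) * c⁻¹ := by group
    rw [this]
    exact mul_mem (mul_mem (inv_mem (hX.mem t)) hcon) (inv_mem hc)
  have hf : Function.Bijective f := by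
    constructor
    · rintro ⟨⟨c, hc⟩, t | t⟩ ⟨⟨c', hc'⟩, t' | t'⟩ h1
      · have h2 : c = c' := congrArg Subtype.val h1
        subst h2
        rfl
      · exfalso
        have h2 : c = X t' * a * c' := congrArg Subtype.val h1
        exact hne c' hc' t' (h2 ▸ hc)
      · exfalso
        have h2 : X t * a * c = c' := congrArg Subtype.val h1
        exact hne c hc t (h2 ▸ hc')
      · have h2 : X t * a * c = X t' * a * c' := congrArg Subtype.val h1
        have h3 : t = t' := by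
          apply hX.inj
          have : a⁻¹ * ((X t)⁻¹ * X t') * a = c * c'⁻¹ := by
            have : a⁻¹ * ((X t)⁻¹ * X t') * a = (X t * a)⁻¹ * (X t' * a * c') * c'⁻¹ := by group
            rw [this, ← h2]
            group
          rw [this]
          exact mul_mem hc (inv_mem hc')
        subst h3
        have h4 : c = c' := mul_left_cancel h2
        subst h4
        rfl
    · rintro ⟨g, hg⟩
      rcases h.mem_parA.1 hg with h1 | ⟨c, hc, d, hd, h1⟩
      · exact ⟨(⟨g, h1⟩, none), rfl⟩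
      · obtain ⟨t, c', hc', h2, h3⟩ := hX.dec c hc
        refine ⟨(⟨a⁻¹ * c' * a * d, mul_mem h3 hd⟩, some t), Subtype.ext ?_⟩
        change X t * a * (a⁻¹ * c' * a * d) = g
        rw [h1, h2]
        group
  rw [← Nat.card_congr (Equiv.ofBijective f hf), Nat.card_prod, Finite.card_option]

/-- elements of order `l` have no fixed points and lines -/
theorem NF_of [Finite L] [Finite F] (h : PL B N S a b) (hX : Crd B a X) (hY : Crd B b Y) {l : ℕ}
    [Fact l.Prime] (hB : ¬ l ∣ Nat.card B) (hF : ¬ l ∣ Nat.card F + 1) {v : L}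
    (hvH : v ∈ HH B a b) (hvl : v ^ l = 1) (hv1 : v ≠ 1) : NF B a b v := by
  refine ⟨hvH, fun y _ => ?_⟩
  have h1 : ∀ Q : Subgroup L, Nat.card Q = Nat.card B * (Nat.card F + 1) → y⁻¹ * v * y ∉ Q := by
    intro Q hQ hy
    have h2 : (y⁻¹ * v * y) ^ l = 1 := by
      have h3 := conj_pow (i := l) (a := y⁻¹) (b := v)
      rw [inv_inv] at h3
      rw [h3, hvl, mul_one, inv_mul_cancel]
    have h3 : y⁻¹ * v * y ≠ 1 := by
      intro h4
      apply hv1
      have : v = y * (y⁻¹ * v * y) * y⁻¹ := by group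
      rw [this, h4]
      group
    have h4 : orderOf (y⁻¹ * v * y) = l := orderOf_eq_prime h2 h3
    have h5 : orderOf (⟨y⁻¹ * v * y, hy⟩ : Q) ∣ Nat.card Q := orderOf_dvd_natCard _
    rw [← Subgroup.orderOf_coe, h4, hQ] at h5
    rcases (Fact.out : l.Prime).dvd_mul.1 h5 with h6 | h6
    exacts [hB h6, hF h6]
  exact ⟨h1 _ (card_Par h hX), h1 _ (card_Par h.symm hY)⟩

end

end Vale.Agent.P240.R2.N402
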