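import Vale.Agent.P240.R2.N402.SkB

/-!
Radicals of parabolic subgroups.
-/

set_option autoImplicit false

namespace Vale.Agent.P240.R2.N402

open Subgroup Vale.Agent.P240.K Vale.Agent.P240.H195

universe u

section
variable {L : Type u} [Group L]

/-- the largest subgroup of `U` that is normal in `H` -/
def rd (U H : Subgroup L) : Subgroup L where
  carrier := {z | ∀ y ∈ H, y⁻¹ * z * y ∈ U}
  one_mem' := fun y _ => by
    rw [mul_one, inv_mul_cancel]
    exact one_mem _
  mul_mem' := fun {z z'} hz hz' y hy => by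
    have e : y⁻¹ * (z * z') * y = (y⁻¹ * z * y) * (y⁻¹ * z' * y) := by group
    rw [e]
    exact mul_mem (hz y hy) (hz' y hy)
  inv_mem' := fun {z} hz y hy => by
    have e : y⁻¹ * z⁻¹ * y = (y⁻¹ * z * y)⁻¹ := by group
    rw [e]
    exact inv_mem (hz y hy)

variable {U H H' : Subgroup L}

lemma mem_rd {z : L} : z ∈ rd U H ↔ ∀ y ∈ H, y⁻¹ * z * y ∈ U := Iff.rfl

lemma rd_le : rd U H ≤ U := fun z hz => by
  have := hz 1 (one_mem _)
  rwa [inv_one, one_mul, mul_one] at this

lemma rd_conj {z y : L} (hz : z ∈ rd U H) (hy : y ∈ H) : y⁻¹ * z * y ∈ rd U H := by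
  intro y' hy'
  have e : y'⁻¹ * (y⁻¹ * z * y) * y' = (y * y')⁻¹ * z * (y * y') := by group
  rw [e]
  exact hz _ (mul_mem hy hy')

lemma rd_conj' {z y : L} (hz : z ∈ rd U H) (hy : y ∈ H) : y * z * y⁻¹ ∈ rd U H := by
  have := rd_conj hz (inv_mem hy)
  rwa [inv_inv] at this

lemma rd_anti (h : H ≤ H') : rd U H' ≤ rd U H := fun _ hz y hy => hz y (h hy)

lemma cj_rd {y : L} (hy : y ∈ H) : cj y (rd U H) = rd U H := by
  ext z
  rw [mem_cj]
  constructor
  · intro hz
    have := rd_conj' hz hy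
    have e : y * (y⁻¹ * z * y) * y⁻¹ = z := by group
    rwa [e] at this
  · intro hz
    exact rd_conj hz hy

end

end Vale.Agent.P240.R2.N402
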