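import Vale.Agent.P240.R2.N402.F4
import Vale.Agent.P240.R2.N402.Bas
import Vale.Agent.P240.R2.N402.PlD
import Vale.Agent.P240.R2.H945.W.TwF

/-!
`²E₆(q)`, `q` odd: the parabolic subgroup of type `A₂(q²)`.
-/

set_option autoImplicit false

namespace Vale.Agent.P240.R2.N402

open Subgroup Vale.Agent.P240.K Vale.Agent.P240.H195 CartanMatrix
open Vale.Agent.P240.R2.H165.XC Vale.Agent.P240.R2.H945 Vale.Agent.P240.R2.H945.W
open Vale.Agent.P240.R2.H945.W.TS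
open Vale.Agent.P240.R2.H986.X (RC nn nl wl SS wl_nil wl_cons wl_append wl_neg nl_nil nl_cons nl_append)

universe u

section
variable {ι : Type} {F : Type} [Field F] {L : Type u} [Group L]

/-- the situation -/
structure Sit (r : ℕ) (C : RC ι) (e : Fin 4 → ι) (K₀ : Subfield F) (K : ι → Subfield F)
    (x : ι → F → L) (co : ι → Fin 4 → ℤ) : Prop where
  hd : TD F₄ 2 C e K₀ K x
  hc : FC F₄ C e co
  hZ : ∀ g : L, (∀ y, g * y = y * g) → g = 1
  odd : r ≠ 2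

variable {C : RC ι} {e : Fin 4 → ι} {K₀ : Subfield F} {K : ι → Subfield F} {x : ι → F → L}
  {co : ι → Fin 4 → ℤ} {r : ℕ}

/-- the generators -/
abbrev nu (C : RC ι) (e : Fin 4 → ι) (x : ι → F → L) (k : Fin 4) : L := nn C.neg x (e k) 1

namespace Sit
variable (h : Sit r C e K₀ K x co)
include h

lemma ts : TS C K x := h.hd.ts

lemma simp (k : Fin 4) : C.simp (e k) := (h.hd.simp _).2 ⟨k, rfl⟩

lemma simp_l (l : List (Fin 4)) : ∀ i ∈ l.map e, C.simp i := by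
  intro i hi
  obtain ⟨k, -, rfl⟩ := List.mem_map.1 hi
  exact h.simp k

lemma nu_S (k : Fin 4) : nu C e x k ∈ SS C x := ⟨e k, h.simp k, rfl⟩

lemma nu_N (k : Fin 4) : nu C e x k ∈ NN C K x := SS_le _ (h.nu_S k)

/-- positivity of `w(a_k)` -/
lemma ht_wl (l : List (Fin 4)) (k : Fin 4) : C.ht (wl C (l.map e) (e k)) = hv (wf l (sv k)) := by
  rw [h.hc.ht_cv, h.hc.cv_wl, h.hc.cv_simp]

lemma mem_RL (j : ι) : cv co j ∈ RL := h.hc.mem_RL (fun i hi => (h.hd.simp i).1 hi) j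

lemma Ktop {k : Fin 4} (hk : k = 2 ∨ k = 3) (t : F) : t ∈ K (e k) := by
  rcases hk with rfl | rfl
  · rw [h.hd.K4_2]; trivial
  · rw [h.hd.K4_3]; trivial

section
variable [Finite ι] [Finite F] [Finite L] [Fact r.Prime] [CharP F r]

omit [Finite ι] [Finite L] [Fact r.Prime] [CharP F r] in
lemma rg (l : List (Fin 4)) (k : Fin 4) (hp : 0 < hv (wf l (sv k))) :
    RG (BB C K x) (nl C x (l.map e)) (nu C e x k) :=
  rg_pos h.ts (h.simp k) (by rwa [h.ht_wl])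

lemma sb : SB r (BB C K x) (NN C K x) (UU C K x) (SS C x) := (splitBN h.ts h.hZ r).toSB

lemma not_rg (l : List (Fin 4)) (k : Fin 4) (hp : hv (wf l (sv k)) < 0) :
    ¬ RG (BB C K x) (nl C x (l.map e)) (nu C e x k) :=
  not_rg_neg h.ts h.sb.toBN0 (h.simp_l l) (h.simp k) (by rwa [h.ht_wl])

/-- the plane -/
theorem pl : PL (BB C K x) (NN C K x) (SS C x) (nu C e x 2) (nu C e x 3) := by
  have h23 := h.rg [2] 3 (by decide)
  have h32 := h.rg [3] 2 (by decide)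
  have h232 := h.rg [2, 3] 2 (by decide)
  have h323 := h.rg [3, 2] 3 (by decide)
  have hn := h.not_rg [3, 2, 3] 2 (by decide)
  simp only [List.map_cons, List.map_nil, nl_cons, nl_nil, mul_one] at h23 h32 h232 h323 hn
  refine ⟨h.sb.toBN0, h.nu_S 2, h.nu_S 3, h23, h32, h232, h323, ?_⟩
  have h1 := h.sb.toBN0.rg_step (mul_mem (h.nu_N 2) (h.nu_N 3)) (h.nu_S 2) (h.nu_S 3) h232 hn
  have h2 := inv_mem h1
  have e1 : ((nu C e x 3 * (nu C e x 2 * nu C e x 3))⁻¹ *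
      (nu C e x 2 * nu C e x 3 * nu C e x 2))⁻¹ =
      (nu C e x 2 * nu C e x 3 * nu C e x 2)⁻¹ * (nu C e x 3 * nu C e x 2 * nu C e x 3) := by
    group
  rwa [e1] at h2

/-- coordinates -/
theorem crd {k : Fin 4} (hk : k = 2 ∨ k = 3) : Crd (BB C K x) (nu C e x k) (x (e k)) := by
  have hK : ∀ t : F, t ∈ K (e k) := h.Ktop hk
  have hU : ∀ t : F, x (e k) t ∈ UU C K x := fun t => x_mem_UU (C.simp_pos _ (h.simp k)) (hK t)
  refine ⟨fun t => UU_le (hU t), ?_, ?_⟩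
  · intro c hc
    obtain ⟨g, hg, t, ht, rfl⟩ := h.ts.mem_BB hc
    obtain ⟨v, hv, s, hs, rfl⟩ := U_dec h.ts (h.simp k) hg
    have hv' : (x (e k) s)⁻¹ * v * x (e k) s ∈ Ui C K x (e k) := by
      have h1 := Ui_conj_x h.ts (h.simp k) (neg_mem hs) hv
      rwa [h.ts.x_neg (e k) hs, inv_inv] at h1
    refine ⟨s, (x (e k) s)⁻¹ * v * x (e k) s * t, mul_mem (UU_le (Ui_le _ hv')) (TT_le_BB ht),
      by group, ?_⟩
    have e1 : (nu C e x k)⁻¹ * ((x (e k) s)⁻¹ * v * x (e k) s * t) * nu C e x k =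
        ((nu C e x k)⁻¹ * ((x (e k) s)⁻¹ * v * x (e k) s) * nu C e x k) *
          ((nu C e x k)⁻¹ * t * nu C e x k) := by group
    rw [e1]
    exact mul_mem (UU_le (Ui_le _ (Ui_conj_n' h.ts (h.simp k) hv')))
      (TT_le_BB (T_conj_n' h.ts ht))
  · intro t t' h1
    have e1 : (x (e k) t)⁻¹ * x (e k) t' = x (e k) (t' - t) := by
      rw [sub_eq_add_neg, add_comm, h.ts.add _ _ _ (neg_mem (hK t)) (hK t'), h.ts.x_neg _ (hK t)]
    rw [e1] at h1
    have h2 := h.sb.conj_U' Fact.out (hU _) h1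
    obtain ⟨ψ, hψ, hψ0, h5⟩ := n_inv_act h.ts (e k) (e k)
    rw [h5 _ (hK _), C.s_self] at h2
    by_contra hcon
    exact hψ0 _ (hK _) (sub_ne_zero.2 (Ne.symm hcon))
      (h.ts.x_not_mem (simp_neg_lt (h.simp k)) (by rw [h.ts.K_neg]; exact hψ _ (hK _)) h2)

end

/-- the Levi factor -/
def S2 (C : RC ι) (e : Fin 4 → ι) (K : ι → Subfield F) (x : ι → F → L) : Subgroup L :=
  gr K x fun j => ∃ k : Fin 4, (k = 2 ∨ k = 3) ∧ (j = e k ∨ j = C.neg (e k))

omit h in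
lemma x_S2 {k : Fin 4} (hk : k = 2 ∨ k = 3) {t : F} (ht : t ∈ K (e k)) : x (e k) t ∈ S2 C e K x :=
  x_mem_gr ⟨k, hk, Or.inl rfl⟩ ht

omit h in
lemma x_S2' {k : Fin 4} (hk : k = 2 ∨ k = 3) {t : F} (ht : t ∈ K (C.neg (e k))) :
    x (C.neg (e k)) t ∈ S2 C e K x :=
  x_mem_gr ⟨k, hk, Or.inr rfl⟩ ht

lemma nu_S2 {k : Fin 4} (hk : k = 2 ∨ k = 3) : nu C e x k ∈ S2 C e K x :=
  mul_mem (mul_mem (x_S2 hk (one_mem _)) (x_S2' hk (by
    rw [h.ts.K_neg]; exact neg_mem (inv_mem (one_mem _))))) (x_S2 hk (one_mem _))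

/-- `HH` -/
abbrev H23 (C : RC ι) (e : Fin 4 → ι) (K : ι → Subfield F) (x : ι → F → L) : Subgroup L :=
  HH (BB C K x) (nu C e x 2) (nu C e x 3)

lemma nu_H {k : Fin 4} (hk : k = 2 ∨ k = 3) : nu C e x k ∈ H23 C e K x := by
  rcases hk with rfl | rfl
  · exact a_HH
  · exact b_HH

lemma S2_le : S2 C e K x ≤ H23 C e K x := by
  rw [S2, gr, closure_le]
  rintro _ ⟨j, t, ⟨k, hk, rfl | rfl⟩, ht, rfl⟩
  · exact B_le_HH (UU_le (x_mem_UU (C.simp_pos _ (h.simp k)) ht))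
  · -- `x_{-k}(t) = n x_k(..) n⁻¹`
    obtain ⟨v, hv, h1⟩ := n_onto h.ts (e k) (e k) (u := t) (by rwa [h.ts.K_neg] at ht)
    rw [C.s_self] at h1
    rw [h1]
    exact mul_mem (mul_mem (h.nu_H hk) (B_le_HH (UU_le (x_mem_UU (C.simp_pos _ (h.simp k)) hv))))
      (inv_mem (h.nu_H hk))

/-- `S2` centralizes the root group of `j` -/
lemma S2_cent {j : ι} (h1 : ∀ k : Fin 4, (k = 2 ∨ k = 3) → ∀ i, (i = e k ∨ i = C.neg (e k)) →
    i ≠ j ∧ i ≠ C.neg j ∧ ∀ m, ¬ C.cone i j m) {g : L} (hg : g ∈ S2 C e K x) {c : F}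
    (hc : c ∈ K j) : g * x j c = x j c * g := by
  rw [S2, gr] at hg
  induction hg using Subgroup.closure_induction with
  | mem y hy =>
    obtain ⟨i, t, ⟨k, hk, hi⟩, ht, rfl⟩ := hy
    obtain ⟨h2, h3, h4⟩ := h1 k hk i hi
    have h5 := h.ts.comm i j h2 h3 t c ht hc
    have h6 : gr K x (C.cone i j) = ⊥ := by
      rw [gr, closure_eq_bot_iff]
      rintro _ ⟨m, s, hm, -, -⟩
      exact (h4 m hm).elim
    rw [h6, mem_bot] at h5
    have h7 : x i t * x j c = (x i t * x j c * (x i t)⁻¹ * (x j c)⁻¹) * (x j c * x i t) := by group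
    rw [h7, h5, one_mul]
  | one => rw [one_mul, mul_one]
  | mul y z _ _ hy hz => rw [mul_assoc, hz, ← mul_assoc, hy, mul_assoc]
  | inv y _ hy =>
    have : y⁻¹ * x j c = y⁻¹ * (x j c * y) * y⁻¹ := by group
    rw [this, ← hy]
    group

end Sit

end

/-- no roots `m i + n j` -/
lemma RL_e0 : ∀ k ∈ RL, k.2.1 = 0 → 0 < k.1 → k = (1, 0, 0, 0) := by decide +kernel

lemma RL_th : ∀ k ∈ RL, 1 < k.1 → k = (2, 3, 4, 2) := by decide +kernel

lemma RL_th' : ∀ k ∈ RL, 2 < k.2.1 → k = (2, 3, 4, 2) ∨ k = (1, 3, 4, 2) := by decide +kernel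

section
variable {ι : Type} {F : Type} [Field F] {L : Type u} [Group L] {C : RC ι} {e : Fin 4 → ι}
  {K₀ : Subfield F} {K : ι → Subfield F} {x : ι → F → L} {co : ι → Fin 4 → ℤ} {r : ℕ}

/-- the three roots centralized by `S2` -/
def Th (co : ι → Fin 4 → ℤ) (j : ι) : Prop :=
  cv co j = (1, 0, 0, 0) ∨ cv co j = (2, 3, 4, 2) ∨ cv co j = (1, 3, 4, 2)

lemma Sit.S2_Th (h : Sit r C e K₀ K x co) {j : ι} (hj : Th co j) {g : L} (hg : g ∈ S2 C e K x)
    {c : F} (hc : c ∈ K j) : g * x j c = x j c * g := by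
  refine h.S2_cent ?_ hg hc
  intro k hk i hi
  have hi' : cv co i = (0, 0, 1, 0) ∨ cv co i = (0, 0, 0, 1) ∨ cv co i = (0, 0, -1, 0) ∨
      cv co i = (0, 0, 0, -1) := by
    rcases hi with rfl | rfl <;> rcases hk with rfl | rfl
    · exact Or.inl (h.hc.cv_simp 2)
    · exact Or.inr (Or.inl (h.hc.cv_simp 3))
    · exact Or.inr (Or.inr (Or.inl (by rw [h.hc.cv_neg, h.hc.cv_simp]; rfl)))
    · exact Or.inr (Or.inr (Or.inr (by rw [h.hc.cv_neg, h.hc.cv_simp]; rfl)))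
  refine ⟨?_, ?_, ?_⟩
  · rintro rfl
    rcases hj with hj | hj | hj <;> rw [hj] at hi' <;> exact absurd hi' (by decide)
  · rintro rfl
    rw [h.hc.cv_neg] at hi'
    rcases hj with hj | hj | hj <;> rw [hj] at hi' <;> exact absurd hi' (by decide)
  · intro m hm
    obtain ⟨a, b, ha, hb, h1⟩ := h.hc.cone_cv hm
    have h2 := h.mem_RL m
    obtain ⟨w, hw⟩ : ∃ w, w = cv co m := ⟨_, rfl⟩
    rw [← hw] at h1 h2
    rcases hj with hj | hj | hj
    · have h3 := RL_e0 w h2 (by rw [h1, hj]; rcases hi' with hi | hi | hi | hi <;> rw [hi] <;> simp)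
        (by rw [h1, hj]; rcases hi' with hi | hi | hi | hi <;> rw [hi] <;> simp <;> omega)
      rw [h3, hj] at h1
      rcases hi' with hi | hi | hi | hi <;> rw [hi] at h1 <;> simp at h1 <;> omega
    · have h3 := RL_th w h2
        (by rw [h1, hj]; rcases hi' with hi | hi | hi | hi <;> rw [hi] <;> simp <;> omega)
      rw [h3, hj] at h1
      rcases hi' with hi | hi | hi | hi <;> rw [hi] at h1 <;> simp at h1 <;> omega
    · have h3 := RL_th' w h2
        (by rw [h1, hj]; rcases hi' with hi | hi | hi | hi <;> rw [hi] <;> simp <;> omega)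
      rcases h3 with h3 | h3
      · rw [h3, hj] at h1
        rcases hi' with hi | hi | hi | hi <;> rw [hi] at h1 <;> simp at h1 <;> omega
      · rw [h3, hj] at h1
        rcases hi' with hi | hi | hi | hi <;> rw [hi] at h1 <;> simp at h1 <;> omega

end

end Vale.Agent.P240.R2.N402
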