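import Vale.Agent.P240.R2.N402.F4
import Vale.Agent.P240.H195.BNRad

/-!
Statements for helper138 (task T2a): `2E6(q)`, `q` odd.
-/

set_option autoImplicit false

namespace Vale.Agent.P240.R2.N402

open Subgroup Vale.Agent.P240.K Vale.Agent.P240.H195 CartanMatrix
open Vale.Agent.P240.R2.H165.XC Vale.Agent.P240.R2.H945 Vale.Agent.P240.R2.H945.W
open Vale.Agent.P240.R2.H986.X (RC nn nl wl SS)

universe u

section
variable {ι : Type} [Finite ι] {F : Type} [Field F] [Finite F] {L : Type u} [Group L] [Finite L]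
  {C : RC ι} {e : Fin 4 → ι} {K₀ : Subfield F} {K : ι → Subfield F} {x : ι → F → L}
  {co : ι → Fin 4 → ℤ} {r : ℕ} [Fact r.Prime] [CharP F r]

/-- T2a.1 -/
def StmtSign : Prop := ∀ (ι : Type) [Finite ι] (F : Type) [Field F] [Finite F] (L : Type u) [Group L]
  [Finite L] (r : ℕ) [Fact r.Prime] [CharP F r] (C : RC ι) (e : Fin 4 → ι) (K₀ : Subfield F)
  (K : ι → Subfield F) (x : ι → F → L) (co : ι → Fin 4 → ℤ), TD F₄ 2 C e K₀ K x → FC F₄ C e co →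
  (∀ g : L, (∀ y, g * y = y * g) → g = 1) → r ≠ 2 →
  ∀ θ θ' : ι, cv co θ = (2, 3, 4, 2) → cv co θ' = (1, 3, 4, 2) →
  ∀ t ∈ TT C K x, t * t = 1 → (∀ c ∈ K (e 2), t * x (e 2) c * t⁻¹ = x (e 2) c) →
    (∀ c ∈ K (e 3), t * x (e 3) c * t⁻¹ = x (e 3) c) → (∀ c ∈ K θ, t * x θ c * t⁻¹ = x θ c) →
    (∀ c ∈ K θ', t * x θ' c * t⁻¹ = x θ' c) → t = 1

/-- T2a.2 -/
def StmtLemA : Prop := ∀ (ι : Type) [Finite ι] (F : Type) [Field F] [Finite F] (L : Type u) [Group L]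
  [Finite L] (r : ℕ) [Fact r.Prime] [CharP F r] (C : RC ι) (e : Fin 4 → ι) (K₀ : Subfield F)
  (K : ι → Subfield F) (x : ι → F → L) (co : ι → Fin 4 → ℤ), TD F₄ 2 C e K₀ K x → FC F₄ C e co →
  (∀ g : L, (∀ y, g * y = y * g) → g = 1) → r ≠ 2 →
  ∀ θ θ' : ι, cv co θ = (2, 3, 4, 2) → cv co θ' = (1, 3, 4, 2) →
  ∀ E : Subgroup L, (∀ g ∈ E, g * g = 1) → (∀ c ∈ K θ, ∀ g ∈ E, x θ c * g * (x θ c)⁻¹ ∈ E) →
    (∀ c ∈ K θ', ∀ g ∈ E, x θ' c * g * (x θ' c)⁻¹ ∈ E) →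
    E ≤ closure ((BB C K x : Set L) ∪ {nn C.neg x (e 2) 1, nn C.neg x (e 3) 1}) ∧
    (∀ c ∈ K θ, ∀ g ∈ E, x θ c * g = g * x θ c) ∧ ∀ c ∈ K θ', ∀ g ∈ E, x θ' c * g = g * x θ' c

end

end Vale.Agent.P240.R2.N402
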