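import Vale.Agent.P240.H195.BNGeo

/-!
Statements for helper493 (task T2b): BN-pairs only.
-/

set_option autoImplicit false

namespace Vale.Agent.P240.R2.N402

open Subgroup Vale.Agent.P240.K Vale.Agent.P240.H195

universe u

/-- T2b.1: double coset representatives (take `n ∈ N ∩ HgH` of minimal word length) -/
def StmtDC0 : Prop := ∀ (L : Type u) [Group L] (B N : Subgroup L) (S : Set L), BN0 B N S →
  (∀ x : L, ∃ n ∈ N, DC B n x) → ∀ H : Subgroup L, B ≤ H → ∀ g : L,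
  ∃ h₁ ∈ H, ∃ n ∈ N, ∃ h₂ ∈ H, g = h₁ * n * h₂ ∧ Pr B n H ∧ Pr B n⁻¹ H

/-- T2b.2 (exchange, `exch2` with words in `N ⊓ H`): if `z n = n z'` modulo `T` then
`n⁻¹ s n ∈ H` for the left descents `s` of `z` -/
def StmtDC1 : Prop := ∀ (L : Type u) [Group L] (B N : Subgroup L) (S : Set L), BN0 B N S →
  (∀ x : L, ∃ n ∈ N, DC B n x) → ∀ H : Subgroup L, B ≤ H → ∀ n ∈ N, Pr B n H → Pr B n⁻¹ H →
  ∀ z ∈ N, z ∈ H → ∀ z' ∈ N, z' ∈ H → DC B (z * n) (n * z') →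
  ∀ s ∈ S, s ∈ H → ¬ RG B z⁻¹ s → n⁻¹ * s * n ∈ H

/-- T2b.3: `w` longest in `H`: `U ∩ wUw⁻¹` is the radical of `H` (argument of `Vs` in
`SB.exists_rad`, `BNRad.lean`) -/
def StmtLongRad : Prop := ∀ (L : Type u) [Group L] [Finite L] (r : ℕ) [Fact r.Prime]
  (B N U : Subgroup L) (S : Set L) (h : SB r B N U S) (H : Subgroup L) (hBH : B ≤ H) (w : L),
  (h.toBN0.sub_bn hBH).Long w → ∀ v ∈ U, w⁻¹ * v * w ∈ U → ∀ y ∈ H, y⁻¹ * v * y ∈ U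

/-- T2b.4: `n` minimal in `HnH`, `n⁻¹ J n ⊆ H`, `s₀` a left descent of `n`, `w` longest in `H`: then
`U ∩ (nw)U(nw)⁻¹` lies in the radical of `⟨H, s₀⟩` -/
def StmtDC2 : Prop := ∀ (L : Type u) [Group L] [Finite L] (r : ℕ) [Fact r.Prime]
  (B N U : Subgroup L) (S : Set L) (h : SB r B N U S),
  (∀ x : L, ∃ n ∈ N, DC B n x) → ∀ (H : Subgroup L) (hBH : B ≤ H) (w : L),
  (h.toBN0.sub_bn hBH).Long w → ∀ n ∈ N, Pr B n H → Pr B n⁻¹ H →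
  (∀ s ∈ S, s ∈ H → n⁻¹ * s * n ∈ H) → ∀ s₀ ∈ S, ¬ RG B n⁻¹ s₀ →
  -- generators of `⟨H, s₀⟩`
  (∀ s ∈ S, s ∈ H ⊔ zpowers s₀ → s ∈ H ∨ s = s₀) →
  ∀ v ∈ U, (n * w)⁻¹ * v * (n * w) ∈ U → ∀ y ∈ H ⊔ zpowers s₀, y⁻¹ * v * y ∈ U

end Vale.Agent.P240.R2.N402
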