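import Vale.Agent.P240.R2.N402.TD
import Vale.Agent.P240.R2.H986.X.NT

/-!
Root subgroups for all roots from relations of rank two, simply laced case.
-/

set_option autoImplicit false

namespace Vale.Agent.P240.R2.N402

open Subgroup Vale.Agent.P240.R2.H986.X

/-! ### conjugate subgroups -/

section
variable {G : Type*} [Group G]

/-- `g H g⁻¹` -/
def cg (g : G) (H : Subgroup G) : Subgroup G := H.map (MulAut.conj g).toMonoidHom

lemma mem_cg {g y : G} {H : Subgroup G} : y ∈ cg g H ↔ g⁻¹ * y * g ∈ H := by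
  constructor
  · rintro ⟨z, hz, rfl⟩
    have e1 : g⁻¹ * (MulAut.conj g).toMonoidHom z * g = z := by
      change g⁻¹ * (g * z * g⁻¹) * g = z
      group
    rw [e1]
    exact hz
  · intro h
    refine ⟨g⁻¹ * y * g, h, ?_⟩
    change g * (g⁻¹ * y * g) * g⁻¹ = y
    group

lemma conj_mem_cg {g y : G} {H : Subgroup G} (hy : y ∈ H) : g * y * g⁻¹ ∈ cg g H := ⟨y, hy, rfl⟩

lemma cg_mul (a b : G) (H : Subgroup G) : cg (a * b) H = cg a (cg b H) := by
  ext y
  rw [mem_cg, mem_cg, mem_cg]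
  have e1 : (a * b)⁻¹ * y * (a * b) = b⁻¹ * (a⁻¹ * y * a) * b := by group
  rw [e1]

lemma cg_one (H : Subgroup G) : cg 1 H = H := by
  ext y
  rw [mem_cg, inv_one, one_mul, mul_one]

lemma cg_fix {g : G} {H : Subgroup G} (h : ∀ y ∈ H, g * y = y * g) : cg g H = H := by
  ext y
  rw [mem_cg]
  constructor
  · intro hy
    have h1 := h _ hy
    have e1 : y = g * (g⁻¹ * y * g) * g⁻¹ := by group
    rw [e1, h1, mul_inv_cancel_right]
    exact hy
  · intro hy
    rw [mul_assoc, ← h y hy, inv_mul_cancel_left]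
    exact hy

lemma cg_mono {g : G} {H K : Subgroup G} (h : H ≤ K) : cg g H ≤ cg g K := Subgroup.map_mono h

lemma cg_inv_cg (g : G) (H : Subgroup G) : cg g⁻¹ (cg g H) = H := by
  rw [← cg_mul, inv_mul_cancel, cg_one]

lemma cg_cg_inv (g : G) (H : Subgroup G) : cg g (cg g⁻¹ H) = H := by
  rw [← cg_mul, mul_inv_cancel, cg_one]

end

/-! ### simply laced root systems -/

/-- simply laced root systems -/
structure SL {ι : Type*} (C : RC ι) : Prop where
  bd : ∀ b i, C.simp i → b ≠ i → b ≠ C.neg i → C.pr b i = -1 ∨ C.pr b i = 0 ∨ C.pr b i = 1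
  ht_s : ∀ b i, C.simp i → C.ht (C.s i b) = C.ht b - C.pr b i
  pr_sk : ∀ b i k, C.simp i → C.simp k → C.pr (C.s i b) k = C.pr b k - C.pr b i * C.pr i k
  ex_i : ∀ b, 0 < C.ht b → ¬ C.simp b → ∃ i, C.simp i ∧ C.pr b i = 1
  cone : ∀ i k j, C.simp i → C.simp k → i ≠ k → C.cone i k j → C.pr i k = -1 ∧ j = C.s i k
  symm : ∀ i k, C.simp i → C.simp k → C.pr i k = C.pr k i
  s_symm : ∀ i k, C.simp i → C.simp k → C.pr i k = -1 → C.s i k = C.s k i

section
variable {ι : Type*} {F : Type*} [Field F] {G : Type*} [Group G] {C : RC ι}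

namespace SL

variable (h : SL C)
include h

lemma pr_simp {i k : ι} (hi : C.simp i) (hk : C.simp k) (hne : i ≠ k) :
    C.pr i k = 0 ∨ C.pr i k = -1 := by
  have h1 := C.pr_bd k i hk hi hne.symm
  rcases h.bd i k hk hne (fun e => by
    have h2 := C.simp_pos i hi
    have h3 := C.simp_pos k hk
    rw [e, C.ht_neg] at h2
    omega) with h2 | h2 | h2 <;> omega

omit h in
lemma ne_of_pr {b i : ι} {m : ℤ} (hp : C.pr b i = m) (hm : m ≠ 2) : b ≠ i := by
  rintro rfl
  rw [C.pr_self] at hp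
  exact hm hp.symm

omit h in
lemma ne_neg_of_pos {b i : ι} (hi : C.simp i) (hb : 0 < C.ht b) : b ≠ C.neg i := by
  rintro rfl
  have := C.simp_pos i hi
  rw [C.ht_neg] at hb
  omega

omit h in
/-- the reflections in orthogonal roots commute -/
lemma s_comm {i k : ι} (hp : C.pr k i = 0) (b : ι) : C.s i (C.s k b) = C.s k (C.s i b) := by
  have h1 := congrArg (C.s i) (C.s_conj i k b)
  rwa [C.s_fix i k hp, C.s_s] at h1

lemma eq_of_two {b k : ι} (hk : C.simp k) (hp : C.pr b k = 2) : b = k := by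
  by_contra hne
  by_cases h1 : b = C.neg k
  · rw [h1, C.pr_neg, C.pr_self] at hp
    omega
  · rcases h.bd b k hk hne h1 with h2 | h2 | h2 <;> omega

end SL

/-- the data for the construction -/
structure YD (C : RC ι) (Y Z : {i // C.simp i} → Subgroup G) (n : {i // C.simp i} → F → G) :
    Prop where
  yz : ∀ i, Y i ≤ Z i
  nz : ∀ i t, t ≠ 0 → n i t ∈ Z i
  zz : ∀ i k : {i // C.simp i}, i ≠ k → C.pr i.1 k.1 = 0 → ∀ y ∈ Z i, ∀ z ∈ Z k, z * y = y * z
  c : ∀ i k : {i // C.simp i}, C.pr i.1 k.1 = -1 → ∀ t, t ≠ 0 → cg (n i t) (Y k) = cg (n k 1) (Y i)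
  e : ∀ i k : {i // C.simp i}, C.pr i.1 k.1 = -1 → ∀ z ∈ Z k, ∃ y ∈ Z i,
    n i 1 * n k 1 * y * (n i 1 * n k 1)⁻¹ = z
  e' : ∀ i k : {i // C.simp i}, C.pr i.1 k.1 = -1 → ∀ t, t ≠ 0 →
    n i 1 * n k 1 * n i t * (n i 1 * n k 1)⁻¹ = n k t

open scoped Classical in
/-- the root subgroups, with a bound on the height -/
noncomputable def Rf (C : RC ι) (Y : {i // C.simp i} → Subgroup G) (n : {i // C.simp i} → F → G) :
    ℕ → ι → Subgroup G
  | 0, _ => ⊥
  | N + 1, b => if h : C.simp b then Y ⟨b, h⟩ else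
      if h : ∃ i : {i // C.simp i}, C.pr b i.1 = 1 then
        cg (n h.choose 1) (Rf C Y n N (C.s h.choose.1 b)) else ⊥

/-- the root subgroups for the positive roots -/
noncomputable def Rp (C : RC ι) (Y : {i // C.simp i} → Subgroup G) (n : {i // C.simp i} → F → G)
    (b : ι) : Subgroup G := Rf C Y n (C.ht b).toNat b

section
variable {Y Z : {i // C.simp i} → Subgroup G} {n : {i // C.simp i} → F → G}

lemma Rp_simp (i : {i // C.simp i}) : Rp C Y n i.1 = Y i := by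
  have h1 := C.simp_pos i.1 i.2
  obtain ⟨N, hN⟩ : ∃ N, (C.ht i.1).toNat = N + 1 := ⟨(C.ht i.1).toNat - 1, by omega⟩
  rw [Rp, hN, Rf, dif_pos i.2]

lemma Rp_step (hS : SL C) {b : ι} (hb : 0 < C.ht b) (hs : ¬ C.simp b) :
    ∃ i : {i // C.simp i}, C.pr b i.1 = 1 ∧ Rp C Y n b = cg (n i 1) (Rp C Y n (C.s i.1 b)) := by
  obtain ⟨N, hN⟩ : ∃ N, (C.ht b).toNat = N + 1 := ⟨(C.ht b).toNat - 1, by omega⟩
  have h1 : ∃ i : {i // C.simp i}, C.pr b i.1 = 1 := by
    obtain ⟨i, hi, h2⟩ := hS.ex_i b hb hs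
    exact ⟨⟨i, hi⟩, h2⟩
  refine ⟨h1.choose, h1.choose_spec, ?_⟩
  have h2 : (C.ht (C.s h1.choose.1 b)).toNat = N := by
    rw [hS.ht_s b _ h1.choose.2, h1.choose_spec]
    omega
  rw [Rp, hN, Rf, dif_neg hs, dif_pos h1, Rp, h2]

/-- **consistency** -/
theorem Rp_main (hS : SL C) (h : YD C Y Z n) : ∀ (N : ℕ) (b : ι), 0 < C.ht b → (C.ht b).toNat = N →
    (∀ k : {i // C.simp i}, C.pr b k.1 = 1 → Rp C Y n b = cg (n k 1) (Rp C Y n (C.s k.1 b))) ∧
    (∀ k : {i // C.simp i}, C.pr b k.1 = 0 → ∀ y ∈ Rp C Y n b, ∀ z ∈ Z k, z * y = y * z) ∧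
    (∀ k : {i // C.simp i}, C.pr b k.1 = -1 → ∀ t, t ≠ 0 →
      cg (n k t) (Rp C Y n b) = cg (n k 1) (Rp C Y n b)) := by
  intro N
  induction N using Nat.strong_induction_on with
  | _ N ih =>
  intro b hb hN
  by_cases hs : C.simp b
  · -- a simple root
    have hR : Rp C Y n b = Y ⟨b, hs⟩ := Rp_simp ⟨b, hs⟩
    refine ⟨fun k hk => ?_, fun k hk y hy z hz => ?_, fun k hk t ht => ?_⟩
    · exfalso
      have hne : b ≠ k.1 := SL.ne_of_pr hk (by norm_num)
      rcases hS.pr_simp hs k.2 hne with h1 | h1 <;> omega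
    · rw [hR] at hy
      have hne : b ≠ k.1 := SL.ne_of_pr hk (by norm_num)
      exact h.zz ⟨b, hs⟩ k (fun e => hne (congrArg Subtype.val e)) hk y (h.yz _ hy) z hz
    · rw [hR]
      have hk' : C.pr k.1 b = -1 := by rw [hS.symm k.1 b k.2 hs, hk]
      rw [h.c k ⟨b, hs⟩ hk' t ht, h.c k ⟨b, hs⟩ hk' 1 one_ne_zero]
  · -- not simple
    obtain ⟨i, hi, hR⟩ := Rp_step (Y := Y) (n := n) hS hb hs
    have hbi : b ≠ i.1 := SL.ne_of_pr hi (by norm_num)
    have hb' : 0 < C.ht (C.s i.1 b) := C.s_pos i.1 b i.2 hb hbi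
    have hht : C.ht (C.s i.1 b) = C.ht b - 1 := by rw [hS.ht_s b i.1 i.2, hi]
    have ih' := ih (C.ht (C.s i.1 b)).toNat (by omega) (C.s i.1 b) hb' rfl
    have hpi : C.pr (C.s i.1 b) i.1 = -1 := by rw [C.pr_s, hi]
    refine ⟨fun k hk => ?_, fun k hk y hy z hz => ?_, fun k hk t ht => ?_⟩
    · -- consistency
      by_cases hik : i = k
      · rw [← hik]; exact hR
      have hik' : i.1 ≠ k.1 := fun e => hik (Subtype.ext e)
      have hbk : b ≠ k.1 := SL.ne_of_pr hk (by norm_num)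
      have hprk : C.pr (C.s i.1 b) k.1 = 1 - C.pr i.1 k.1 := by
        rw [hS.pr_sk b i.1 k.1 i.2 k.2, hk, hi, one_mul]
      rcases hS.pr_simp i.2 k.2 hik' with h0 | h0
      · rw [h0, sub_zero] at hprk
        have h1 := ih'.1 k hprk
        have hbk' : 0 < C.ht (C.s k.1 b) := C.s_pos k.1 b k.2 hb hbk
        have hhtk : C.ht (C.s k.1 b) = C.ht b - 1 := by rw [hS.ht_s b k.1 k.2, hk]
        have ih'' := ih (C.ht (C.s k.1 b)).toNat (by omega) (C.s k.1 b) hbk' rfl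
        have hpri : C.pr (C.s k.1 b) i.1 = 1 := by
          rw [hS.pr_sk b k.1 i.1 k.2 i.2, hk, hi, one_mul, hS.symm k.1 i.1 k.2 i.2, h0, sub_zero]
        have h2 := ih''.1 i hpri
        rw [hR, h1, h2, ← cg_mul, ← cg_mul, SL.s_comm h0]
        congr 1
        exact (h.zz i k hik h0 _ (h.nz i 1 one_ne_zero) _ (h.nz k 1 one_ne_zero)).symm
      · rw [h0] at hprk
        have h1 : C.s i.1 b = k.1 := hS.eq_of_two k.2 (by rw [hprk]; norm_num)
        have h2 : C.s k.1 b = i.1 := by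
          refine hS.eq_of_two i.2 ?_
          rw [hS.pr_sk b k.1 i.1 k.2 i.2, hk, hi, one_mul, hS.symm k.1 i.1 k.2 i.2, h0]
          norm_num
        rw [hR, h1, h2, Rp_simp, Rp_simp]
        exact h.c i k h0 1 one_ne_zero
    · -- commuting
      have hne : i ≠ k := by
        rintro rfl
        omega
      have hik' : i.1 ≠ k.1 := fun e => hne (Subtype.ext e)
      rw [hR, mem_cg] at hy
      have hprk : C.pr (C.s i.1 b) k.1 = - C.pr i.1 k.1 := by
        rw [hS.pr_sk b i.1 k.1 i.2 k.2, hk, hi, one_mul, zero_sub]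
      rcases hS.pr_simp i.2 k.2 hik' with h0 | h0
      · rw [h0, neg_zero] at hprk
        have h1 := ih'.2.1 k hprk _ hy z hz
        have h2 := h.zz i k hne h0 _ (h.nz i 1 one_ne_zero) z hz
        have e1 : z * y = (z * n i 1) * ((n i 1)⁻¹ * y * n i 1) * (n i 1)⁻¹ := by group
        rw [e1, h2, mul_assoc (n i 1) z, h1]
        have h3 : z * (n i 1)⁻¹ = (n i 1)⁻¹ * z := by
          rw [mul_inv_eq_iff_eq_mul, mul_assoc, h2, inv_mul_cancel_left]
        calc n i 1 * ((n i 1)⁻¹ * y * n i 1 * z) * (n i 1)⁻¹ = y * n i 1 * (z * (n i 1)⁻¹) := by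
              group
          _ = y * z := by rw [h3]; group
      · rw [h0, neg_neg] at hprk
        -- `b'' = s_k b'`
        have hbk : C.s i.1 b ≠ k.1 := SL.ne_of_pr hprk (by norm_num)
        have hb'' : 0 < C.ht (C.s k.1 (C.s i.1 b)) := C.s_pos k.1 _ k.2 hb' hbk
        have hht' : C.ht (C.s k.1 (C.s i.1 b)) = C.ht b - 2 := by
          rw [hS.ht_s _ k.1 k.2, hprk, hht]
          ring
        have ih'' := ih (C.ht (C.s k.1 (C.s i.1 b))).toNat (by omega) _ hb'' rfl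
        have h1 := ih'.1 k hprk
        have hpri : C.pr (C.s k.1 (C.s i.1 b)) i.1 = 0 := by
          rw [hS.pr_sk _ k.1 i.1 k.2 i.2, hprk, hpi, hS.symm k.1 i.1 k.2 i.2, h0]
          norm_num
        rw [h1, mem_cg] at hy
        obtain ⟨z', hz', rfl⟩ := h.e i k h0 z hz
        have h2 := ih''.2.1 i hpri _ hy z' hz'
        have e1 : (n k 1)⁻¹ * ((n i 1)⁻¹ * y * n i 1) * n k 1 =
            (n i 1 * n k 1)⁻¹ * y * (n i 1 * n k 1) := by group
        rw [e1] at h2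
        calc n i 1 * n k 1 * z' * (n i 1 * n k 1)⁻¹ * y
            = n i 1 * n k 1 * (z' * ((n i 1 * n k 1)⁻¹ * y * (n i 1 * n k 1))) *
              (n i 1 * n k 1)⁻¹ := by group
          _ = _ := by rw [h2]; group
    · -- the torus
      have hne : i ≠ k := by
        rintro rfl
        omega
      have hik' : i.1 ≠ k.1 := fun e => hne (Subtype.ext e)
      have hprk : C.pr (C.s i.1 b) k.1 = -1 - C.pr i.1 k.1 := by
        rw [hS.pr_sk b i.1 k.1 i.2 k.2, hk, hi, one_mul]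
      rcases hS.pr_simp i.2 k.2 hik' with h0 | h0
      · rw [h0, sub_zero] at hprk
        have h1 := ih'.2.2 k hprk t ht
        have h2 : ∀ t, t ≠ 0 → n k t * n i 1 = n i 1 * n k t := fun t ht =>
          h.zz i k hne h0 _ (h.nz i 1 one_ne_zero) _ (h.nz k t ht)
        rw [hR, ← cg_mul, h2 t ht, cg_mul, h1, ← cg_mul, ← h2 1 one_ne_zero, cg_mul]
      · rw [h0] at hprk
        have hprk' : C.pr (C.s i.1 b) k.1 = 0 := by rw [hprk]; norm_num
        have h1 := ih'.2.1 k hprk'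
        have h2 := ih'.2.2 i hpi
        -- `n_k(t) n_i = n_i n_k n_i(t) n_k⁻¹`
        have h3 : ∀ t, t ≠ 0 → n k t * n i 1 = n i 1 * n k 1 * n i t * (n k 1)⁻¹ := by
          intro t ht
          rw [← h.e' i k h0 t ht]
          group
        have h4 : cg (n k 1)⁻¹ (Rp C Y n (C.s i.1 b)) = Rp C Y n (C.s i.1 b) :=
          cg_fix fun y hy => h1 y hy _ (inv_mem (h.nz k 1 one_ne_zero))
        rw [hR, ← cg_mul, ← cg_mul, h3 t ht, h3 1 one_ne_zero, cg_mul, h4, cg_mul, h2 t ht,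
          cg_mul _ (n k 1)⁻¹, h4, cg_mul _ (n i 1)]

end

end

end Vale.Agent.P240.R2.N402
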