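import Vale.Agent.P240.R2.N402.TE

/-!
The action on the root subgroups.
-/

set_option autoImplicit false

namespace Vale.Agent.P240.R2.N402

open Subgroup Vale.Agent.P240.R2.H986.X

section
variable {G : Type*} [Group G]

lemma comm_closure {S T : Set G} (h : ∀ a ∈ S, ∀ b ∈ T, b * a = a * b) :
    ∀ y ∈ closure S, ∀ z ∈ closure T, z * y = y * z := by
  have h1 : ∀ b ∈ T, ∀ y ∈ closure S, b * y = y * b := by
    intro b hb y hy
    have h2 : closure S ≤ centralizer {b} := by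
      rw [closure_le]
      intro a ha
      rw [SetLike.mem_coe, mem_centralizer_iff]
      rintro _ rfl
      exact h a ha _ hb
    exact mem_centralizer_iff.1 (h2 hy) b rfl
  intro y hy z hz
  have h2 : closure T ≤ centralizer {y} := by
    rw [closure_le]
    intro b hb
    rw [SetLike.mem_coe, mem_centralizer_iff]
    rintro _ rfl
    exact (h1 b hb _ hy).symm
  exact (mem_centralizer_iff.1 (h2 hz) y rfl).symm

end

section
variable {J : Type*} {F : Type*} [Field F] {G : Type*} [Group G] {A : J → J → ℤ} {m p : J → F → G}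

/-- the group of the elements `m_i(t)` -/
def Xs (m : J → F → G) (i : J) : Subgroup G := closure (Set.range (m i))

/-- the group of the elements `m_i(t)` and `p_i(t)` -/
def Zs (m p : J → F → G) (i : J) : Subgroup G := closure (Set.range (m i) ∪ Set.range (p i))

lemma mem_Xs (h : ∀ i t u, m i (t + u) = m i t * m i u) {i : J} {y : G} :
    y ∈ Xs m i ↔ ∃ t, y = m i t := by
  have h0 : m i 0 = 1 := by
    have h1 := h i 0 0
    rw [add_zero] at h1
    exact mul_eq_left.1 h1.symm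
  constructor
  · intro hy
    refine closure_induction (p := fun y _ => ∃ t, y = m i t) ?_ ⟨0, h0.symm⟩ ?_ ?_ hy
    · rintro _ ⟨t, rfl⟩
      exact ⟨t, rfl⟩
    · rintro _ _ _ _ ⟨t, rfl⟩ ⟨u, rfl⟩
      exact ⟨t + u, (h i t u).symm⟩
    · rintro _ _ ⟨t, rfl⟩
      refine ⟨-t, ?_⟩
      rw [inv_eq_iff_mul_eq_one, ← h, add_neg_cancel, h0]
  · rintro ⟨t, rfl⟩
    exact subset_closure ⟨t, rfl⟩

namespace CT

variable (h : CT A m p)
include h

lemma m_zero (i : J) : m i 0 = 1 := by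
  have h1 := h.add i 0 0
  rw [add_zero] at h1
  exact mul_eq_left.1 h1.symm

lemma p_zero (i : J) : p i 0 = 1 := by
  have h1 := h.add' i 0 0
  rw [add_zero] at h1
  exact mul_eq_left.1 h1.symm

lemma m_neg (i : J) (t : F) : m i (-t) = (m i t)⁻¹ := by
  rw [eq_inv_iff_mul_eq_one, ← h.add, neg_add_cancel, h.m_zero]

lemma p_neg (i : J) (t : F) : p i (-t) = (p i t)⁻¹ := by
  rw [eq_inv_iff_mul_eq_one, ← h.add', neg_add_cancel, h.p_zero]

lemma nt_inv (i : J) (t : F) : (nt m p i t)⁻¹ = nt m p i (-t) := by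
  rw [nt, nt, mul_inv_rev, mul_inv_rev, ← h.m_neg, ← h.p_neg, inv_neg, neg_neg, mul_assoc]

lemma mem_X {i : J} {y : G} : y ∈ Xs m i ↔ ∃ t, y = m i t := mem_Xs h.add

lemma mem_Xo {i : J} {y : G} : y ∈ Xs p i ↔ ∃ t, y = p i t := mem_Xs h.add'

omit h [Field F] in
lemma m_mem_Z (i : J) (t : F) : m i t ∈ Zs m p i := subset_closure (Or.inl ⟨t, rfl⟩)

omit h [Field F] in
lemma p_mem_Z (i : J) (t : F) : p i t ∈ Zs m p i := subset_closure (Or.inr ⟨t, rfl⟩)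

omit h in
lemma nt_mem_Z (i : J) (t : F) : nt m p i t ∈ Zs m p i :=
  mul_mem (mul_mem (m_mem_Z i t) (p_mem_Z i _)) (m_mem_Z i t)

lemma zz {i k : J} (hne : i ≠ k) (h0 : A i k = 0) :
    ∀ y ∈ Zs m p i, ∀ z ∈ Zs m p k, z * y = y * z := by
  refine comm_closure ?_
  rintro _ (⟨t, rfl⟩ | ⟨t, rfl⟩) _ (⟨u, rfl⟩ | ⟨u, rfl⟩)
  · exact (h.r2 i k hne h0 t u).symm
  · exact (h.r3 i k hne t u).symm
  · exact h.r3 k i hne.symm u t
  · exact (h.r2' i k hne h0 t u).symm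

lemma cX {i k : J} (h1 : A i k = -1) {t : F} (ht : t ≠ 0) :
    cg (nt m p i t) (Xs m k) = cg (nt m p k 1) (Xs m i) := by
  ext y
  rw [mem_cg, mem_cg, h.mem_X, h.mem_X]
  constructor
  · rintro ⟨u, hu⟩
    refine ⟨-(t * u), ?_⟩
    have h2 := h.r4 i k h1 t u ht
    rw [← hu] at h2
    have e1 : m i (-(t * u)) = (nt m p k 1)⁻¹ * (nt m p k 1 * m i (-(t * u)) * (nt m p k 1)⁻¹) *
      nt m p k 1 := by group
    rw [e1, ← h2]
    group
  · rintro ⟨u, hu⟩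
    refine ⟨-(t⁻¹ * u), ?_⟩
    have h2 := h.r4 i k h1 t (-(t⁻¹ * u)) ht
    have e2 : -(t * -(t⁻¹ * u)) = u := by field_simp
    rw [e2, ← hu] at h2
    have e1 : m k (-(t⁻¹ * u)) = (nt m p i t)⁻¹ * (nt m p i t * m k (-(t⁻¹ * u)) * (nt m p i t)⁻¹) *
      nt m p i t := by group
    rw [e1, h2]
    group

lemma cXo {i k : J} (h1 : A i k = -1) {t : F} (ht : t ≠ 0) :
    cg (nt m p i t) (Xs p k) = cg (nt m p k 1) (Xs p i) := by
  ext y
  rw [mem_cg, mem_cg, h.mem_Xo, h.mem_Xo]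
  constructor
  · rintro ⟨u, hu⟩
    refine ⟨-(t⁻¹ * u), ?_⟩
    have h2 := h.r4' i k h1 t u ht
    rw [← hu] at h2
    have e1 : p i (-(t⁻¹ * u)) = (nt m p k 1)⁻¹ * (nt m p k 1 * p i (-(t⁻¹ * u)) *
      (nt m p k 1)⁻¹) * nt m p k 1 := by group
    rw [e1, ← h2]
    group
  · rintro ⟨u, hu⟩
    refine ⟨-(t * u), ?_⟩
    have h2 := h.r4' i k h1 t (-(t * u)) ht
    have e2 : -(t⁻¹ * -(t * u)) = u := by field_simp
    rw [e2, ← hu] at h2
    have e1 : p k (-(t * u)) = (nt m p i t)⁻¹ * (nt m p i t * p k (-(t * u)) * (nt m p i t)⁻¹) *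
      nt m p i t := by group
    rw [e1, h2]
    group

lemma e1m {i k : J} (h1 : A i k = -1) (u : F) :
    nt m p i 1 * nt m p k 1 * m i u * (nt m p i 1 * nt m p k 1)⁻¹ = m k u := by
  have h2 := h.r4 i k h1 1 (-u) one_ne_zero
  rw [one_mul, neg_neg] at h2
  have h3 := h.r5 i k h1 (-u)
  rw [neg_neg] at h3
  rw [← h3]
  calc nt m p i 1 * nt m p k 1 * m i u * (nt m p i 1 * nt m p k 1)⁻¹
      = nt m p i 1 * (nt m p k 1 * m i u * (nt m p k 1)⁻¹) * (nt m p i 1)⁻¹ := by group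
    _ = _ := by rw [← h2]; group

lemma e1p {i k : J} (h1 : A i k = -1) (u : F) :
    nt m p i 1 * nt m p k 1 * p i u * (nt m p i 1 * nt m p k 1)⁻¹ = p k u := by
  have h2 := h.r4' i k h1 1 (-u) one_ne_zero
  rw [inv_one, one_mul, neg_neg] at h2
  have h3 := h.r5' i k h1 (-u)
  rw [neg_neg] at h3
  rw [← h3]
  calc nt m p i 1 * nt m p k 1 * p i u * (nt m p i 1 * nt m p k 1)⁻¹
      = nt m p i 1 * (nt m p k 1 * p i u * (nt m p k 1)⁻¹) * (nt m p i 1)⁻¹ := by group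
    _ = _ := by rw [← h2]; group

lemma e1n {i k : J} (h1 : A i k = -1) (t : F) :
    nt m p i 1 * nt m p k 1 * nt m p i t * (nt m p i 1 * nt m p k 1)⁻¹ = nt m p k t := by
  obtain ⟨g, hg⟩ : ∃ g, g = nt m p i 1 * nt m p k 1 := ⟨_, rfl⟩
  rw [← hg]
  calc g * nt m p i t * g⁻¹ = (g * m i t * g⁻¹) * (g * p i (-t⁻¹) * g⁻¹) * (g * m i t * g⁻¹) := by
        rw [nt]; group
    _ = _ := by rw [hg, h.e1m h1, h.e1p h1]; rfl

lemma eZ {i k : J} (h1 : A i k = -1) {z : G} (hz : z ∈ Zs m p k) :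
    ∃ y ∈ Zs m p i, nt m p i 1 * nt m p k 1 * y * (nt m p i 1 * nt m p k 1)⁻¹ = z := by
  have h2 : Zs m p k ≤ cg (nt m p i 1 * nt m p k 1) (Zs m p i) := by
    rw [Zs, closure_le]
    rintro _ (⟨u, rfl⟩ | ⟨u, rfl⟩)
    · rw [SetLike.mem_coe, ← h.e1m h1 u]
      exact conj_mem_cg (m_mem_Z i u)
    · rw [SetLike.mem_coe, ← h.e1p h1 u]
      exact conj_mem_cg (p_mem_Z i u)
  obtain ⟨y, hy, e⟩ := h2 hz
  exact ⟨y, hy, e⟩

lemma nX (i : J) {t : F} (ht : t ≠ 0) : cg (nt m p i t) (Xs m i) = Xs p i := by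
  ext y
  rw [mem_cg, h.mem_X, h.mem_Xo]
  constructor
  · rintro ⟨u, hu⟩
    refine ⟨-(t⁻¹ * t⁻¹ * u), ?_⟩
    rw [← h.r1 i t u ht, ← hu]
    group
  · rintro ⟨u, rfl⟩
    refine ⟨-(t * t * u), ?_⟩
    have h2 := h.r1 i t (-(t * t * u)) ht
    have e2 : -(t⁻¹ * t⁻¹ * -(t * t * u)) = u := by field_simp
    rw [e2] at h2
    rw [← h2]
    group

lemma nXo (i : J) {t : F} (ht : t ≠ 0) : cg (nt m p i t) (Xs p i) = Xs m i := by
  have h1 := h.nX i (neg_ne_zero.2 ht)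
  rw [← h1, ← cg_mul, ← h.nt_inv, mul_inv_cancel, cg_one]

end CT

end

section
variable {ι : Type*} {F : Type*} [Field F] {G : Type*} [Group G] {C : RC ι}
  {m p : {i // C.simp i} → F → G}

namespace CT

variable (h : CT (fun i k : {i // C.simp i} => C.pr i.1 k.1) m p) (hS : SL C)
include h hS

lemma ydm : YD C (Xs m) (Zs m p) (nt m p) where
  yz i := by
    rw [Xs, closure_le]
    rintro _ ⟨t, rfl⟩
    exact m_mem_Z i t
  nz i t _ := nt_mem_Z i t
  zz i k hne h0 := h.zz hne h0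
  c i k h1 t ht := h.cX h1 ht
  e i k h1 z hz := h.eZ h1 hz
  e' i k h1 t _ := h.e1n h1 t

lemma ydp : YD C (Xs p) (Zs m p) (nt m p) where
  yz i := by
    rw [Xs, closure_le]
    rintro _ ⟨t, rfl⟩
    exact p_mem_Z i t
  nz i t _ := nt_mem_Z i t
  zz i k hne h0 := h.zz hne h0
  c i k h1 t ht := h.cXo h1 ht
  e i k h1 z hz := h.eZ h1 hz
  e' i k h1 t _ := h.e1n h1 t

end CT

lemma act_pos {Y Z : {i // C.simp i} → Subgroup G} {n : {i // C.simp i} → F → G} (hS : SL C)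
    (h : YD C Y Z n) (hn : ∀ i t, (n i t)⁻¹ = n i (-t)) {b : ι} (hb : 0 < C.ht b)
    (i : {i // C.simp i}) (hbi : b ≠ i.1) {t : F} (ht : t ≠ 0) :
    cg (n i t) (Rp C Y n b) = Rp C Y n (C.s i.1 b) := by
  have key : ∀ b : ι, 0 < C.ht b → b ≠ i.1 → C.pr b i.1 = -1 → ∀ t, t ≠ 0 →
      cg (n i t) (Rp C Y n b) = Rp C Y n (C.s i.1 b) := by
    intro b hb hbi h1 t ht
    have h2 := (Rp_main hS h _ b hb rfl).2.2 i h1 t ht
    have h3 := (Rp_main hS h _ (C.s i.1 b) (C.s_pos i.1 b i.2 hb hbi) rfl).1 i (by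
      rw [C.pr_s, h1, neg_neg])
    rw [C.s_s] at h3
    rw [h2, h3]
  rcases hS.bd b i.1 i.2 hbi (SL.ne_neg_of_pos i.2 hb) with h1 | h1 | h1
  · exact key b hb hbi h1 t ht
  · rw [C.s_fix i.1 b h1]
    exact cg_fix fun y hy => (Rp_main hS h _ b hb rfl).2.1 i h1 y hy _ (h.nz i t ht)
  · have h2 := key (C.s i.1 b) (C.s_pos i.1 b i.2 hb hbi) (SL.ne_of_pr (m := -1) (by
      rw [C.pr_s, h1]) (by norm_num)) (by rw [C.pr_s, h1]) (-t) (neg_ne_zero.2 ht)
    rw [C.s_s] at h2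
    rw [← h2, ← hn, cg_cg_inv]

open scoped Classical in
/-- the root subgroups -/
noncomputable def RR (C : RC ι) (m p : {i // C.simp i} → F → G) (b : ι) : Subgroup G :=
  if 0 < C.ht b then Rp C (Xs m) (nt m p) b else Rp C (Xs p) (nt m p) (C.neg b)

lemma RR_pos {b : ι} (hb : 0 < C.ht b) : RR C m p b = Rp C (Xs m) (nt m p) b := if_pos hb

lemma RR_neg {b : ι} (hb : C.ht b < 0) : RR C m p b = Rp C (Xs p) (nt m p) (C.neg b) :=
  if_neg (by omega)

lemma RR_simp (i : {i // C.simp i}) : RR C m p i.1 = Xs m i := by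
  rw [RR_pos (C.simp_pos i.1 i.2), Rp_simp]

lemma RR_simp' (i : {i // C.simp i}) : RR C m p (C.neg i.1) = Xs p i := by
  have h1 := C.simp_pos i.1 i.2
  rw [RR_neg (by rw [C.ht_neg]; omega), C.neg_neg, Rp_simp]

/-- **the action on the root subgroups** -/
theorem RR_act (h : CT (fun i k : {i // C.simp i} => C.pr i.1 k.1) m p) (hS : SL C)
    (i : {i // C.simp i}) {t : F} (ht : t ≠ 0) (b : ι) :
    cg (nt m p i t) (RR C m p b) = RR C m p (C.s i.1 b) := by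
  by_cases hbi : b = i.1
  · rw [hbi, C.s_self, RR_simp, RR_simp', h.nX i ht]
  by_cases hbn : b = C.neg i.1
  · rw [hbn, C.s_neg, C.s_self, C.neg_neg, RR_simp, RR_simp', h.nXo i ht]
  have hbn' : C.neg b ≠ i.1 := fun e => hbn (by rw [← e, C.neg_neg])
  rcases lt_or_gt_of_ne (C.ht_ne b) with hb | hb
  · have hb' : 0 < C.ht (C.neg b) := by rw [C.ht_neg]; omega
    have h1 := C.s_pos i.1 (C.neg b) i.2 hb' hbn'
    have h2 : C.ht (C.s i.1 b) < 0 := by
      rw [C.s_neg, C.ht_neg] at h1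
      omega
    rw [RR_neg hb, RR_neg h2, act_pos hS (h.ydp hS) h.nt_inv hb' i hbn' ht, C.s_neg]
  · have h1 := C.s_pos i.1 b i.2 hb hbi
    rw [RR_pos hb, RR_pos h1, act_pos hS (h.ydm hS) h.nt_inv hb i hbi ht]

end

end Vale.Agent.P240.R2.N402
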