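import Vale.Agent.P240.R2.N402.TF
import Vale.Agent.P240.R2.H986.X.Rt

/-!
The Bruhat decomposition, and central kernels.
-/

set_option autoImplicit false

namespace Vale.Agent.P240.R2.N402

open Subgroup Vale.Agent.P240.R2.H986.X

section
variable {J : Type*} {F : Type*} [Field F] {G : Type*} [Group G] {A : J → J → ℤ} {m p : J → F → G}

/-- the group of the elements `m_i(t)` for all `i` -/
def Um (m : J → F → G) : Subgroup G := closure {g | ∃ i t, g = m i t}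

/-- the group of the elements `m_i(s) m_j(t) m_i(s)⁻¹` for `j ≠ i` -/
def Vm (m : J → F → G) (i : J) : Subgroup G :=
  closure {g | ∃ j s t, j ≠ i ∧ g = m i s * m j t * (m i s)⁻¹}

/-- the group of the elements `n_i(t)` for all `i` -/
def NmT (m p : J → F → G) : Subgroup G := closure {g | ∃ i t, t ≠ 0 ∧ g = nt m p i t}

omit [Field F] in
lemma m_mem_U (i : J) (t : F) : m i t ∈ Um m := subset_closure ⟨i, t, rfl⟩

omit [Field F] in
lemma V_le (i : J) : Vm m i ≤ Um m := by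
  rw [Vm, closure_le]
  rintro _ ⟨j, s, t, -, rfl⟩
  exact mul_mem (mul_mem (m_mem_U i s) (m_mem_U j t)) (inv_mem (m_mem_U i s))

namespace CT

variable (h : CT A m p)
include h

lemma m_conj_V (i : J) (s : F) {v : G} (hv : v ∈ Vm m i) : m i s * v * (m i s)⁻¹ ∈ Vm m i := by
  have h1 : cg (m i s) (Vm m i) ≤ Vm m i := by
    rw [cg, map_le_iff_le_comap, Vm, closure_le]
    rintro _ ⟨j, s', t, hj, rfl⟩
    refine subset_closure ⟨j, s + s', t, hj, ?_⟩
    change m i s * (m i s' * m j t * (m i s')⁻¹) * (m i s)⁻¹ = _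
    rw [h.add]
    group
  exact h1 (conj_mem_cg hv)

/-- `U = V_i X_i` -/
lemma U_fac (i : J) {u : G} (hu : u ∈ Um m) : ∃ v ∈ Vm m i, ∃ t : F, u = v * m i t := by
  have step : ∀ (j : J) (w : F) (y : G), (∃ v ∈ Vm m i, ∃ t : F, y = v * m i t) →
      ∃ v ∈ Vm m i, ∃ t : F, m j w * y = v * m i t := by
    rintro j w _ ⟨v, hv, t, rfl⟩
    by_cases hji : j = i
    · subst hji
      refine ⟨m j w * v * (m j w)⁻¹, h.m_conj_V j w hv, w + t, ?_⟩
      rw [h.add]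
      group
    · refine ⟨m j w * v, mul_mem (subset_closure ⟨j, 0, w, hji, ?_⟩) hv, t, by group⟩
      rw [h.m_zero]
      group
  refine closure_induction_left (p := fun u _ => ∃ v ∈ Vm m i, ∃ t : F, u = v * m i t)
    ⟨1, one_mem _, 0, by rw [h.m_zero, one_mul]⟩ ?_ ?_ hu
  · rintro _ ⟨j, w, rfl⟩ y _ hy
    exact step j w y hy
  · rintro _ ⟨j, w, rfl⟩ y _ hy
    rw [← h.m_neg]
    exact step j (-w) y hy

/-- `n_i(t)` normalizes `V_i` -/
lemma n_conj_V (h2 : ∀ i k, i ≠ k → A i k = 0 ∨ A i k = -1) (i : J) {t : F}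
    (ht : t ≠ 0) {v : G} (hv : v ∈ Vm m i) : nt m p i t * v * (nt m p i t)⁻¹ ∈ Vm m i := by
  have h1 : cg (nt m p i t) (Vm m i) ≤ Vm m i := by
    rw [cg, map_le_iff_le_comap, Vm, closure_le]
    rintro _ ⟨j, s, u, hj, rfl⟩
    change nt m p i t * (m i s * m j u * (m i s)⁻¹) * (nt m p i t)⁻¹ ∈ Vm m i
    have hmj : ∀ w, m j w ∈ Vm m i := fun w => subset_closure ⟨j, 0, w, hj, by
      rw [h.m_zero]; group⟩
    rcases h2 i j hj.symm with h0 | h0
    · -- orthogonal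
      have e1 : m i s * m j u * (m i s)⁻¹ = m j u := by
        rw [h.r2 i j hj.symm h0 s u, mul_inv_cancel_right]
      have e2 : nt m p i t * m j u * (nt m p i t)⁻¹ = m j u := by
        rw [mul_inv_eq_iff_eq_mul]
        exact (h.zz hj.symm h0 _ (nt_mem_Z i t) _ (m_mem_Z j u)).symm
      rw [e1, e2]
      exact hmj u
    · -- adjacent
      have e3 : nt m p i t * m j u * (nt m p i t)⁻¹ ∈ Vm m i := by
        rw [← h.r6 i j h0 t u ht]
        exact mul_mem (subset_closure ⟨j, t, u, hj, rfl⟩) (inv_mem (hmj u))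
      by_cases hs : s = 0
      · rw [hs, h.m_zero, one_mul, inv_one, mul_one]
        exact e3
      · have e4 : m i s * m j u * (m i s)⁻¹ = nt m p i s * m j u * (nt m p i s)⁻¹ * m j u := by
          rw [← h.r6 i j h0 s u hs, inv_mul_cancel_right]
        have e5 : nt m p i t * (nt m p i s * m j u * (nt m p i s)⁻¹) * (nt m p i t)⁻¹ ∈
            Xs m j := by
          have h6 : nt m p i s * m j u * (nt m p i s)⁻¹ ∈ cg (nt m p i s) (Xs m j) :=
            conj_mem_cg (subset_closure ⟨u, rfl⟩)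
          rw [h.cX h0 hs, ← h.cX h0 (neg_ne_zero.2 ht), ← h.nt_inv] at h6
          have h7 := conj_mem_cg (g := nt m p i t) h6
          rwa [cg_cg_inv] at h7
        obtain ⟨w, hw⟩ := h.mem_X.1 e5
        have e6 : nt m p i t * (m i s * m j u * (m i s)⁻¹) * (nt m p i t)⁻¹ =
            m j w * (nt m p i t * m j u * (nt m p i t)⁻¹) := by
          rw [← hw, e4]
          group
        rw [e6]
        exact mul_mem (hmj w) e3
  exact h1 (conj_mem_cg hv)

/-- `p_i(-t) = m_i(-t⁻¹) n_i(t⁻¹) m_i(-t⁻¹)` -/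
lemma p_eq (i : J) (t : F) : p i (-t) = m i (-t⁻¹) * nt m p i t⁻¹ * m i (-t⁻¹) := by
  rw [nt, inv_inv, h.m_neg]
  group

end CT

end

section
variable {ι : Type*} {F : Type*} [Field F] {G : Type*} [Group G] {L : Type*} [Group L] {C : RC ι}
  {x : ι → F → L} {m p : {i // C.simp i} → F → G} {φ : G →* L}

/-- the hypotheses -/
structure HY (C : RC ι) (x : ι → F → L) (m p : {i // C.simp i} → F → G) (φ : G →* L) : Prop where
  sl : SL C
  cs : CS C x
  ct : CT (fun i k : {i // C.simp i} => C.pr i.1 k.1) m p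
  fm : ∀ i t, φ (m i t) = x i.1 t
  fp : ∀ i t, φ (p i t) = x (C.neg i.1) t

namespace HY

variable (H : HY C x m p φ)
include H

lemma f_nt (i : {i // C.simp i}) (t : F) : φ (nt m p i t) = nn C.neg x i.1 t := by
  rw [nt, map_mul, map_mul, H.fm, H.fp]
  rfl

lemma two (i k : {i // C.simp i}) (hne : i ≠ k) : C.pr i.1 k.1 = 0 ∨ C.pr i.1 k.1 = -1 :=
  H.sl.pr_simp i.2 k.2 fun e => hne (Subtype.ext e)

lemma f_V (i : {i // C.simp i}) {v : G} (hv : v ∈ Vm m i) :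
    φ v ∈ gr x (fun j => 0 < C.ht j ∧ j ≠ i.1) := by
  have h1 : Vm m i ≤ (gr x (fun j => 0 < C.ht j ∧ j ≠ i.1)).comap φ := by
    rw [Vm, closure_le]
    rintro _ ⟨j, s, t, hj, rfl⟩
    rw [SetLike.mem_coe, mem_comap, map_mul, map_mul, map_inv, H.fm, H.fm]
    exact H.cs.conj_simple i.2 s (CS.x_mem_gr (p := fun j => 0 < C.ht j ∧ j ≠ i.1)
      ⟨C.simp_pos j.1 j.2, fun e => hj (Subtype.ext e)⟩ t)
  exact h1 hv

omit [Group G] H in
lemma x_V (h : CS C x) {i : ι} (hi : C.simp i) {t : F}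
    (ht : x i t ∈ gr x (fun j => 0 < C.ht j ∧ j ≠ i)) : t = 0 := by
  have h1 := h.nl_conj_gr (q := fun j => 0 < C.ht j) (l := [i]) (fun j hj => by
    rw [wl_cons, wl_nil]
    exact C.s_pos i j hi hj.1 hj.2) ht
  obtain ⟨c, hc, h2⟩ := h.nl_act [i] i
  rw [h2, wl_cons, wl_nil, C.s_self] at h1
  have h3 := h.x_not_mem (by
    have := C.simp_pos i hi
    rw [C.ht_neg]
    omega) h1
  exact (mul_eq_zero.1 h3).resolve_left hc

/-- elements of `U` over elements of `V_i` -/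
lemma mem_V (i : {i // C.simp i}) {u : G} (hu : u ∈ Um m)
    (hf : φ u ∈ gr x (fun j => 0 < C.ht j ∧ j ≠ i.1)) : u ∈ Vm m i := by
  obtain ⟨v, hv, t, rfl⟩ := H.ct.U_fac i hu
  have h1 := mul_mem (inv_mem (H.f_V i hv)) hf
  rw [map_mul, inv_mul_cancel_left, H.fm] at h1
  rw [x_V H.cs i.2 h1, H.ct.m_zero, mul_one]
  exact hv

/-- the root subgroups of the positive roots lie in `U` -/
lemma Rp_le : ∀ (N : ℕ) (b : ι), 0 < C.ht b → (C.ht b).toNat = N →
    Rp C (Xs m) (nt m p) b ≤ Um m ∧ ∀ y ∈ Rp C (Xs m) (nt m p) b, ∃ u, φ y = x b u := by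
  intro N
  induction N using Nat.strong_induction_on with
  | _ N ih =>
  intro b hb hN
  by_cases hs : C.simp b
  · have h1 : Rp C (Xs m) (nt m p) b = Xs m ⟨b, hs⟩ := Rp_simp ⟨b, hs⟩
    rw [h1]
    constructor
    · intro y hy
      obtain ⟨t, rfl⟩ := H.ct.mem_X.1 hy
      exact m_mem_U _ t
    · intro y hy
      obtain ⟨t, rfl⟩ := H.ct.mem_X.1 hy
      exact ⟨t, H.fm _ t⟩
  · obtain ⟨i, hi, hR⟩ := Rp_step (Y := Xs m) (n := nt m p) H.sl hb hs
    have hbi : b ≠ i.1 := SL.ne_of_pr hi (by norm_num)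
    have hb' : 0 < C.ht (C.s i.1 b) := C.s_pos i.1 b i.2 hb hbi
    have hht : C.ht (C.s i.1 b) = C.ht b - 1 := by rw [H.sl.ht_s b i.1 i.2, hi]
    obtain ⟨h1, h2⟩ := ih (C.ht (C.s i.1 b)).toNat (by omega) (C.s i.1 b) hb' rfl
    have hne : C.s i.1 b ≠ i.1 := SL.ne_of_pr (m := -1) (by rw [C.pr_s, hi]) (by norm_num)
    rw [hR]
    constructor
    · intro y hy
      rw [mem_cg] at hy
      obtain ⟨u, hu⟩ := h2 _ hy
      have h3 := H.mem_V i (h1 hy) (by
        rw [hu]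
        exact CS.x_mem_gr (p := fun j => 0 < C.ht j ∧ j ≠ i.1) ⟨hb', hne⟩ u)
      have h4 := H.ct.n_conj_V (fun i k hne => H.two i k hne) i one_ne_zero h3
      have e1 : nt m p i 1 * ((nt m p i 1)⁻¹ * y * nt m p i 1) * (nt m p i 1)⁻¹ = y := by group
      rw [e1] at h4
      exact V_le i h4
    · intro y hy
      rw [mem_cg] at hy
      obtain ⟨u, hu⟩ := h2 _ hy
      obtain ⟨c, -, hc⟩ := H.cs.refl i.1 (C.s i.1 b)
      have h3 := (hc 1 u one_ne_zero).1
      rw [C.s_s, ← hu, ← H.f_nt, ← map_mul, ← map_inv, ← map_mul] at h3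
      have e1 : nt m p i 1 * ((nt m p i 1)⁻¹ * y * nt m p i 1) * (nt m p i 1)⁻¹ = y := by group
      rw [e1] at h3
      exact ⟨_, h3⟩

lemma RR_le {b : ι} (hb : 0 < C.ht b) : RR C m p b ≤ Um m := by
  rw [RR_pos hb]
  exact (H.Rp_le _ b hb rfl).1

/-- the action of `N` -/
lemma N_act {g : G} (hg : g ∈ NmT m p) : ∃ l : List ι,
    (∀ b, cg g (RR C m p b) = RR C m p (wl C l b)) ∧
    ∀ b, ∃ c : F, c ≠ 0 ∧ ∀ u, φ g * x b u * (φ g)⁻¹ = x (wl C l b) (c * u) := by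
  refine closure_induction (p := fun g _ => ∃ l : List ι,
    (∀ b, cg g (RR C m p b) = RR C m p (wl C l b)) ∧
    ∀ b, ∃ c : F, c ≠ 0 ∧ ∀ u, φ g * x b u * (φ g)⁻¹ = x (wl C l b) (c * u)) ?_ ?_ ?_ ?_ hg
  · rintro _ ⟨i, t, ht, rfl⟩
    refine ⟨[i.1], fun b => ?_, fun b => ?_⟩
    · rw [wl_cons, wl_nil]
      exact RR_act H.ct H.sl i ht b
    · obtain ⟨c, hc, h1⟩ := H.cs.refl i.1 b
      refine ⟨c * t ^ (-C.pr b i.1), mul_ne_zero (left_ne_zero_of_mul_eq_one hc)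
        (zpow_ne_zero _ ht), fun u => ?_⟩
      rw [H.f_nt, (h1 t u ht).1, wl_cons, wl_nil]
  · refine ⟨[], fun b => by rw [cg_one, wl_nil], fun b => ⟨1, one_ne_zero, fun u => ?_⟩⟩
    rw [map_one, one_mul, inv_one, mul_one, wl_nil, one_mul]
  · rintro g g' _ _ ⟨l, h1, h2⟩ ⟨l', h1', h2'⟩
    refine ⟨l ++ l', fun b => by rw [cg_mul, h1', h1, wl_append], fun b => ?_⟩
    obtain ⟨c, hc, h3⟩ := h2' b
    obtain ⟨d, hd, h4⟩ := h2 (wl C l' b)
    refine ⟨d * c, mul_ne_zero hd hc, fun u => ?_⟩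
    rw [map_mul]
    calc φ g * φ g' * x b u * (φ g * φ g')⁻¹ = φ g * (φ g' * x b u * (φ g')⁻¹) * (φ g)⁻¹ := by
          group
      _ = _ := by rw [h3, h4, wl_append, mul_assoc]
  · rintro g _ ⟨l, h1, h2⟩
    refine ⟨l.reverse, fun b => ?_, fun b => ?_⟩
    · have h3 := h1 (wl C l.reverse b)
      rw [wl_rev'] at h3
      rw [← h3, cg_inv_cg]
    · obtain ⟨c, hc, h3⟩ := h2 (wl C l.reverse b)
      refine ⟨c⁻¹, inv_ne_zero hc, fun u => ?_⟩
      have h4 := h3 (c⁻¹ * u)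
      rw [wl_rev', mul_inv_cancel_left₀ hc] at h4
      rw [map_inv, ← h4]
      group

/-- **the Bruhat decomposition** -/
theorem bruhat {g : G} (hg : g ∈ closure ({g | ∃ i t, g = m i t} ∪ {g | ∃ i t, g = p i t})) :
    ∃ u ∈ Um m, ∃ n ∈ NmT m p, ∃ u' ∈ Um m, g = u * n * u' := by
  have hU : ∀ w ∈ Um m, ∀ y, (∃ u ∈ Um m, ∃ n ∈ NmT m p, ∃ u' ∈ Um m, y = u * n * u') →
      ∃ u ∈ Um m, ∃ n ∈ NmT m p, ∃ u' ∈ Um m, w * y = u * n * u' := by
    rintro w hw _ ⟨u, hu, n, hn, u', hu', rfl⟩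
    exact ⟨w * u, mul_mem hw hu, n, hn, u', hu', by group⟩
  have hN : ∀ (i : {i // C.simp i}) (t : F), t ≠ 0 → ∀ y,
      (∃ u ∈ Um m, ∃ n ∈ NmT m p, ∃ u' ∈ Um m, y = u * n * u') →
      ∃ u ∈ Um m, ∃ n ∈ NmT m p, ∃ u' ∈ Um m, nt m p i t * y = u * n * u' := by
    rintro i t ht _ ⟨u, hu, n, hn, u', hu', rfl⟩
    have hni : ∀ t, t ≠ 0 → nt m p i t ∈ NmT m p := fun t ht => subset_closure ⟨i, t, ht, rfl⟩
    obtain ⟨v, hv, s, rfl⟩ := H.ct.U_fac i hu
    have hv' := V_le i (H.ct.n_conj_V (fun i k hne => H.two i k hne) i ht hv)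
    have e1 : nt m p i t * (v * m i s * n * u') =
        (nt m p i t * v * (nt m p i t)⁻¹) * (nt m p i t * m i s * n * u') := by group
    rw [e1]
    refine hU _ hv' _ ?_
    obtain ⟨l, h1, -⟩ := H.N_act (inv_mem hn)
    have h2 := h1 i.1
    rw [RR_simp] at h2
    rcases lt_or_gt_of_ne (C.ht_ne (wl C l i.1)) with hb | hb
    · -- negative
      by_cases hs : s = 0
      · exact ⟨1, one_mem _, nt m p i t * n, mul_mem (hni t ht) hn, u', hu', by
          rw [hs, H.ct.m_zero]; group⟩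
      -- `n_i(t) m_i(s) n_i(t)⁻¹ = p_i(-w)`
      have hw : t⁻¹ * t⁻¹ * s ≠ 0 := mul_ne_zero (mul_ne_zero (inv_ne_zero ht) (inv_ne_zero ht)) hs
      obtain ⟨w, hw'⟩ : ∃ w, w = t⁻¹ * t⁻¹ * s := ⟨_, rfl⟩
      rw [← hw'] at hw
      have h3 := H.ct.r1 i t s ht
      rw [← hw', H.ct.p_eq] at h3
      have h4 : (nt m p i t * n)⁻¹ * m i (-w⁻¹) * (nt m p i t * n) ∈ Um m := by
        have h5 : (nt m p i t)⁻¹ * m i (-w⁻¹) * nt m p i t ∈ Xs p i := by
          have h6 := conj_mem_cg (g := (nt m p i t)⁻¹) (show m i (-w⁻¹) ∈ Xs m i from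
            subset_closure ⟨_, rfl⟩)
          rw [H.ct.nt_inv, H.ct.nX i (neg_ne_zero.2 ht), ← H.ct.nt_inv, inv_inv] at h6
          exact h6
        have h7 := h1 (C.neg i.1)
        rw [RR_simp', wl_neg] at h7
        have h8 := conj_mem_cg (g := n⁻¹) h5
        rw [h7, inv_inv] at h8
        have h9 := H.RR_le (by rw [C.ht_neg]; omega) h8
        have e2 : (nt m p i t * n)⁻¹ * m i (-w⁻¹) * (nt m p i t * n) =
            n⁻¹ * ((nt m p i t)⁻¹ * m i (-w⁻¹) * nt m p i t) * n := by group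
        rw [e2]
        exact h9
      refine ⟨m i (-w⁻¹), m_mem_U i _, nt m p i w⁻¹ * (nt m p i t * n),
        mul_mem (hni _ (inv_ne_zero hw)) (mul_mem (hni t ht) hn),
        (nt m p i t * n)⁻¹ * m i (-w⁻¹) * (nt m p i t * n) * u', mul_mem h4 hu', ?_⟩
      calc nt m p i t * m i s * n * u'
          = (nt m p i t * m i s * (nt m p i t)⁻¹) * (nt m p i t * n * u') := by group
        _ = _ := by rw [h3]; group
    · -- positive
      have h4 : n⁻¹ * m i s * n ∈ Um m := by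
        have h5 := conj_mem_cg (g := n⁻¹) (show m i s ∈ Xs m i from subset_closure ⟨s, rfl⟩)
        rw [h2, inv_inv] at h5
        exact H.RR_le hb h5
      exact ⟨1, one_mem _, nt m p i t * n, mul_mem (hni t ht) hn, n⁻¹ * m i s * n * u',
        mul_mem h4 hu', by group⟩
  have hP : ∀ (i : {i // C.simp i}) (t : F), ∀ y,
      (∃ u ∈ Um m, ∃ n ∈ NmT m p, ∃ u' ∈ Um m, y = u * n * u') →
      ∃ u ∈ Um m, ∃ n ∈ NmT m p, ∃ u' ∈ Um m, p i t * y = u * n * u' := by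
    intro i t y hy
    have h1 := H.ct.r1 i 1 (-t) one_ne_zero
    have e1 : -((1 : F)⁻¹ * 1⁻¹ * -t) = t := by rw [inv_one]; ring
    rw [e1, H.ct.nt_inv] at h1
    rw [← h1, mul_assoc, mul_assoc]
    exact hN i 1 one_ne_zero _ (hU _ (m_mem_U i _) _ (hN i (-1) (neg_ne_zero.2 one_ne_zero) _ hy))
  refine closure_induction_left (p := fun g _ => ∃ u ∈ Um m, ∃ n ∈ NmT m p, ∃ u' ∈ Um m,
    g = u * n * u') ⟨1, one_mem _, 1, one_mem _, 1, one_mem _, by group⟩ ?_ ?_ hg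
  · rintro _ (⟨i, t, rfl⟩ | ⟨i, t, rfl⟩) y _ hy
    · exact hU _ (m_mem_U i t) _ hy
    · exact hP i t _ hy
  · rintro _ (⟨i, t, rfl⟩ | ⟨i, t, rfl⟩) y _ hy
    · exact hU _ (inv_mem (m_mem_U i t)) _ hy
    · rw [← H.ct.p_neg]
      exact hP i (-t) _ hy

/-- **the kernel is central** -/
theorem ker_le (hgen : closure ({g | ∃ i t, g = m i t} ∪ {g | ∃ i t, g = p i t}) = ⊤)
    (htriv : ∀ Q : Subgroup G, Q ≤ Um m → Q ≤ φ.ker →
      (∀ i, ∀ g ∈ Q, nt m p i 1 * g * (nt m p i 1)⁻¹ ∈ Q) → Q = ⊥) :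
    ∀ g, φ g = 1 → ∀ y, g * y = y * g := by
  -- the intersection with `U`
  have hQ : φ.ker ⊓ Um m = ⊥ := by
    refine htriv _ inf_le_right inf_le_left ?_
    rintro i g ⟨hg, hgU⟩
    have hg1 : φ g = 1 := hg
    have h1 : g ∈ Vm m i := H.mem_V i hgU (by rw [hg1]; exact one_mem _)
    refine mem_inf.2 ⟨?_, V_le i (H.ct.n_conj_V (fun i k hne => H.two i k hne) i one_ne_zero h1)⟩
    rw [MonoidHom.mem_ker, map_mul, map_mul, hg1, mul_one, map_inv, mul_inv_cancel]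
  have hUU : ∀ u ∈ Um m, φ u ∈ UU C x := by
    intro u hu
    have h1 : Um m ≤ (UU C x).comap φ := by
      rw [Um, closure_le]
      rintro _ ⟨i, t, rfl⟩
      rw [SetLike.mem_coe, mem_comap, H.fm]
      exact CS.x_mem_UU (C.simp_pos i.1 i.2) t
    exact h1 hu
  -- commuting with `U`
  have hcU : ∀ g, φ g = 1 → ∀ y ∈ Um m, g * y = y * g := by
    intro g hg y hy
    obtain ⟨u, hu, n, hn, u', hu', rfl⟩ := H.bruhat (g := g) (by rw [hgen]; exact mem_top _)
    have hφn : φ n ∈ UU C x := by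
      rw [map_mul, map_mul] at hg
      have e1 : φ n = (φ u)⁻¹ * (φ u')⁻¹ := by
        rw [eq_inv_mul_iff_mul_eq, eq_inv_iff_mul_eq_one, hg]
      rw [e1]
      exact mul_mem (inv_mem (hUU u hu)) (inv_mem (hUU u' hu'))
    obtain ⟨l, h1, h2⟩ := H.N_act hn
    have hpos : ∀ b, 0 < C.ht b → 0 < C.ht (wl C l b) := by
      intro b hb
      by_contra hcon
      have h3 := C.ht_ne (wl C l b)
      obtain ⟨c, hc, h4⟩ := h2 b
      have h5 : φ n * x b 1 * (φ n)⁻¹ ∈ UU C x :=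
        mul_mem (mul_mem hφn (CS.x_mem_UU hb 1)) (inv_mem hφn)
      rw [h4, mul_one] at h5
      exact hc (H.cs.x_not_mem (by omega) h5)
    have hnU : ∀ y ∈ Um m, n * y * n⁻¹ ∈ Um m := by
      intro y hy
      have h3 : cg n (Um m) ≤ Um m := by
        rw [cg, map_le_iff_le_comap, Um, closure_le]
        rintro _ ⟨i, t, rfl⟩
        have h4 := conj_mem_cg (g := n) (show m i t ∈ Xs m i from subset_closure ⟨t, rfl⟩)
        have h5 := h1 i.1
        rw [RR_simp] at h5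
        rw [h5] at h4
        exact H.RR_le (hpos i.1 (C.simp_pos i.1 i.2)) h4
      exact h3 (conj_mem_cg hy)
    have h3 : u * n * u' * y * (u * n * u')⁻¹ ∈ Um m := by
      have h4 := hnU _ (mul_mem (mul_mem hu' hy) (inv_mem hu'))
      have e1 : u * n * u' * y * (u * n * u')⁻¹ = u * (n * (u' * y * u'⁻¹) * n⁻¹) * u⁻¹ := by group
      rw [e1]
      exact mul_mem (mul_mem hu h4) (inv_mem hu)
    have h4 : u * n * u' * y * (u * n * u')⁻¹ * y⁻¹ ∈ φ.ker ⊓ Um m := by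
      refine mem_inf.2 ⟨?_, mul_mem h3 (inv_mem hy)⟩
      rw [MonoidHom.mem_ker, map_mul, map_mul, map_mul, hg, map_inv, map_inv, hg, one_mul, inv_one,
        mul_one, mul_inv_cancel]
    rw [hQ, mem_bot] at h4
    rw [mul_inv_eq_one, mul_inv_eq_iff_eq_mul] at h4
    exact h4
  -- commuting with the generators
  intro g hg y
  have h1 : (⊤ : Subgroup G) ≤ centralizer {g} := by
    rw [← hgen, closure_le]
    rintro _ (⟨i, t, rfl⟩ | ⟨i, t, rfl⟩)
    · rw [SetLike.mem_coe, mem_centralizer_iff]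
      intro z hz
      rw [show z = g from hz]
      exact hcU _ hg _ (m_mem_U i t)
    · rw [SetLike.mem_coe, mem_centralizer_iff]
      intro z hz
      rw [show z = g from hz]
      have h2 := H.ct.r1 i 1 (-t) one_ne_zero
      have e1 : -((1 : F)⁻¹ * 1⁻¹ * -t) = t := by rw [inv_one]; ring
      rw [e1] at h2
      have h3 := hcU ((nt m p i 1)⁻¹ * g * nt m p i 1) (by
        rw [map_mul, map_mul, hg, mul_one, map_inv, inv_mul_cancel]) _ (m_mem_U i (-t))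
      rw [← h2]
      calc g * (nt m p i 1 * m i (-t) * (nt m p i 1)⁻¹)
          = nt m p i 1 * ((nt m p i 1)⁻¹ * g * nt m p i 1 * m i (-t)) * (nt m p i 1)⁻¹ := by group
        _ = _ := by rw [h3]; group
  exact mem_centralizer_iff.1 (h1 (mem_top y)) g rfl

end HY

end

end Vale.Agent.P240.R2.N402
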