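import Vale.Agent.P240.R2.N402.TH
import Vale.Agent.P240.R2.H986.X.X4

/-!
The relations of rank two for the groups given by Chevalley's relations, simply laced case.
-/

set_option autoImplicit false

namespace Vale.Agent.P240.R2.N402

open Subgroup Vale.Agent.P240.R2.H986.X

section
variable {ι : Type*} {F : Type*} [Field F] {L : Type*} [Group L] {C : RC ι} {x : ι → F → L}

lemma conj_comm {G : Type*} [Group G] {a b a' b' : G} (n : G) (h : a * b = b * a)
    (ha : n * a * n⁻¹ = a') (hb : n * b * n⁻¹ = b') : a' * b' = b' * a' := by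
  rw [← ha, ← hb]
  calc n * a * n⁻¹ * (n * b * n⁻¹) = n * (a * b) * n⁻¹ := by group
    _ = _ := by rw [h]; group

namespace CSx

/-- the sign of `n_i(t) x_i(u) n_i(t)⁻¹` -/
lemma r1 (h : CS C x) (i : ι) {t : F} (ht : t ≠ 0) (u : F) :
    nn C.neg x i t * x i u * (nn C.neg x i t)⁻¹ = x (C.neg i) (-(t⁻¹ * t⁻¹ * u)) ∧
    nn C.neg x i t * x (C.neg i) u * (nn C.neg x i t)⁻¹ = x i (-(t * t * u)) := by
  obtain ⟨c, hcc, hc⟩ := h.refl i i
  have hc1 : c = -1 := by
    have h1 := (hc 1 1 one_ne_zero).1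
    have h2 := (hc 1 (-1) one_ne_zero).2
    rw [C.s_self, one_zpow, mul_one, mul_one] at h1
    rw [C.s_self, one_zpow, mul_one, C.neg_neg] at h2
    have e0 : nn C.neg x i 1 = x i 1 * x (C.neg i) (-1) * x i 1 := by
      rw [nn, inv_one]
    obtain ⟨n, hn⟩ : ∃ n, n = nn C.neg x i 1 := ⟨_, rfl⟩
    rw [← hn] at h1 h2 e0
    have h3 : n = x (C.neg i) c * x i (c * -1) * x (C.neg i) c := by
      calc n = (n * x i 1 * n⁻¹) * (n * x (C.neg i) (-1) * n⁻¹) * (n * x i 1 * n⁻¹) := by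
            conv_lhs => rw [show n = n * n * n⁻¹ by group]
            conv_lhs => rw [show n * n * n⁻¹ = n * (x i 1 * x (C.neg i) (-1) * x i 1) * n⁻¹ by
              rw [← e0]]
            group
        _ = _ := by rw [h1, h2]
    have h4 : n = x (C.neg i) c * x i 1 * x (C.neg i) (-1) := by
      have h5 : n * x i 1 = x (C.neg i) c * n := by rw [← h1]; group
      have h6 : n * x i 1 = x (C.neg i) c * x i 1 * x (C.neg i) (-1) * x i 1 := by
        rw [h5]
        conv_lhs => rw [e0]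
        group
      exact mul_right_cancel h6
    have h5 : x i (c * -1) * x (C.neg i) c = x i 1 * x (C.neg i) (-1) := by
      have h6 := h3.symm.trans h4
      rw [mul_assoc, mul_assoc] at h6
      exact mul_left_cancel h6
    have h6 : x i (-1 + c * -1) = x (C.neg i) (-1 + -c) := by
      rw [h.add, h.add, h.x_neg, h.x_neg (C.neg i) c, inv_mul_eq_iff_eq_mul, ← mul_assoc, ← h5,
        mul_inv_cancel_right]
    have h7 := (h.x_ne_opp h6).1
    linear_combination -h7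
  have h1 := (hc t u ht).1
  have h2 := (hc t u ht).2
  rw [C.s_self, C.pr_self, hc1] at h1 h2
  rw [C.neg_neg] at h2
  constructor
  · rw [h1]
    congr 1
    rw [zpow_neg, zpow_ofNat, pow_two, mul_inv]
    ring
  · rw [h2]
    congr 1
    rw [zpow_ofNat, pow_two]
    ring

section
variable (h : CS C x) (hS : SL C)
include h

omit hS in
/-- orthogonal simple roots -/
lemma com0 {i k : ι} (hi : C.simp i) (hk : C.simp k) (hne : i ≠ k) (h0 : C.pr k i = 0) (t u : F) :
    x i t * x k u = x k u * x i t ∧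
      x (C.neg i) t * x (C.neg k) u = x (C.neg k) u * x (C.neg i) t := by
  obtain ⟨c, hcc, hc⟩ := h.refl i k
  rw [C.s_fix i k h0, h0] at hc
  have e0 : c * (c * u) = u := by rw [← mul_assoc, hcc, one_mul]
  have h1 := (hc 1 (c * u) one_ne_zero).1
  have h2 := (hc 1 (c * u) one_ne_zero).2
  rw [neg_zero, zpow_zero, mul_one, e0] at h1
  rw [zpow_zero, mul_one, e0] at h2
  constructor
  · have h3 := (r1 h i one_ne_zero (-t)).2
    rw [show -((1 : F) * 1 * -t) = t by ring] at h3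
    exact conj_comm _ (h.mixed hi hk hne (-t) (c * u)) h3 h1
  · have h3 := (r1 h i one_ne_zero (-t)).1
    rw [show -((1 : F)⁻¹ * 1⁻¹ * -t) = t by rw [inv_one]; ring] at h3
    exact conj_comm _ (h.mixed hk hi hne.symm (c * u) (-t)).symm h3 h2

omit hS in
/-- `x_i` commutes with `x_{s_i(k)}` -/
lemma com1 {i k : ι} (hi : C.simp i) (hk : C.simp k) (hne : i ≠ k) (t u : F) :
    x i t * x (C.s i k) u = x (C.s i k) u * x i t := by
  obtain ⟨c, hcc, hc⟩ := h.refl i k
  have e0 : c * (c * u) = u := by rw [← mul_assoc, hcc, one_mul]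
  have h1 := (hc 1 (c * u) one_ne_zero).1
  rw [one_zpow, mul_one, e0] at h1
  have h3 := (r1 h i one_ne_zero (-t)).2
  rw [show -((1 : F) * 1 * -t) = t by ring] at h3
  exact conj_comm _ (h.mixed hi hk hne (-t) (c * u)) h3 h1

include hS

/-- the commutator of adjacent root elements -/
lemma comm_ex {i k : ι} (hi : C.simp i) (hk : C.simp k) (hne : i ≠ k) (t u : F) :
    ∃ v, x i t * x k u * (x i t)⁻¹ = x (C.s i k) v * x k u := by
  have hip := C.simp_pos i hi
  have hkp := C.simp_pos k hk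
  have h1 := h.comm i k hne (fun e => by
    rw [e, C.ht_neg] at hip
    omega) t u
  have h2 : gr x (C.cone i k) ≤ Xs x (C.s i k) := by
    rw [gr, closure_le]
    rintro _ ⟨j, w, hj, rfl⟩
    rw [(hS.cone i k j hi hk hne hj).2]
    exact subset_closure ⟨w, rfl⟩
  obtain ⟨v, hv⟩ := (mem_Xs h.add).1 (h2 h1)
  exact ⟨v, by rw [← hv, inv_mul_cancel_right]⟩

/-- `x_{s_i(k)}` and `x_k` -/
lemma disj {i k : ι} (hi : C.simp i) (hk : C.simp k) (hp : C.pr i k = -1) {a b : F}
    (e : x (C.s i k) a = x k b) : b = 0 := by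
  have h1 := (r1 h k one_ne_zero b).1
  obtain ⟨c, hcc, hc⟩ := h.refl k (C.s i k)
  have h2 := (hc 1 a one_ne_zero).1
  rw [e, h1, hS.s_symm i k hi hk hp, C.s_s] at h2
  have h3 := h.x_not_mem (i := C.neg k) (by
    have := C.simp_pos k hk
    rw [C.ht_neg]
    omega) (t := -((1 : F)⁻¹ * 1⁻¹ * b)) (by
      rw [h2]
      exact CS.x_mem_UU (C.simp_pos i hi) _)
  rw [inv_one, one_mul, one_mul, neg_eq_zero] at h3
  exact h3

/-- **the commutator** -/
theorem comm_eq {i k : ι} (hi : C.simp i) (hk : C.simp k) (hp : C.pr i k = -1) {t : F} (ht : t ≠ 0)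
    (u : F) : x i t * x k u * (x i t)⁻¹ * (x k u)⁻¹ =
      nn C.neg x i t * x k u * (nn C.neg x i t)⁻¹ := by
  have hne : i ≠ k := by
    rintro rfl
    rw [C.pr_self] at hp
    omega
  have hsk : C.s i k = C.s k i := hS.s_symm i k hi hk hp
  obtain ⟨j, hj⟩ : ∃ j, j = C.s i k := ⟨_, rfl⟩
  obtain ⟨v, hv⟩ := comm_ex h hS hi hk hne t u
  rw [← hj] at hv
  -- `x_j` commutes with `x_i` and `x_k`
  have cij : ∀ a b, x i a * x j b = x j b * x i a := fun a b => by
    rw [hj]; exact com1 h hi hk hne a b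
  have ckj : ∀ a b, x k a * x j b = x j b * x k a := fun a b => by
    rw [hj, hsk]; exact com1 h hk hi hne.symm a b
  -- the commutator of `x_{-i}` and `x_j`
  have hmj : ∃ v', x (C.neg i) (-t⁻¹) * x j v * (x (C.neg i) (-t⁻¹))⁻¹ = x k v' * x j v := by
    obtain ⟨c, hcc, hc⟩ := h.refl i k
    obtain ⟨c', hcc', hc'⟩ := h.refl i j
    rw [← hj] at hc
    rw [show C.s i j = k by rw [hj, C.s_s]] at hc'
    have h1 := (hc 1 (c * v) one_ne_zero).1
    rw [one_zpow, mul_one, ← mul_assoc, hcc, one_mul] at h1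
    have h2 := (r1 h i one_ne_zero t⁻¹).1
    rw [show -((1 : F)⁻¹ * 1⁻¹ * t⁻¹) = -t⁻¹ by rw [inv_one]; ring] at h2
    obtain ⟨w, hw⟩ := comm_ex h hS hi hk hne t⁻¹ (c * v)
    rw [← hj] at hw
    have h3 := (hc' 1 w one_ne_zero).1
    rw [one_zpow, mul_one] at h3
    refine ⟨c' * w, ?_⟩
    rw [← h3, ← h1, ← h2]
    calc nn C.neg x i 1 * x i t⁻¹ * (nn C.neg x i 1)⁻¹ *
        (nn C.neg x i 1 * x k (c * v) * (nn C.neg x i 1)⁻¹) *
        (nn C.neg x i 1 * x i t⁻¹ * (nn C.neg x i 1)⁻¹)⁻¹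
        = nn C.neg x i 1 * (x i t⁻¹ * x k (c * v) * (x i t⁻¹)⁻¹) * (nn C.neg x i 1)⁻¹ := by group
      _ = _ := by rw [hw]; group
  obtain ⟨v', hv'⟩ := hmj
  -- the product
  obtain ⟨w', hw'⟩ := comm_ex h hS hi hk hne t v'
  rw [← hj] at hw'
  have hmix : x (C.neg i) (-t⁻¹) * x k u * (x (C.neg i) (-t⁻¹))⁻¹ = x k u := by
    rw [h.mixed hi hk hne, mul_inv_cancel_right]
  have hij : x i t * x j v * (x i t)⁻¹ = x j v := by rw [cij, mul_inv_cancel_right]
  have h1 : nn C.neg x i t * x k u * (nn C.neg x i t)⁻¹ = x j (w' + v + v) * x k (v' + u) := by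
    calc nn C.neg x i t * x k u * (nn C.neg x i t)⁻¹
        = x i t * (x (C.neg i) (-t⁻¹) * (x i t * x k u * (x i t)⁻¹) *
          (x (C.neg i) (-t⁻¹))⁻¹) * (x i t)⁻¹ := by rw [nn]; group
      _ = x i t * ((x (C.neg i) (-t⁻¹) * x j v * (x (C.neg i) (-t⁻¹))⁻¹) *
          (x (C.neg i) (-t⁻¹) * x k u * (x (C.neg i) (-t⁻¹))⁻¹)) * (x i t)⁻¹ := by
            rw [hv]; group
      _ = (x i t * x k v' * (x i t)⁻¹) * (x i t * x j v * (x i t)⁻¹) *
          (x i t * x k u * (x i t)⁻¹) := by rw [hv', hmix]; group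
      _ = x j w' * (x k v' * x j v) * x j v * x k u := by rw [hw', hij, hv]; group
      _ = x j w' * (x j v * x k v') * x j v * x k u := by rw [ckj v' v]
      _ = x j w' * x j v * (x k v' * x j v) * x k u := by group
      _ = x j w' * x j v * (x j v * x k v') * x k u := by rw [ckj v' v]
      _ = x j w' * x j v * x j v * (x k v' * x k u) := by group
      _ = _ := by rw [h.add, h.add, h.add]
  obtain ⟨c, hcc, hc⟩ := h.refl i k
  have h2 := (hc t u ht).1
  rw [← hj] at h2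
  have h3 : v' + u = 0 := by
    refine disj h hS hi hk hp (a := -(w' + v + v) + c * t ^ (-C.pr k i) * u) ?_
    rw [← hj, h.add, ← h2, h1, h.x_neg, inv_mul_cancel_left]
  have h4 : v' = -u := by linear_combination h3
  -- `w' = -v`
  have h5 : w' = -v := by
    rw [h4] at hw'
    have h6 : x j w' = x j (-v) := by
      have h7 : x i t * x k (-u) * (x i t)⁻¹ = (x i t * x k u * (x i t)⁻¹)⁻¹ := by
        rw [h.x_neg]
        group
      rw [h7, hv, mul_inv_rev, ← h.x_neg, ← h.x_neg, ckj] at hw'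
      exact (mul_right_cancel hw').symm
    exact h.x_inj h6
  rw [hv, mul_inv_cancel_right, h1, h3, h5, h.x_zero, mul_one]
  congr 1
  ring

/-- the signs -/
lemma sign {i k : ι} (hi : C.simp i) (hk : C.simp k) (hp : C.pr i k = -1) {c d : F}
    (hc : nn C.neg x i 1 * x k 1 * (nn C.neg x i 1)⁻¹ = x (C.s i k) c)
    (hd : nn C.neg x k 1 * x i 1 * (nn C.neg x k 1)⁻¹ = x (C.s k i) d) : d = -c := by
  have h1 := comm_eq h hS hi hk hp one_ne_zero 1
  have h2 := comm_eq h hS hk hi (by rw [hS.symm k i hk hi, hp]) one_ne_zero 1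
  rw [hc] at h1
  rw [hd, ← hS.s_symm i k hi hk hp] at h2
  apply h.x_inj (i := C.s i k)
  rw [h.x_neg, ← h1, ← h2]
  group

end

end CSx

/-- **the relations of rank two** -/
theorem ct_of_cs (h : CS C x) (hS : SL C) : CT (fun i k : {i // C.simp i} => C.pr i.1 k.1)
    (fun (i : {i // C.simp i}) t => x i.1 t) (fun i t => x (C.neg i.1) t) where
  add i t u := h.add _ t u
  add' i t u := h.add _ t u
  r1 i t u ht := (CSx.r1 h i.1 ht u).1
  r1' i t u ht := (CSx.r1 h i.1 ht u).2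
  r2 i k hne h0 t u := (CSx.com0 h i.2 k.2 (fun e => hne (Subtype.ext e))
    (by rw [hS.symm k.1 i.1 k.2 i.2]; exact h0) t u).1
  r2' i k hne h0 t u := (CSx.com0 h i.2 k.2 (fun e => hne (Subtype.ext e))
    (by rw [hS.symm k.1 i.1 k.2 i.2]; exact h0) t u).2
  r3 i k hne t u := (h.mixed k.2 i.2 (fun e => hne (Subtype.ext e.symm)) u t).symm
  r4 i k hp t u ht := by
    have hki : C.pr k.1 i.1 = -1 := by rw [hS.symm k.1 i.1 k.2 i.2]; exact hp
    obtain ⟨c, -, hc⟩ := h.refl i.1 k.1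
    obtain ⟨d, -, hd⟩ := h.refl k.1 i.1
    have h1 := (hc 1 1 one_ne_zero).1
    have h2 := (hd 1 1 one_ne_zero).1
    rw [one_zpow, mul_one, mul_one] at h1 h2
    have h3 := CSx.sign h hS i.2 k.2 hp h1 h2
    have h4 := (hc t u ht).1
    have h5 := (hd 1 (-(t * u)) one_ne_zero).1
    change nn C.neg x i.1 t * x k.1 u * (nn C.neg x i.1 t)⁻¹ =
      nn C.neg x k.1 1 * x i.1 (-(t * u)) * (nn C.neg x k.1 1)⁻¹
    rw [h4, h5, hS.s_symm i.1 k.1 i.2 k.2 hp, h3, hki, neg_neg, zpow_one, one_zpow]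
    congr 1
    ring
  r4' i k hp t u ht := by
    have hki : C.pr k.1 i.1 = -1 := by rw [hS.symm k.1 i.1 k.2 i.2]; exact hp
    obtain ⟨c, -, hc⟩ := h.refl i.1 k.1
    obtain ⟨d, -, hd⟩ := h.refl k.1 i.1
    have h1 := (hc 1 1 one_ne_zero).1
    have h2 := (hd 1 1 one_ne_zero).1
    rw [one_zpow, mul_one, mul_one] at h1 h2
    have h3 := CSx.sign h hS i.2 k.2 hp h1 h2
    have h4 := (hc t u ht).2
    have h5 := (hd 1 (-(t⁻¹ * u)) one_ne_zero).2
    change nn C.neg x i.1 t * x (C.neg k.1) u * (nn C.neg x i.1 t)⁻¹ =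
      nn C.neg x k.1 1 * x (C.neg i.1) (-(t⁻¹ * u)) * (nn C.neg x k.1 1)⁻¹
    rw [h4, h5, hS.s_symm i.1 k.1 i.2 k.2 hp, h3, hki, zpow_neg, zpow_one, one_zpow]
    congr 1
    ring
  r5 i k hp u := by
    have hki : C.pr k.1 i.1 = -1 := by rw [hS.symm k.1 i.1 k.2 i.2]; exact hp
    have h1 := h.h_act i.1 k.1 (neg_ne_zero.2 (one_ne_zero (α := F))) (-u)
    rw [← h.nn_inv, hki, zpow_neg, zpow_one] at h1
    have e1 : (-1 : F)⁻¹ * -u = u := by
      rw [inv_neg, inv_one]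
      ring
    rw [e1] at h1
    change nn C.neg x i.1 1 * nn C.neg x i.1 1 * x k.1 u *
      (nn C.neg x i.1 1 * nn C.neg x i.1 1)⁻¹ = x k.1 (-u)
    rw [← h1]
    group
  r5' i k hp u := by
    have hki : C.pr (C.neg k.1) i.1 = 1 := by
      rw [C.pr_neg, hS.symm k.1 i.1 k.2 i.2, show C.pr i.1 k.1 = -1 from hp, neg_neg]
    have h1 := h.h_act i.1 (C.neg k.1) (neg_ne_zero.2 (one_ne_zero (α := F))) (-u)
    rw [← h.nn_inv, hki, zpow_one] at h1
    have e1 : (-1 : F) * -u = u := by ring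
    rw [e1] at h1
    change nn C.neg x i.1 1 * nn C.neg x i.1 1 * x (C.neg k.1) u *
      (nn C.neg x i.1 1 * nn C.neg x i.1 1)⁻¹ = x (C.neg k.1) (-u)
    rw [← h1]
    group
  r6 i k hp t u ht := CSx.comm_eq h hS i.2 k.2 hp ht u

end

end Vale.Agent.P240.R2.N402
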