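import Vale.Agent.P240.R2.N402.Sit
import Vale.Agent.P240.R2.N402.Num

/-!
`²E₆(q)`, `q` odd: the element `v` of prime order `l`, `l ∣ q² - q + 1`.
-/

set_option autoImplicit false

namespace Vale.Agent.P240.R2.N402

open Subgroup Vale.Agent.P240.K Vale.Agent.P240.H195 CartanMatrix
open Vale.Agent.P240.R2.H165.XC Vale.Agent.P240.R2.H945 Vale.Agent.P240.R2.H945.W
open Vale.Agent.P240.R2.H945.W.TS
open Vale.Agent.P240.R2.H986.X (RC nn nl wl SS wl_nil wl_cons wl_append wl_neg nl_nil nl_cons nl_append)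

universe u

section
variable {ι : Type} {F : Type} [Field F] {L : Type u} [Group L] {C : RC ι} {e : Fin 4 → ι}
  {K₀ : Subfield F} {K : ι → Subfield F} {x : ι → F → L} {co : ι → Fin 4 → ℤ} {r : ℕ}
  [Finite ι] [Finite F] [Finite L] [Fact r.Prime] [CharP F r]

/-- the number of elements of `K₀` -/
lemma Sit.three_le (h : Sit r C e K₀ K x co) : 3 ≤ Nat.card K₀ := by
  have h2 : (2 : F) ≠ 0 := by
    intro h0
    have h1 : r ∣ 2 := (CharP.cast_eq_zero_iff F r 2).1 (by exact_mod_cast h0)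
    exact h.odd ((Nat.prime_dvd_prime_iff_eq Fact.out Nat.prime_two).1 h1)
  have h3 : (-1 : K₀) ≠ 1 := by
    intro h0
    apply h2
    have h4 := congrArg (Subtype.val) h0
    have h5 : (-1 : F) = 1 := h4
    linear_combination -h5
  have h4 : (-1 : K₀) ≠ 0 := neg_ne_zero.2 one_ne_zero
  have hs : Function.Injective (![0, 1, -1] : Fin 3 → K₀) := by
    intro i j
    fin_cases i <;> fin_cases j <;> simp [h3.symm, h3]
  have := Finite.card_le_of_embedding ⟨_, hs⟩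
  simpa using this

lemma Sit.card_F (h : Sit r C e K₀ K x co) : Nat.card F = Nat.card K₀ ^ 2 := h.hd.card

omit [Finite ι] [Finite L] in
/-- `r` divides the order of `K₀` -/
lemma dvd_card_sub (K₀ : Subfield F) : r ∣ Nat.card K₀ := by
  have : Fintype K₀ := Fintype.ofFinite K₀
  have h0 : CharP K₀ r := RingHom.charP K₀.subtype K₀.subtype.injective r
  rw [Nat.card_eq_fintype_card]
  obtain ⟨n, hn, hc⟩ := FiniteField.card K₀ r
  rw [hc]
  exact dvd_pow_self _ n.ne_zero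

/-- `l` does not divide the order of `B` -/
theorem Sit.not_dvd_B (h : Sit r C e K₀ K x co) {l : ℕ} (hl : l.Prime)
    (hq : ¬ l ∣ Nat.card K₀) (hq1 : ¬ l ∣ Nat.card K₀ ^ 2 - 1) : ¬ l ∣ Nat.card (BB C K x) := by
  intro hdvd
  have : Fact l.Prime := ⟨hl⟩
  have hlr : l ≠ r := by
    rintro rfl
    exact hq (dvd_card_sub K₀)
  obtain ⟨z, hz⟩ := exists_prime_orderOf_dvd_card' l hdvd
  obtain ⟨u, hu, t, ht, hut⟩ := h.ts.mem_BB z.2
  have key : ∀ j : ℕ, ∃ v ∈ UU C K x, (u * t) ^ j = v * t ^ j := by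
    intro j
    induction j with
    | zero => exact ⟨1, one_mem _, by simp⟩
    | succ j ih =>
      obtain ⟨v, hv, hvj⟩ := ih
      refine ⟨v * (t ^ j * u * (t ^ j)⁻¹), mul_mem hv (h.sb.normal _ (pow_mem (TT_le_BB ht) j) u hu),
        ?_⟩
      rw [pow_succ, hvj, pow_succ]
      group
  obtain ⟨v, hv, hvk⟩ := key (Nat.card F - 1)
  rw [T_pow h.ts h.hZ ht, mul_one, ← hut] at hvk
  obtain ⟨k, hk⟩ := h.sb.exists_pow hv
  rw [← hvk, ← pow_mul] at hk
  have h1 : orderOf z.1 ∣ (Nat.card F - 1) * r ^ k := orderOf_dvd_of_pow_eq_one hk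
  rw [Subgroup.orderOf_coe, hz, h.card_F] at h1
  rcases hl.dvd_mul.1 h1 with h2 | h2
  · exact hq1 h2
  · exact hlr ((Nat.prime_dvd_prime_iff_eq hl Fact.out).1 (hl.dvd_of_dvd_pow h2))

/-- **the element `v`** -/
theorem Sit.exists_v (h : Sit r C e K₀ K x co) {l : ℕ} (hl : Nm (Nat.card K₀) l) :
    ∃ v ∈ S2 C e K x, v ^ l = 1 ∧ NF (BB C K x) (nu C e x 2) (nu C e x 3) v := by
  have : Fact l.Prime := ⟨hl.prime⟩
  have hX := h.crd (k := 2) (Or.inl rfl)
  have hY := h.crd (k := 3) (Or.inr rfl)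
  have hcard := card_Om h.sb Fact.out h.pl hX hY
  rw [h.card_F] at hcard
  have h1 : l ∣ Nat.card (Om (BB C K x) (nu C e x 2) (nu C e x 3)) := by
    rw [hcard]
    exact hl.pts
  obtain ⟨v, hv, hvl, hv1⟩ := Vale.Agent.P240.R2.N402.exists_v h.pl hX hY (h.nu_S2 (Or.inl rfl))
    (h.nu_S2 (Or.inr rfl)) (fun t => Sit.x_S2 (Or.inl rfl) (h.Ktop (Or.inl rfl) t))
    (fun t => Sit.x_S2 (Or.inr rfl) (h.Ktop (Or.inr rfl) t)) h.S2_le h1
  refine ⟨v, hv, hvl, NF_of h.pl hX hY (l := l) (h.not_dvd_B hl.prime hl.nq hl.sub) ?_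
    (h.S2_le hv) hvl hv1⟩
  rw [h.card_F]
  exact hl.add

end

end Vale.Agent.P240.R2.N402
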