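import Vale.Agent.P240.R2.N402.VA
import Vale.Agent.P240.R2.N402.Rd

/-!
`²E₆(q)`, `q` odd: the unipotent element `u` that commutes with `v`.
-/

set_option autoImplicit false

namespace Vale.Agent.P240.R2.N402

open Subgroup Vale.Agent.P240.K Vale.Agent.P240.H195 CartanMatrix
open Vale.Agent.P240.R2.H165.XC Vale.Agent.P240.R2.H945 Vale.Agent.P240.R2.H945.W
open Vale.Agent.P240.R2.H945.W.TS
open Vale.Agent.P240.R2.H986.X (RC nn nl wl SS wl_nil wl_cons wl_append wl_neg nl_nil nl_cons nl_append)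

universe u

section
variable {ι : Type} {F : Type} [Field F] {L : Type u} [Group L] {C : RC ι} {e : Fin 4 → ι}
  {K₀ : Subfield F} {K : ι → Subfield F} {x : ι → F → L} {co : ι → Fin 4 → ℤ} {r : ℕ}
  [Finite ι] [Finite F] [Finite L] [Fact r.Prime] [CharP F r]

/-- parabolic subgroups -/
def PJ (C : RC ι) (e : Fin 4 → ι) (K : ι → Subfield F) (x : ι → F → L) (J : Set (Fin 4)) :
    Subgroup L := closure ((BB C K x : Set L) ∪ nu C e x '' J)

omit [Finite ι] [Finite F] [Finite L] [Fact r.Prime] [CharP F r] in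
lemma B_le_PJ {J : Set (Fin 4)} : BB C K x ≤ PJ C e K x J := fun _ hy => subset_closure (Or.inl hy)

omit [Finite ι] [Finite F] [Finite L] in
lemma nu_PJ {J : Set (Fin 4)} {k : Fin 4} (hk : k ∈ J) : nu C e x k ∈ PJ C e K x J :=
  subset_closure (Or.inr ⟨k, hk, rfl⟩)

omit [Finite ι] [Finite F] [Finite L] in
lemma nl_PJ {J : Set (Fin 4)} {l : List (Fin 4)} (hl : ∀ k ∈ l, k ∈ J) :
    nl C x (l.map e) ∈ PJ C e K x J := by
  induction l with
  | nil => exact one_mem _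
  | cons k l ih =>
    rw [List.map_cons, nl_cons]
    exact mul_mem (nu_PJ (hl k List.mem_cons_self)) (ih fun j hj => hl j (List.mem_cons_of_mem _ hj))

omit [Finite ι] [Finite F] [Finite L] in
lemma PJ_mono {J J' : Set (Fin 4)} (h : J ⊆ J') : PJ C e K x J ≤ PJ C e K x J' :=
  closure_mono (Set.union_subset_union_right _ (Set.image_mono h))

omit [Finite ι] [Finite F] [Finite L] in
lemma H23_eq : Sit.H23 C e K x = PJ C e K x {2, 3} := by
  unfold Sit.H23 HH PJ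
  rw [Set.image_pair]

namespace Sit
variable (h : Sit r C e K₀ K x co)
include h

/-- the generators are different modulo `T` -/
lemma nu_ne {j k : Fin 4} (hjk : (nu C e x j)⁻¹ * nu C e x k ∈ BB C K x) : j = k := by
  by_contra hne
  have h1 : DC (BB C K x) (nl C x [e j]) (nl C x [e k]) := by
    rw [nl_cons, nl_nil, mul_one, nl_cons, nl_nil, mul_one]
    exact DC_of_inv hjk
  have h2 := dc_pos h.ts h.sb.toBN0 (h.simp_l [j]) (h.simp_l [k]) h1 (j := C.neg (e j)) (by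
    rw [wl_neg, C.ht_neg, List.map_cons, List.map_nil, wl_cons, wl_nil, C.s_self, C.ht_neg,
      neg_neg]
    exact C.simp_pos _ (h.simp j))
  rw [wl_neg, C.ht_neg] at h2
  have h3 : C.ht (wl C [e k] (e j)) = hv (wf [k] (sv j)) := h.ht_wl [k] j
  have h2' : 0 < - C.ht (wl C [e k] (e j)) := h2
  rw [h3] at h2'
  have h4 : ∀ j k : Fin 4, j ≠ k → ¬ 0 < -hv (wf [k] (sv j)) := by decide
  exact h4 j k hne h2'

/-- the generators in parabolic subgroups -/
lemma gen_mem {J : Set (Fin 4)} {s : L} (hs : s ∈ SS C x) (hsP : s ∈ PJ C e K x J) :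
    ∃ k ∈ J, s = nu C e x k := by
  have h1 : s ∈ nu C e x '' J := by
    refine h.sb.toBN0.mem_closure_gen ?_ ?_ hs hsP
    · rintro _ ⟨k, -, rfl⟩
      exact h.nu_S k
    · rintro _ ⟨j, hj, rfl⟩ _ ⟨i, hi, rfl⟩ h2
      obtain ⟨k, rfl⟩ := (h.hd.simp i).1 hi
      have h3 := h.nu_ne h2
      subst h3
      exact ⟨j, hj, rfl⟩
  obtain ⟨k, hk, rfl⟩ := h1
  exact ⟨k, hk, rfl⟩

lemma nu_mem_iff {J : Set (Fin 4)} {k : Fin 4} : nu C e x k ∈ PJ C e K x J ↔ k ∈ J := by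
  refine ⟨fun h1 => ?_, nu_PJ⟩
  obtain ⟨j, hj, h2⟩ := h.gen_mem (h.nu_S k) h1
  have h3 : k = j := h.nu_ne (by rw [h2, inv_mul_cancel]; exact one_mem _)
  rwa [h3]

/-- longest words -/
lemma long {J : Set (Fin 4)} {l : List (Fin 4)} (hl : ∀ k ∈ l, k ∈ J)
    (hn : ∀ k ∈ J, hv (wf l (sv k)) < 0) :
    (h.sb.toBN0.sub_bn (B_le_PJ (C := C) (e := e) (K := K) (x := x) (J := J))).Long
      (nl C x (l.map e)) := by
  refine ⟨⟨nl_N (h.simp_l l), nl_PJ hl⟩, ?_⟩
  rintro s ⟨hs, hsP⟩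
  obtain ⟨k, hk, rfl⟩ := h.gen_mem hs hsP
  exact h.not_rg l k (hn k hk)

/-- the radical as an intersection -/
lemma rd_eq (LR : StmtLongRad.{u}) {J : Set (Fin 4)} {l : List (Fin 4)} (hl : ∀ k ∈ l, k ∈ J)
    (hn : ∀ k ∈ J, hv (wf l (sv k)) < 0) :
    rd (UU C K x) (PJ C e K x J) = Uw C K x (l.map e) := by
  apply le_antisymm
  · intro z hz
    exact mem_Uw.2 ⟨rd_le hz, hz _ (nl_PJ hl)⟩
  · intro z hz
    rw [mem_Uw] at hz
    exact LR L r _ _ _ _ h.sb _ B_le_PJ _ (h.long hl hn) z hz.1 hz.2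

lemma card_step (l : List (Fin 4)) (k : Fin 4) (hp : 0 < hv (wf l (sv k))) :
    Nat.card (Uw C K x (l.map e)) = Nat.card (Uw C K x ((l ++ [k]).map e)) * Nat.card (K (e k)) := by
  rw [List.map_append, List.map_cons, List.map_nil]
  exact card_Uw h.ts Fact.out h.sb (h.simp_l l) (h.simp k) (by rwa [h.ht_wl])

lemma card_K01 {k : Fin 4} (hk : k = 0 ∨ k = 1) : Nat.card (K (e k)) = Nat.card K₀ := by
  rcases hk with rfl | rfl
  · rw [h.hd.K4_0]
  · rw [h.hd.K4_1]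

lemma card_K23 {k : Fin 4} (hk : k = 2 ∨ k = 3) : Nat.card (K (e k)) = Nat.card K₀ ^ 2 := by
  have h1 : Nat.card (⊤ : Subfield F) = Nat.card F := Nat.card_congr Subfield.topEquiv.toEquiv
  rcases hk with rfl | rfl
  · rw [h.hd.K4_2, h1, h.card_F]
  · rw [h.hd.K4_3, h1, h.card_F]

/-- `|rad P₂₃| = q⁹ |rad P₁₂₃|` -/
lemma card_rd (LR : StmtLongRad.{u}) :
    Nat.card (rd (UU C K x) (PJ C e K x {2, 3})) =
      Nat.card (rd (UU C K x) (PJ C e K x {1, 2, 3})) * Nat.card K₀ ^ 9 := by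
  rw [h.rd_eq LR (J := {2, 3}) (l := [2, 3, 2]) (by simp) (by
      intro k hk
      rcases hk with rfl | rfl <;> decide),
    h.rd_eq LR (J := {1, 2, 3}) (l := [2, 3, 2, 1, 2, 1, 3, 2, 1]) (by simp) (by
      intro k hk
      rcases hk with rfl | rfl | rfl <;> decide)]
  rw [h.card_step [2, 3, 2] 1 (by decide)]
  have e1 : ([2, 3, 2] ++ [1] : List (Fin 4)) = [2, 3, 2, 1] := rfl
  rw [e1, h.card_step [2, 3, 2, 1] 2 (by decide)]
  have e2 : ([2, 3, 2, 1] ++ [2] : List (Fin 4)) = [2, 3, 2, 1, 2] := rfl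
  rw [e2, h.card_step [2, 3, 2, 1, 2] 1 (by decide)]
  have e3 : ([2, 3, 2, 1, 2] ++ [1] : List (Fin 4)) = [2, 3, 2, 1, 2, 1] := rfl
  rw [e3, h.card_step [2, 3, 2, 1, 2, 1] 3 (by decide)]
  have e4 : ([2, 3, 2, 1, 2, 1] ++ [3] : List (Fin 4)) = [2, 3, 2, 1, 2, 1, 3] := rfl
  rw [e4, h.card_step [2, 3, 2, 1, 2, 1, 3] 2 (by decide)]
  have e5 : ([2, 3, 2, 1, 2, 1, 3] ++ [2] : List (Fin 4)) = [2, 3, 2, 1, 2, 1, 3, 2] := rfl
  rw [e5, h.card_step [2, 3, 2, 1, 2, 1, 3, 2] 1 (by decide)]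
  have e6 : ([2, 3, 2, 1, 2, 1, 3, 2] ++ [1] : List (Fin 4)) = [2, 3, 2, 1, 2, 1, 3, 2, 1] := rfl
  rw [e6, h.card_K01 (Or.inr rfl), h.card_K23 (Or.inl rfl), h.card_K23 (Or.inr rfl)]
  ring

end Sit

/-- an element of prime order acting on the difference of two groups -/
lemma exists_cent {l : ℕ} [Fact l.Prime] {R R' : Subgroup L} (hle : R' ≤ R) {v : L}
    (hvl : v ^ l = 1) (hR : ∀ z ∈ R, v * z * v⁻¹ ∈ R) (hR' : ∀ z ∈ R', v * z * v⁻¹ ∈ R')
    (hl : ¬ l ∣ Nat.card R - Nat.card R') : ∃ z ∈ R, z ∉ R' ∧ v * z = z * v := by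
  classical
  by_contra hcon
  push Not at hcon
  have hR'' : ∀ z, v * z * v⁻¹ ∈ R' → z ∈ R' := by
    intro z hz
    have key : ∀ k : ℕ, v ^ (k + 1) * z * (v ^ (k + 1))⁻¹ ∈ R' := by
      intro k
      induction k with
      | zero => simpa using hz
      | succ k ih =>
        have := hR' _ ih
        have e : v * (v ^ (k + 1) * z * (v ^ (k + 1))⁻¹) * v⁻¹ =
          v ^ (k + 1 + 1) * z * (v ^ (k + 1 + 1))⁻¹ := by
          rw [pow_succ' v (k + 1)]; group
        rwa [e] at this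
    have h1 := key (l - 1)
    have h2 : l - 1 + 1 = l := Nat.succ_pred_eq_of_pos (Fact.out : l.Prime).pos
    rw [h2, hvl] at h1
    simpa using h1
  apply hl
  let f : {z : L // z ∈ R ∧ z ∉ R'} → {z : L // z ∈ R ∧ z ∉ R'} := fun z =>
    ⟨v * z.1 * v⁻¹, hR _ z.2.1, fun h1 => z.2.2 (hR'' _ h1)⟩
  have h1 : l ∣ Nat.card {z : L // z ∈ R ∧ z ∉ R'} := by
    refine dvd_of_free f ?_ ?_
    · funext z
      apply Subtype.ext
      have h2 : ∀ k : ℕ, (f^[k] z).1 = v ^ k * z.1 * (v ^ k)⁻¹ := by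
        intro k
        induction k with
        | zero => simp
        | succ k ih =>
          rw [Function.iterate_succ_apply']
          change v * (f^[k] z).1 * v⁻¹ = _
          rw [ih, pow_succ']
          group
      rw [h2, hvl]
      simp
    · rintro ⟨z, hz, hz'⟩ h2
      have h3 : v * z * v⁻¹ = z := congrArg Subtype.val h2
      apply hcon z hz hz'
      calc v * z = v * z * v⁻¹ * v := by group
        _ = z * v := by rw [h3]
  have h2 : Nat.card R = Nat.card R' + Nat.card {z : L // z ∈ R ∧ z ∉ R'} := by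
    have h3 : Nat.card (R' ⊕ {z : L // z ∈ R ∧ z ∉ R'}) = Nat.card R := by
      refine Nat.card_congr ?_
      refine Equiv.ofBijective (fun y => match y with
        | .inl z => (⟨z.1, hle z.2⟩ : R)
        | .inr z => (⟨z.1, z.2.1⟩ : R)) ⟨?_, ?_⟩
      · rintro (z | z) (z' | z') h4
        · have h5 : z.1 = z'.1 := congrArg (Subtype.val : R → L) h4
          rw [Subtype.ext h5]
        · have h5 : z.1 = z'.1 := congrArg (Subtype.val : R → L) h4
          exact (z'.2.2 (h5 ▸ z.2)).elim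
        · have h5 : z.1 = z'.1 := congrArg (Subtype.val : R → L) h4
          exact (z.2.2 (h5 ▸ z'.2)).elim
        · have h5 : z.1 = z'.1 := congrArg (Subtype.val : R → L) h4
          rw [Subtype.ext h5]
      · rintro ⟨z, hz⟩
        by_cases hz' : z ∈ R'
        · exact ⟨.inl ⟨z, hz'⟩, rfl⟩
        · exact ⟨.inr ⟨z, hz, hz'⟩, rfl⟩
    rw [← h3, Nat.card_sum]
  rw [h2, Nat.add_sub_cancel_left]
  exact h1

/-- **the element `u`** -/
theorem Sit.exists_u (h : Sit r C e K₀ K x co) (LR : StmtLongRad.{u}) {l : ℕ}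
    (hl : Nm (Nat.card K₀) l) {v : L} (hv : v ∈ S2 C e K x) (hvl : v ^ l = 1) :
    ∃ u ∈ rd (UU C K x) (H23 C e K x), v * u = u * v ∧
      ∀ k, k = 0 ∨ k = 1 → u ∉ rd (UU C K x) (H23 C e K x ⊔ zpowers (nu C e x k)) := by
  have : Fact l.Prime := ⟨hl.prime⟩
  rw [H23_eq]
  have hvH : v ∈ PJ C e K x {2, 3} := by rw [← H23_eq]; exact h.S2_le hv
  -- the first element
  have hx1 : x (e 0) 1 ∈ rd (UU C K x) (PJ C e K x {2, 3}) := by
    rw [h.rd_eq LR (J := {2, 3}) (l := [2, 3, 2]) (by simp) (by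
      intro k hk
      rcases hk with rfl | rfl <;> decide)]
    refine x_Uw h.ts (C.simp_pos _ (h.simp 0)) ?_ (one_mem _)
    rw [← List.map_reverse, h.ht_wl]
    decide
  have hx2 : v * x (e 0) 1 = x (e 0) 1 * v :=
    h.S2_Th (Or.inl (h.hc.cv_simp 0)) hv (one_mem _)
  have hx3 : x (e 0) 1 ∉ rd (UU C K x) (PJ C e K x {2, 3} ⊔ zpowers (nu C e x 0)) := by
    intro h1
    have h2 := h1 _ (mem_sup_right (mem_zpowers (nu C e x 0)))
    obtain ⟨ψ, hψ, hψ0, h5⟩ := n_inv_act h.ts (e 0) (e 0)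
    rw [h5 _ (one_mem _), C.s_self] at h2
    exact hψ0 _ (one_mem _) one_ne_zero
      (h.ts.x_not_mem (simp_neg_lt (h.simp 0)) (by rw [h.ts.K_neg]; exact hψ _ (one_mem _)) h2)
  -- the second element
  have hle : PJ C e K x {2, 3} ≤ PJ C e K x {1, 2, 3} := PJ_mono (by simp)
  obtain ⟨y, hy, hy', hyv⟩ : ∃ y ∈ rd (UU C K x) (PJ C e K x {2, 3}),
      y ∉ rd (UU C K x) (PJ C e K x {1, 2, 3}) ∧ v * y = y * v := by
    refine exists_cent (l := l) (rd_anti hle) hvl (fun z hz => rd_conj' hz hvH)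
      (fun z hz => rd_conj' hz (hle hvH)) ?_
    rw [h.card_rd LR]
    have h1 : Nat.card (rd (UU C K x) (PJ C e K x {1, 2, 3})) * Nat.card K₀ ^ 9 -
        Nat.card (rd (UU C K x) (PJ C e K x {1, 2, 3})) =
        Nat.card (rd (UU C K x) (PJ C e K x {1, 2, 3})) * (Nat.card K₀ ^ 9 - 1) := by
      rw [Nat.mul_sub, mul_one]
    rw [h1]
    intro h2
    rcases hl.prime.dvd_mul.1 h2 with h3 | h3
    · have h4 : IsPGroup r (rd (UU C K x) (PJ C e K x {1, 2, 3})) :=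
        h.sb.pgroup.to_le rd_le
      obtain ⟨n, hn⟩ := IsPGroup.iff_card.1 h4
      rw [hn] at h3
      have h5 := (Nat.prime_dvd_prime_iff_eq hl.prime Fact.out).1 (hl.prime.dvd_of_dvd_pow h3)
      apply hl.nq
      rw [h5]
      exact dvd_card_sub K₀
    · have h4 := hl.nine
      have h5 : 1 ≤ Nat.card K₀ ^ 9 := Nat.one_le_pow _ _ Nat.card_pos
      have h6 : l ∣ (Nat.card K₀ ^ 9 + 1) - (Nat.card K₀ ^ 9 - 1) := Nat.dvd_sub h4 h3
      have h7 : (Nat.card K₀ ^ 9 + 1) - (Nat.card K₀ ^ 9 - 1) = 2 := by omega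
      rw [h7] at h6
      exact hl.two ((Nat.prime_dvd_prime_iff_eq hl.prime Nat.prime_two).1 h6)
  have hle' : PJ C e K x {2, 3} ⊔ zpowers (nu C e x 1) = PJ C e K x {1, 2, 3} := by
    apply le_antisymm
    · exact sup_le hle (by rw [zpowers_le]; exact nu_PJ (by simp))
    · rw [PJ, closure_le]
      rintro g (hg | ⟨k, hk, rfl⟩)
      · exact mem_sup_left (B_le_PJ hg)
      · rcases hk with rfl | rfl | rfl
        · exact mem_sup_right (mem_zpowers _)
        · exact mem_sup_left (nu_PJ (by simp))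
        · exact mem_sup_left (nu_PJ (by simp))
  rw [← hle'] at hy'
  -- not a union of two subgroups
  by_cases h1 : x (e 0) 1 ∈ rd (UU C K x) (PJ C e K x {2, 3} ⊔ zpowers (nu C e x 1))
  · by_cases h2 : y ∈ rd (UU C K x) (PJ C e K x {2, 3} ⊔ zpowers (nu C e x 0))
    · refine ⟨x (e 0) 1 * y, mul_mem hx1 hy, ?_, ?_⟩
      · rw [← mul_assoc, hx2, mul_assoc, hyv, mul_assoc]
      · rintro k (rfl | rfl) h3
        · exact hx3 ((mul_mem_cancel_right h2).1 h3)
        · exact hy' ((mul_mem_cancel_left h1).1 h3)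
    · refine ⟨y, hy, hyv, ?_⟩
      rintro k (rfl | rfl)
      exacts [h2, hy']
  · refine ⟨x (e 0) 1, hx1, hx2, ?_⟩
    rintro k (rfl | rfl)
    exacts [hx3, h1]

end

end Vale.Agent.P240.R2.N402
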